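import Vale.Agent.P103.MathlibUsed
import Vale.Agent.P103.Statement

set_option linter.all false

section

section

/-!
# P103: parameters and the basic functions of the construction
-/

namespace Vale.Agent.P103

open scoped BigOperators Topology

/-- Number-theoretic data: an irrational rotation `ω` with good recurrence, and a period `p`. -/
structure NT (p : ℕ) (ω : Circle) (H h : ℝ) : Prop where
  two_le : 2 ≤ p
  one_le : 1 ≤ H
  h_pos : 0 < h
  h_le : h ≤ 1
  visit : ∀ ζ : Circle, ∀ x : ℝ, 0 < x → x ≤ 2 →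
    ∃ s : ℕ, 1 ≤ s ∧ s * x ≤ H ∧ ‖((ω ^ s * ζ : Circle) : ℂ) - 1‖ ≤ x
  sep : ∀ t : ℕ, 1 ≤ t → p ∣ t → 5 * H < t * ‖((ω ^ t : Circle) : ℂ) - 1‖
  low : ∀ t : ℕ, 1 ≤ t → h ≤ t * ‖((ω ^ t : Circle) : ℂ) - 1‖

/-- All the parameters of the construction. -/
structure Par where
  p : ℕ
  ω : Circle
  H : ℝ
  h : ℝ
  Λ : ℝ
  K : ℝ
  nt : NT p ω H h
  Λ_ge : 64 * Real.exp (16 / h) ≤ Λ
  K_ge : 10 * H * Real.log Λ ≤ K

namespace Par

variable (P : Par)

instance instNeZero : NeZero P.p := ⟨by have := P.nt.two_le; omega⟩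

/-- The space `ℂ^p`. -/
abbrev V : Type := EuclideanSpace ℂ (ZMod P.p)

end Par

/-- `ν(ζ) = |ζ-1|²/4`. -/
noncomputable def nu (ζ : Circle) : ℝ := ‖(ζ : ℂ) - 1‖ ^ 2 / 4

/-- `S(r) = 1-r` for `r ≤ 3/4`, `0` for `r ≥ 1`. -/
noncomputable def S (r : ℝ) : ℝ := (1 - r) * Real.smoothTransition (4 * (1 - r))

/-- `k(r) = 1` for `r ≤ 1/2`, `0` for `r ≥ 3/4`. -/
noncomputable def kk (r : ℝ) : ℝ := Real.smoothTransition (3 - 4 * r)

/-- `mx(ν,b) = ν` for `ν ≥ 2b`, and `≥ max(ν,b)` always. -/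
noncomputable def mx (ν b : ℝ) : ℝ := ν + b * Real.smoothTransition (2 - ν / b)

/-- `β(a) = 1/(2(1+log(1+1/a)))` -/
noncomputable def beta (a : ℝ) : ℝ := 1 / (2 * (1 + Real.log (1 + 1 / a)))

/-- Cut-off `1` for `N ≤ 4B²`, `0` for `N ≥ 9B²`-type (argument `s = N/(N+B²)`). -/
noncomputable def cutA (s : ℝ) : ℝ := Real.smoothTransition (9 - 10 * s)

noncomputable def cutB (s : ℝ) : ℝ := Real.smoothTransition ((160 - 170 * s) / 7)

namespace Par

variable (P : Par)

/-- `A(ζ) = exp(-K/ν(ζ))`, `0` at `ζ=1`. -/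
noncomputable def A (ζ : Circle) : ℝ := expNegInvGlue (nu ζ / P.K)

/-- `q_t(ζ) = ∏_{j<t} Λ ν(ζ_j)`. -/
noncomputable def q (ζ : Circle) (t : ℕ) : ℝ := ∏ j ∈ Finset.range t, (P.Λ * nu (P.ω ^ j * ζ))

/-- `r_t = A(ζ_t) / a_t`, `a_t = a q_t`. -/
noncomputable def r (ζ : Circle) (a : ℝ) (t : ℕ) : ℝ := P.A (P.ω ^ t * ζ) / (a * P.q ζ t)

/-- `P_t = ∏_{m<t} (1 - k(r_m))`. -/
noncomputable def Pr (ζ : Circle) (a : ℝ) (t : ℕ) : ℝ :=
  ∏ m ∈ Finset.range t, (1 - kk (P.r ζ a m))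

/-- coefficient `P_t S_t a 2^{-t}`. -/
noncomputable def coef (ζ : Circle) (a : ℝ) (t : ℕ) : ℝ :=
  P.Pr ζ a t * S (P.r ζ a t) * a / 2 ^ t

/-- basis vector `u_j`. -/
noncomputable def bas (j : ZMod P.p) : P.V := EuclideanSpace.single j (1 : ℂ)

/-- the disc family `e(ζ,a,u) = Σ P_t S_t a 2^{-t} u^{2^t} u_{-t mod p}`. -/
noncomputable def e (ζ : Circle) (a : ℝ) (u : ℂ) : P.V :=
  ∑' t : ℕ, ((P.coef ζ a t : ℂ) * u ^ (2 ^ t)) • P.bas (-(t : ZMod P.p))

/-- `Γ(ζ,a) = Λ mx(ν(ζ),β(a)) a`. -/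
noncomputable def Gam (ζ : Circle) (a : ℝ) : ℝ := P.Λ * mx (nu ζ) (beta a) * a

/-- cyclic shift `U u_j = u_{j+1}`. -/
noncomputable def U : P.V ≃ₗᵢ[ℂ] P.V :=
  LinearIsometryEquiv.piLpCongrLeft 2 ℂ ℂ (Equiv.addRight (1 : ZMod P.p))

/-- kill the 0-th coordinate -/
noncomputable def hat (v : P.V) : P.V := v - v 0 • P.bas 0

/-- the wrapping map -/
noncomputable def W (ζ : Circle) (z : ℂ) : P.V :=
  (kk (P.A ζ / (P.A ζ + ‖z‖)) : ℂ) •
    P.e (P.ω * ζ) (P.Gam ζ (P.A ζ + ‖z‖)) ((z / ‖z‖) ^ 2)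

noncomputable def chi1 (ζ : Circle) (N : ℝ) : ℝ := cutA (N / (N + P.A ζ ^ 4))

noncomputable def chi2 (ζ : Circle) (N : ℝ) : ℝ := cutB (N / (N + P.A ζ ^ 2))

/-- the fibre map `F(ζ,(z,v))`; the 0-th coordinate of `v` is ignored except in `N`. -/
noncomputable def F (ζ : Circle) (z : ℂ) (v : P.V) : P.V :=
  ((P.chi2 ζ (‖z‖ ^ 2 + ‖v‖ ^ 2) * (2 * P.Λ * nu ζ) : ℝ) : ℂ) •
      P.U (P.hat v + ((P.chi1 ζ (‖z‖ ^ 2 + ‖v‖ ^ 2) : ℂ) * z) • P.bas 0)
    + P.W ζ z

end Par

end Vale.Agent.P103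
end
end

section

section

/-!
# P103: the rotation number

`exists_rotation` : there are `p`, an element `ω` of the circle and constants such that every point
of the circle comes back quickly to `1` under the rotation by `ω`, while times divisible by `p`
are much worse approximations.
-/

open Real goldenRatio

namespace Vale.Agent.P103

namespace Rot

/-- distance of `exp (2 π y)` to `1`, lower bound -/
lemma four_mul_le_norm {y : ℝ} {m : ℤ} (h : |y - m| ≤ 1 / 2) :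
    4 * |y - m| ≤ ‖((Circle.exp (2 * π * y) : Circle) : ℂ) - 1‖ := by
  have h1 : Circle.exp (2 * π * y) = Circle.exp (2 * π * (y - m)) := by
    rw [Circle.exp_eq_exp]
    exact ⟨m, by ring⟩
  rw [h1, Circle.coe_exp, mul_comm ((2 * π * (y - m) : ℝ) : ℂ) Complex.I,
    Complex.norm_exp_I_mul_ofReal_sub_one]
  have h2 : (2 * π * (y - m)) / 2 = π * (y - m) := by ring
  rw [h2, norm_mul, Real.norm_eq_abs, Real.norm_eq_abs, abs_two]
  have h3 : |sin (π * (y - m))| = sin (π * |y - m|) := by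
    rcases le_total 0 (y - m) with h0 | h0
    · rw [abs_of_nonneg h0, abs_of_nonneg]
      apply sin_nonneg_of_nonneg_of_le_pi (by (clear * - h0; positivity))
      rw [abs_of_nonneg h0] at h
      nlinarith only [h, pi_pos]
    · rw [abs_of_nonpos h0, abs_of_nonpos]
      · rw [← sin_neg]; ring_nf
      · apply sin_nonpos_of_nonpos_of_neg_pi_le
        · nlinarith only [h0, pi_pos]
        · rw [abs_of_nonpos h0] at h
          nlinarith only [h, pi_pos]
  rw [h3]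
  have h4 := Real.mul_le_sin (x := π * |y - m|) (by (clear * -; positivity)) (by nlinarith only [h, pi_pos])
  have h5 : 2 / π * (π * |y - m|) = 2 * |y - m| := by
    field_simp
  rw [h5] at h4
  linarith only [h4]

/-- distance of `exp (2 π y)` to `1`, upper bound -/
lemma norm_le_two_pi_mul (y : ℝ) (m : ℤ) :
    ‖((Circle.exp (2 * π * y) : Circle) : ℂ) - 1‖ ≤ 2 * π * |y - m| := by
  have h1 : Circle.exp (2 * π * y) = Circle.exp (2 * π * (y - m)) := by
    rw [Circle.exp_eq_exp]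
    exact ⟨m, by ring⟩
  rw [h1, Circle.coe_exp, mul_comm ((2 * π * (y - m) : ℝ) : ℂ) Complex.I]
  refine (Real.norm_exp_I_mul_ofReal_sub_one_le).trans ?_
  rw [norm_mul, Real.norm_eq_abs, Real.norm_eq_abs, abs_of_pos (by positivity : (0:ℝ) < 2 * π)]

lemma norm_form_ge_one {a b : ℤ} (hb : b ≠ 0 ∨ a ≠ 0) :
    1 ≤ |((a : ℝ) - b * φ)| * |((a : ℝ) - b * ψ)| := by
  have hprod : ((a : ℝ) - b * φ) * ((a : ℝ) - b * ψ) = ((a ^ 2 - a * b - b ^ 2 : ℤ) : ℝ) := by
    push_cast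
    have h1 := goldenRatio_mul_goldenConj
    have h2 := goldenRatio_add_goldenConj
    linear_combination (-(a : ℝ) * b) * h2 + (b : ℝ) ^ 2 * h1
  rw [← abs_mul, hprod]
  have hne : (a ^ 2 - a * b - b ^ 2 : ℤ) ≠ 0 := by
    intro h0
    have h0' : ((a : ℝ) - b * φ) * ((a : ℝ) - b * ψ) = 0 := by rw [hprod, h0]; simp
    have key : ∀ θ : ℝ, Irrational θ → (a : ℝ) - b * θ = 0 → False := by
      intro θ hθ h
      by_cases hb0 : b = 0
      · subst hb0
        simp at h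
        simp [h] at hb
      · have : θ = ((a / b : ℚ) : ℝ) := by
          push_cast
          have hbr : (b : ℝ) ≠ 0 := by exact_mod_cast hb0
          field_simp
          linarith only [h]
        exact hθ ⟨_, this.symm⟩
    rcases mul_eq_zero.mp h0' with h | h
    · exact key _ goldenRatio_irrational h
    · exact key _ goldenConj_irrational h
  rw [← Int.cast_abs]
  exact_mod_cast Int.one_le_abs hne

lemma sqrt5_bounds : (2.23 : ℝ) < √5 ∧ √5 < (2.24 : ℝ) := by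
  constructor
  · rw [show (2.23 : ℝ) = √(2.23 ^ 2) by rw [Real.sqrt_sq]; (clear * -; norm_num)]
    exact Real.sqrt_lt_sqrt (by norm_num) (by norm_num)
  · rw [show (2.24 : ℝ) = √(2.24 ^ 2) by rw [Real.sqrt_sq]; norm_num]
    exact Real.sqrt_lt_sqrt (by norm_num) (by norm_num)

lemma fib_le_phi_pow (n : ℕ) : (Nat.fib n : ℝ) ≤ φ ^ n ∧ (Nat.fib (n + 1) : ℝ) ≤ φ ^ (n + 1) := by
  induction n with
  | zero => simp only [Nat.fib_zero, CharP.cast_eq_zero, pow_zero, zero_le_one, zero_add, Nat.fib_one, Nat.cast_one, pow_one, one_lt_goldenRatio.le, and_self]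
  | succ n ih =>
    refine ⟨ih.2, ?_⟩
    have h : φ ^ (n + 1 + 1) = φ ^ (n + 1) + φ ^ n := by
      have := goldenRatio_pow_sub_goldenRatio_pow n
      linarith
    rw [h, Nat.fib_add_two, Nat.cast_add]
    linarith only [ih]

/-- the constant `c` -/
noncomputable def al : ℝ := 1 / (40 + φ)

lemma cphi_pos : (0 : ℝ) < 40 + φ := by linarith only [goldenRatio_pos]

noncomputable def qq (n : ℕ) : ℕ := 40 * Nat.fib n + Nat.fib (n + 1)

lemma qq_pos (n : ℕ) : 1 ≤ qq n := by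
  have : 0 < Nat.fib (n + 1) := Nat.fib_pos.2 (Nat.succ_pos n)
  unfold qq
  omega

lemma qq_succ (n : ℕ) : qq (n + 1) ≤ 41 * qq n := by
  unfold qq
  rw [Nat.fib_add_two (n := n)]
  omega

lemma le_qq (n : ℕ) : n ≤ qq n := by
  have h1 := Nat.le_fib_add_one n
  have h2 : 0 < Nat.fib (n + 1) := Nat.fib_pos.2 (Nat.succ_pos n)
  unfold qq
  omega

lemma qq_mul_al (n : ℕ) : (qq n : ℝ) * al - Nat.fib n = ψ ^ n / (40 + φ) := by
  have h := fib_succ_sub_goldenRatio_mul_fib n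
  have hc := cphi_pos.ne'
  unfold qq al
  push_cast
  rw [← h]
  generalize φ = x at hc ⊢
  field_simp
  ring

lemma abs_psi_pow_mul (n : ℕ) : |ψ ^ n / (40 + φ)| * (qq n : ℝ) ≤ 1 := by
  have hc := cphi_pos
  rw [abs_div, abs_of_pos hc, div_mul_eq_mul_div, div_le_one hc]
  have h1 := fib_le_phi_pow n
  have h2 : |ψ ^ n| * φ ^ n = 1 := by
    rw [abs_pow, ← mul_pow, abs_of_neg goldenConj_neg]
    have : -ψ * φ = 1 := by
      have := goldenConj_mul_goldenRatio
      linarith only [this]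
    rw [this, one_pow]
  have h3 : |ψ ^ n| * φ ^ (n + 1) = φ := by
    rw [pow_succ, ← mul_assoc, h2, one_mul]
  have h0 : 0 ≤ |ψ ^ n| := abs_nonneg _
  unfold qq
  push_cast
  calc |ψ ^ n| * (40 * (Nat.fib n : ℝ) + Nat.fib (n + 1))
      = 40 * (|ψ ^ n| * Nat.fib n) + |ψ ^ n| * Nat.fib (n + 1) := by ring
    _ ≤ 40 * (|ψ ^ n| * φ ^ n) + |ψ ^ n| * φ ^ (n + 1) := by
        gcongr
        · exact h1.1
        · exact h1.2
    _ = 40 + φ := by rw [h2, h3]; ring

/-- every real number is approximated mod 1 by some `s * al`, `1 ≤ s ≤ q`. -/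
lemma exists_approx (n : ℕ) (y : ℝ) :
    ∃ s : ℕ, 1 ≤ s ∧ s ≤ qq n ∧ ∃ m : ℤ, |(s : ℝ) * al - y - m| ≤ 3 / (2 * qq n) := by
  set q : ℕ := qq n with hq
  set P : ℕ := Nat.fib n with hP
  have hq1 : 1 ≤ q := qq_pos n
  have hqr : (0 : ℝ) < q := by exact_mod_cast hq1
  have hcop : Nat.Coprime P q := by
    have : Nat.Coprime P (Nat.fib (n + 1)) := Nat.fib_coprime_fib_succ n
    rw [hq]
    unfold qq
    rw [← hP]
    rw [Nat.add_comm, Nat.coprime_add_mul_right_right]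
    exact this
  set r : ℤ := round (y * q) with hr
  have hround : |y * q - r| ≤ 1 / 2 := abs_sub_round _
  -- inverse of P mod q
  obtain ⟨u, v, huv⟩ : ∃ u v : ℤ, u * P + v * q = 1 := by
    have h := Nat.isCoprime_iff_coprime.mpr hcop
    obtain ⟨u, v, h⟩ := h
    exact ⟨u, v, by linarith only [h]⟩
  -- s0 = (r * u - 1) % q , s = s0 + 1
  set s0 : ℤ := (r * u - 1) % q with hs0
  have hq0 : (q : ℤ) ≠ 0 := by exact_mod_cast (by omega : q ≠ 0)
  have hs0n : 0 ≤ s0 := Int.emod_nonneg _ hq0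
  have hs0lt : s0 < q := Int.emod_lt_of_pos _ (by exact_mod_cast hq1)
  obtain ⟨w, hw⟩ : ∃ w : ℤ, r * u - 1 = s0 + q * w := ⟨(r * u - 1) / q, by
    rw [hs0]; exact (Int.emod_add_mul_ediv _ _).symm⟩
  refine ⟨(s0 + 1).toNat, by omega, by omega, ?_⟩
  have hs : (((s0 + 1).toNat : ℕ) : ℝ) = (s0 : ℝ) + 1 := by
    have : (((s0 + 1).toNat : ℕ) : ℤ) = s0 + 1 := Int.toNat_of_nonneg (by omega)
    have h2 : (((s0 + 1).toNat : ℕ) : ℝ) = ((((s0 + 1).toNat : ℕ) : ℤ) : ℝ) :=
      (Int.cast_natCast _).symm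
    rw [h2, this]; push_cast; ring
  -- (s0+1) * P = r + q * m
  have hsP : (s0 + 1) * P = r + q * (- v * r - w * P) := by
    have h1 : s0 + 1 = r * u - q * w := by linarith only [hw]
    rw [h1]
    linear_combination r * huv
  refine ⟨- v * r - w * P, ?_⟩
  rw [hs]
  have hsP' : ((s0 : ℝ) + 1) * P = r + q * ((- v * r - w * P : ℤ) : ℝ) := by
    exact_mod_cast hsP
  have hal : al - P / q = (ψ ^ n / (40 + φ)) / q := by
    have := qq_mul_al n
    rw [← hq, ← hP] at this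
    field_simp
    field_simp at this
    linarith only [this]
  have hkey : ((s0 : ℝ) + 1) * al - y - ((- v * r - w * P : ℤ) : ℝ)
      = ((s0 : ℝ) + 1) * ((ψ ^ n / (40 + φ)) / q) - (y * q - r) / q := by
    rw [← hal]
    have hq' := hqr.ne'
    have : ((- v * r - w * P : ℤ) : ℝ) = (((s0 : ℝ) + 1) * P - r) / q := by
      rw [hsP']; field_simp; ring
    rw [this]
    field_simp
    ring
  rw [hkey]
  have hs_le : (s0 : ℝ) + 1 ≤ q := by exact_mod_cast hs0lt
  have hs_nn : (0 : ℝ) ≤ (s0 : ℝ) + 1 := by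
    have : (0 : ℝ) ≤ s0 := by exact_mod_cast hs0n
    linarith only [this]
  have hpsi : |ψ ^ n / (40 + φ)| ≤ 1 / q := by
    rw [le_div_iff₀ hqr]
    exact abs_psi_pow_mul n
  calc |((s0 : ℝ) + 1) * ((ψ ^ n / (40 + φ)) / q) - (y * q - r) / q|
      ≤ |((s0 : ℝ) + 1) * ((ψ ^ n / (40 + φ)) / q)| + |(y * q - r) / q| := abs_sub _ _
    _ = (((s0 : ℝ) + 1) / q) * |ψ ^ n / (40 + φ)| + |y * q - r| / q := by
        rw [abs_mul, abs_div (ψ ^ n / (40 + φ)), abs_div (y * q - r), abs_of_pos hqr,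
          abs_of_nonneg hs_nn]
        ring
    _ ≤ 1 * (1 / q) + (1 / 2) / q := by
        gcongr
        rw [div_le_one hqr]; exact hs_le
    _ = 3 / (2 * q) := by field_simp; norm_num

lemma H1_part (ζ : Circle) (x : ℝ) (hx0 : 0 < x) (hx2 : x ≤ 2) :
    ∃ s : ℕ, 1 ≤ s ∧ (s : ℝ) * x ≤ 123 * π ∧
      ‖(((Circle.exp (2 * π * al)) ^ s * ζ : Circle) : ℂ) - 1‖ ≤ x := by
  classical
  have hex : ∃ n : ℕ, 3 * π / x ≤ qq n := by
    obtain ⟨n, hn⟩ := exists_nat_ge (3 * π / x)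
    exact ⟨n, hn.trans (by exact_mod_cast le_qq n)⟩
  set n := Nat.find hex with hn
  have hn1 : 3 * π / x ≤ qq n := Nat.find_spec hex
  have hn2 : (qq n : ℝ) * x ≤ 123 * π := by
    rcases Nat.eq_zero_or_pos n with h0 | h0
    · exfalso
      rw [h0] at hn1
      have : (qq 0 : ℝ) = 1 := by unfold qq; simp
      rw [this, div_le_one hx0] at hn1
      linarith only [hx2, hn1, pi_gt_three]
    · obtain ⟨k, hk⟩ : ∃ k, n = k + 1 := ⟨n - 1, by omega⟩
      have hlt : ¬ (3 * π / x ≤ qq k) := Nat.find_min hex (by omega)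
      rw [not_le, lt_div_iff₀ hx0] at hlt
      have h41 : (qq n : ℝ) ≤ 41 * qq k := by
        rw [hk]; exact_mod_cast qq_succ k
      nlinarith only [hlt, hx0, h41]
  obtain ⟨θ, hθ⟩ : ∃ θ : ℝ, ζ = Circle.exp (2 * π * θ) := by
    obtain ⟨t, ht⟩ := Circle.exp_surjective ζ
    refine ⟨t / (2 * π), ?_⟩
    rw [← ht]; congr 1; field_simp
  obtain ⟨s, hs1, hs2, m, hm⟩ := exists_approx n (-θ)
  have hqr : (0 : ℝ) < qq n := by exact_mod_cast qq_pos n
  refine ⟨s, hs1, ?_, ?_⟩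
  · calc (s : ℝ) * x ≤ (qq n : ℝ) * x := by gcongr
      _ ≤ _ := hn2
  · have h1 : (Circle.exp (2 * π * al)) ^ s * ζ = Circle.exp (2 * π * (s * al + θ)) := by
      rw [hθ, ← Circle.exp_natCast_mul, ← Circle.exp_add]
      congr 1
      ring
    rw [h1]
    refine (norm_le_two_pi_mul _ m).trans ?_
    have h2 : (s : ℝ) * al + θ - m = s * al - (-θ) - m := by ring
    rw [h2]
    calc 2 * π * |(s : ℝ) * al - (-θ) - m| ≤ 2 * π * (3 / (2 * qq n)) := by (clear * - hm; gcongr)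
      _ = 3 * π / qq n := by field_simp
      _ ≤ x := by
        rw [div_le_iff₀ hqr]
        rw [div_le_iff₀ hx0] at hn1
        linarith only [hn1]

lemma p_al : (1639 : ℝ) * al = 40 + 1 - φ := by
  unfold al
  have h := cphi_pos.ne'
  have h2 := goldenRatio_sq
  generalize φ = x at h h2 ⊢
  field_simp
  linear_combination h2

lemma pow_al (t : ℕ) :
    (Circle.exp (2 * π * al)) ^ t = Circle.exp (2 * π * (t * al)) := by
  rw [← Circle.exp_natCast_mul]
  congr 1
  ring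

lemma b_part (t : ℕ) (ht : 1 ≤ t) (hd : 1639 ∣ t) :
    5 * (123 * π) < t * ‖(((Circle.exp (2 * π * al)) ^ t : Circle) : ℂ) - 1‖ := by
  obtain ⟨k, rfl⟩ := hd
  have hk : 1 ≤ k := by omega
  have hkr : (1 : ℝ) ≤ k := by exact_mod_cast hk
  rw [pow_al]
  set y : ℝ := ((1639 * k : ℕ) : ℝ) * al with hy
  set m : ℤ := round y with hm
  have hym : |y - m| ≤ 1 / 2 := abs_sub_round _
  have h1 := four_mul_le_norm hym
  have hyk : y = k * (41 - φ) := by
    rw [hy]; push_cast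
    linear_combination (k : ℝ) * p_al
  -- y - m = M - k φ
  set M : ℤ := 41 * k - m with hM
  have h2 : y - m = (M : ℝ) - ((k : ℤ) : ℝ) * φ := by
    rw [hyk, hM]; push_cast; ring
  have h3 := norm_form_ge_one (a := M) (b := (k : ℤ)) (Or.inl (by omega))
  rw [← h2] at h3
  have h4 : |(M : ℝ) - ((k : ℤ) : ℝ) * ψ| ≤ 3 * k := by
    have : (M : ℝ) - ((k : ℤ) : ℝ) * ψ = (y - m) + k * √5 := by
      rw [h2, ← goldenRatio_sub_goldenConj]; push_cast; ring
    rw [this]
    calc |(y - m) + k * √5| ≤ |y - m| + |(k : ℝ) * √5| := abs_add_le _ _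
      _ = |y - m| + k * √5 := by rw [abs_of_nonneg (by positivity : (0:ℝ) ≤ k * √5)]
      _ ≤ 1 / 2 + k * 2.24 := by
          gcongr
          exact sqrt5_bounds.2.le
      _ ≤ 3 * k := by linarith only [hkr]
  have h5 : 1 ≤ |y - m| * (3 * k) := h3.trans (by gcongr)
  have h6 : (1639 * k : ℝ) * (4 * |y - m|) ≥ 1639 * 4 / 3 := by nlinarith only [h5]
  have h7 : ((1639 * k : ℕ) : ℝ) = 1639 * k := by push_cast; ring
  rw [h7]
  have h8 : (1639 * k : ℝ) * (4 * |y - m|) ≤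
      1639 * k * ‖((Circle.exp (2 * π * y) : Circle) : ℂ) - 1‖ := by gcongr
  have h9 := pi_lt_d2
  linarith only [h5, h8, h9]

lemma c_part (t : ℕ) (ht : 1 ≤ t) :
    4 / (42 * 95) ≤ t * ‖(((Circle.exp (2 * π * al)) ^ t : Circle) : ℂ) - 1‖ := by
  have htr : (1 : ℝ) ≤ t := by exact_mod_cast ht
  rw [pow_al]
  set y : ℝ := (t : ℝ) * al with hy
  set m : ℤ := round y with hm
  have hym : |y - m| ≤ 1 / 2 := abs_sub_round _
  have h1 := four_mul_le_norm hym
  have hc := cphi_pos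
  have hc2 : 40 + φ < 42 := by linarith only [goldenRatio_lt_two]
  have hal0 : 0 < al := by unfold al; positivity
  have hal1 : al ≤ 1 / 40 := by
    unfold al
    rw [div_le_div_iff₀ hc (by norm_num)]
    linarith only [goldenRatio_pos]
  have h2 : ((t - 40 * m : ℤ) : ℝ) - (m : ℝ) * φ = (y - m) * (40 + φ) := by
    rw [hy]; unfold al; push_cast
    field_simp
    ring
  have h3 := norm_form_ge_one (a := (t - 40 * m : ℤ)) (b := m) (by
    by_cases hm0 : m = 0
    · right; rw [hm0]; omega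
    · left; exact hm0)
  rw [h2] at h3
  have habsm : |(m : ℝ)| ≤ t := by
    have h : (m : ℝ) = y - (y - m) := by ring
    rw [h]
    calc |y - (y - m)| ≤ |y| + |y - m| := abs_sub _ _
      _ ≤ t / 40 + 1 / 2 := by
          gcongr
          rw [hy, abs_of_pos (by positivity)]
          calc (t : ℝ) * al ≤ t * (1 / 40) := by (clear * - hal1 ht; gcongr)
            _ = t / 40 := by ring
      _ ≤ t := by linarith only [htr]
  have h4 : |((t - 40 * m : ℤ) : ℝ) - (m : ℝ) * ψ| ≤ 95 * t := by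
    have : ((t - 40 * m : ℤ) : ℝ) - (m : ℝ) * ψ = (y - m) * (40 + φ) + m * √5 := by
      rw [← h2, ← goldenRatio_sub_goldenConj]; ring
    rw [this]
    calc |(y - m) * (40 + φ) + m * √5| ≤ |(y - m) * (40 + φ)| + |(m : ℝ) * √5| := abs_add_le _ _
      _ = |y - m| * (40 + φ) + |(m : ℝ)| * √5 := by
          rw [abs_mul, abs_mul, abs_of_pos hc, abs_of_nonneg (Real.sqrt_nonneg 5)]
      _ ≤ 1 / 2 * 42 + t * 2.24 := by
          gcongr
          exact sqrt5_bounds.2.le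
      _ ≤ 95 * t := by linarith only [htr]
  have h5 : 1 ≤ (|y - m| * 42) * (95 * t) := by
    refine h3.trans ?_
    rw [abs_mul, abs_of_pos hc]
    gcongr
  calc (4 : ℝ) / (42 * 95) ≤ t * (4 * |y - m|) := by
        rw [div_le_iff₀ (by norm_num)]
        linarith only [h5]
    _ ≤ _ := by (clear * - h1 ht; gcongr)

end Rot

open Rot in
/-- The rotation used in the construction. -/
theorem exists_NT : ∃ (p : ℕ) (ω : Circle) (H h : ℝ), NT p ω H h :=
  ⟨1639, Circle.exp (2 * π * al), 123 * π, 4 / (42 * 95), by norm_num,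
    by nlinarith only [pi_gt_three], by norm_num, by norm_num, H1_part, b_part, c_part⟩

/-- The set of admissible parameters is not empty. -/
theorem exists_Par : Nonempty Par := by
  obtain ⟨p, ω, H, h, hnt⟩ := exists_NT
  exact ⟨⟨p, ω, H, h, 64 * Real.exp (16 / h), 10 * H * Real.log (64 * Real.exp (16 / h)), hnt,
    le_rfl, le_rfl⟩⟩

end Vale.Agent.P103
end
end

section

section

/-!
# P103: the closed manifold `Circle × (S² × S^m)` and the global map
-/

namespace Vale.Agent.P103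

open scoped Topology

/-- the unit sphere of `V × ℝ` -/
abbrev Sph (V : Type) [NormedAddCommGroup V] [InnerProductSpace ℝ V] : Type :=
  Metric.sphere (0 : WithLp 2 (V × ℝ)) 1

section Sph

variable {V : Type} [NormedAddCommGroup V] [InnerProductSpace ℝ V]

/-- point of the sphere with given coordinates -/
def mkSph (v : V) (t : ℝ) (h : ‖v‖ ^ 2 + t ^ 2 = 1) : Sph V :=
  ⟨WithLp.toLp 2 (v, t), by
    rw [mem_sphere_zero_iff_norm, WithLp.prod_norm_eq_of_L2]
    change Real.sqrt (‖v‖ ^ 2 + ‖t‖ ^ 2) = 1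
    rw [Real.norm_eq_abs, sq_abs, h, Real.sqrt_one]⟩

/-- horizontal part -/
def hp (x : Sph V) : V := x.1.fst

/-- height -/
def ht (x : Sph V) : ℝ := x.1.snd

theorem hp_ht (x : Sph V) : ‖hp x‖ ^ 2 + ht x ^ 2 = 1 := by
  have h := mem_sphere_zero_iff_norm.mp x.2
  rw [WithLp.prod_norm_eq_of_L2] at h
  have h2 : Real.sqrt (‖hp x‖ ^ 2 + ‖ht x‖ ^ 2) ^ 2 = 1 ^ 2 := congrArg (fun s : ℝ => s ^ 2) h
  rw [Real.sq_sqrt (by (clear * -; positivity)), Real.norm_eq_abs, sq_abs] at h2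
  rw [h2]; norm_num

@[simp] theorem hp_mk (v : V) (t : ℝ) (h) : hp (mkSph v t h) = v := rfl
@[simp] theorem ht_mk (v : V) (t : ℝ) (h) : ht (mkSph v t h) = t := rfl

theorem Sph_ext {x y : Sph V} (h1 : hp x = hp y) (h2 : ht x = ht y) : x = y := by
  apply Subtype.ext
  apply (WithLp.linearEquiv 2 ℝ (V × ℝ)).injective
  exact Prod.ext h1 h2

/-- stereographic coordinate from the north pole -/
noncomputable def st (x : Sph V) : V := (1 - ht x)⁻¹ • hp x

/-- the south pole, `st = 0` -/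
def sou : Sph V := mkSph 0 (-1) (by simp)

/-- the north pole -/
def nor : Sph V := mkSph 0 1 (by simp)

/-- `ist z = (2z, |z|²-1)/(1+|z|²)`: inverse of `st`. -/
noncomputable def ist (z : V) : Sph V :=
  mkSph ((2 / (1 + ‖z‖ ^ 2)) • z) ((‖z‖ ^ 2 - 1) / (1 + ‖z‖ ^ 2)) (by
    have h : (1 + ‖z‖ ^ 2) ≠ 0 := by positivity
    rw [norm_smul, mul_pow, Real.norm_eq_abs, sq_abs]
    field_simp
    ring)

end Sph

/-- cut-off: `1` for `|z| ≤ 1`, `0` for `|z|² ≥ 2`. -/
noncomputable def gcut (z : ℂ) : ℝ := Real.smoothTransition (2 - ‖z‖ ^ 2)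

theorem gcut_den_pos (z : ℂ) : 0 < gcut z ^ 2 + ‖z‖ ^ 2 := by
  by_cases hz : z = 0
  · subst hz
    have : gcut 0 = 1 := by
      unfold gcut
      apply Real.smoothTransition.one_of_one_le
      norm_num
    rw [this]; norm_num
  · have : 0 < ‖z‖ := norm_pos_iff.mpr hz
    positivity

/-- `E₂(z) = (2gz, |z|²-g²)/(g²+|z|²)` -/
noncomputable def E2 (z : ℂ) : Sph ℂ :=
  mkSph ((2 * gcut z / (gcut z ^ 2 + ‖z‖ ^ 2)) • z)
    ((‖z‖ ^ 2 - gcut z ^ 2) / (gcut z ^ 2 + ‖z‖ ^ 2)) (by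
    have h := (gcut_den_pos z).ne'
    rw [norm_smul, mul_pow, Real.norm_eq_abs, sq_abs]
    field_simp
    ring)

/-- the degree two map `(x', x₃) ↦ (x'²/|x'|, x₃)` of `S²`. -/
noncomputable def Dmap (x : Sph ℂ) : Sph ℂ :=
  mkSph (hp x ^ 2 / ‖hp x‖) (ht x) (by
    have h := hp_ht x
    by_cases hz : hp x = 0
    · rw [hz] at h ⊢; simpa using h
    · have : ‖hp x‖ ≠ 0 := norm_ne_zero_iff.mpr hz
      rw [norm_div, norm_pow, Complex.norm_real, norm_norm, sq ‖hp x‖, mul_div_assoc,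
        div_self this, mul_one]
      exact h)

namespace Par

variable (P : Par)

/-- the fibre map in a neighbourhood of the zero section, as a map to `ℂ^p`. -/
noncomputable def G (ζ : Circle) (x : Sph ℂ) (w : Sph P.V) : P.V :=
  open Classical in
  if w = nor then P.W ζ (st x) else P.F ζ (st x) (st w)

/-- the global fibre map -/
noncomputable def fib (ζ : Circle) (x : Sph ℂ) (w : Sph P.V) : Sph ℂ × Sph P.V :=
  open Classical in
  if ht x < -(3 / 4) then (E2 (P.G ζ x w 0), ist (P.hat (P.G ζ x w))) else (nor, sou)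

/-- the global map on `Circle × (S² × S^m)`. -/
noncomputable def fM (y : Circle × (Sph ℂ × Sph P.V)) : Circle × (Sph ℂ × Sph P.V) :=
  (P.ω * y.1, P.fib y.1 y.2.1 y.2.2)

end Par

end Vale.Agent.P103
end
end

section

section

/-!
# P103: the homotopy `f ∘ j ≃ j ∘ D`
-/

namespace Vale.Agent.P103

open scoped Topology unitInterval

section Antipodal

variable {E : Type} [NormedAddCommGroup E] [InnerProductSpace ℝ E]

theorem segment_ne_zero {a b : E} (ha : ‖a‖ = 1) (hb : ‖b‖ = 1) (hab : a ≠ -b) {s : ℝ}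
    (h0 : 0 ≤ s) (h1 : s ≤ 1) : (1 - s) • a + s • b ≠ 0 := by
  intro h
  have h2 : (1 - s) • a = -(s • b) := eq_neg_of_add_eq_zero_left h
  have h3 := congrArg norm h2
  rw [norm_neg, norm_smul, norm_smul, ha, hb, Real.norm_of_nonneg (by linarith only [h1]),
    Real.norm_of_nonneg h0, mul_one, mul_one] at h3
  have hs : s = 1 / 2 := by linarith only [h3]
  apply hab
  subst hs
  have h4 : (1 / 2 : ℝ) • a = (1 / 2 : ℝ) • (-b) := by
    rw [smul_neg, ← h2]; norm_num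
  exact smul_right_injective E (by norm_num : (1 / 2 : ℝ) ≠ 0) h4

/-- two maps to the unit sphere which are never antipodal are homotopic -/
noncomputable def sphereHomotopy {X : Type} [TopologicalSpace X]
    (g₀ g₁ : C(X, Metric.sphere (0 : E) 1)) (h : ∀ x, (g₀ x : E) ≠ -(g₁ x : E)) :
    ContinuousMap.Homotopy g₀ g₁ where
  toFun p := ⟨(‖(1 - (p.1 : ℝ)) • (g₀ p.2 : E) + (p.1 : ℝ) • (g₁ p.2 : E)‖)⁻¹ •
      ((1 - (p.1 : ℝ)) • (g₀ p.2 : E) + (p.1 : ℝ) • (g₁ p.2 : E)), by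
    rw [mem_sphere_zero_iff_norm, norm_smul, norm_inv, norm_norm]
    apply inv_mul_cancel₀
    rw [norm_ne_zero_iff]
    exact segment_ne_zero (mem_sphere_zero_iff_norm.mp (g₀ p.2).2)
      (mem_sphere_zero_iff_norm.mp (g₁ p.2).2) (h _) p.1.2.1 p.1.2.2⟩
  continuous_toFun := by
    apply Continuous.subtype_mk
    have hc : Continuous (fun p : I × X => (1 - (p.1 : ℝ)) • (g₀ p.2 : E) + (p.1 : ℝ) • (g₁ p.2 : E)) := by
      fun_prop
    apply Continuous.smul _ hc
    apply Continuous.inv₀ hc.norm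
    intro p
    rw [norm_ne_zero_iff]
    exact segment_ne_zero (mem_sphere_zero_iff_norm.mp (g₀ p.2).2)
      (mem_sphere_zero_iff_norm.mp (g₁ p.2).2) (h _) p.1.2.1 p.1.2.2
  map_zero_left x := by
    apply Subtype.ext
    have : ‖(g₀ x : E)‖ = 1 := mem_sphere_zero_iff_norm.mp (g₀ x).2
    simp [this]
  map_one_left x := by
    apply Subtype.ext
    have : ‖(g₁ x : E)‖ = 1 := mem_sphere_zero_iff_norm.mp (g₁ x).2
    simp [this]

end Antipodal

section Sph

variable {V : Type} [NormedAddCommGroup V] [InnerProductSpace ℝ V]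

theorem continuous_hp : Continuous (hp : Sph V → V) :=
  (WithLp.prod_continuous_ofLp 2 V ℝ).fst.comp continuous_subtype_val

theorem continuous_ht : Continuous (ht : Sph V → ℝ) :=
  (WithLp.prod_continuous_ofLp 2 V ℝ).snd.comp continuous_subtype_val

theorem continuous_mkSph {X : Type} [TopologicalSpace X] {v : X → V} {t : X → ℝ}
    (hv : Continuous v) (ht : Continuous t) (h : ∀ x, ‖v x‖ ^ 2 + t x ^ 2 = 1) :
    Continuous (fun x => mkSph (v x) (t x) (h x)) := by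
  unfold mkSph
  apply Continuous.subtype_mk
  exact (WithLp.prod_continuous_toLp 2 V ℝ).comp (hv.prodMk ht)

theorem continuous_wrap : Continuous (fun z : ℂ => z ^ 2 / (‖z‖ : ℂ)) := by
  rw [continuous_iff_continuousAt]
  intro z
  by_cases hz : z = 0
  · subst hz
    rw [ContinuousAt]
    simp only [ne_eq, OfNat.ofNat_ne_zero, not_false_eq_true, zero_pow, norm_zero,
      Complex.ofReal_zero, div_zero]
    rw [tendsto_zero_iff_norm_tendsto_zero]
    have : (fun z : ℂ => ‖z ^ 2 / (‖z‖ : ℂ)‖) = fun z => ‖z‖ := by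
      funext z
      rw [norm_div, norm_pow, Complex.norm_real, norm_norm]
      by_cases h : ‖z‖ = 0
      · simp [h]
      · field_simp
    rw [this]
    exact tendsto_norm_zero
  · apply ContinuousAt.div (by fun_prop) (by (clear * -; fun_prop))
    simpa using hz

theorem continuous_Dmap : Continuous Dmap := by
  unfold Dmap
  exact continuous_mkSph (continuous_wrap.comp continuous_hp) continuous_ht _

end Sph

end Vale.Agent.P103
end
end

section

section

/-!
# P103: the fibre map over `ζ = 1`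
-/

namespace Vale.Agent.P103

open scoped Topology unitInterval

namespace Hm

theorem nu_nonneg (ζ : Circle) : 0 ≤ nu ζ := by unfold nu; positivity

theorem nu_le_one (ζ : Circle) : nu ζ ≤ 1 := by
  unfold nu
  have h : ‖(ζ : ℂ) - 1‖ ≤ 2 := by
    refine (norm_sub_le _ _).trans ?_
    rw [Circle.norm_coe, norm_one]; norm_num
  nlinarith only [h, norm_nonneg ((ζ : ℂ) - 1)]

theorem nu_one : nu 1 = 0 := by simp only [nu, Circle.coe_one, sub_self, norm_zero, ne_eq, OfNat.ofNat_ne_zero, not_false_eq_true, zero_pow, zero_div]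

theorem S_mem {r : ℝ} (h : 0 ≤ r) : 0 ≤ S r ∧ S r ≤ 1 := by
  unfold S
  have h1 := Real.smoothTransition.nonneg (4 * (1 - r))
  have h2 := Real.smoothTransition.le_one (4 * (1 - r))
  by_cases hr : r ≤ 1
  · refine ⟨mul_nonneg (by linarith only [hr]) h1, ?_⟩
    exact mul_le_one₀ (by linarith) h1 h2
  · push Not at hr
    rw [Real.smoothTransition.zero_of_nonpos (by linarith only [hr])]
    norm_num

theorem kk_mem (r : ℝ) : 0 ≤ kk r ∧ kk r ≤ 1 :=
  ⟨Real.smoothTransition.nonneg _, Real.smoothTransition.le_one _⟩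

theorem kk_one_of_le {r : ℝ} (h : r ≤ 1 / 2) : kk r = 1 := by
  unfold kk
  exact Real.smoothTransition.one_of_one_le (by linarith only [h])

variable (P : Par)

theorem one_le_K : 160 ≤ P.K := by
  have h1 := P.K_ge
  have h2 := P.Λ_ge
  have hH := P.nt.one_le
  have hh := P.nt.h_le
  have hp := P.nt.h_pos
  have h3 : (16 : ℝ) ≤ Real.log P.Λ := by
    have h4 : Real.exp 16 ≤ P.Λ := by
      refine le_trans ?_ h2
      have h5 : Real.exp 16 ≤ Real.exp (16 / P.h) := by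
        apply Real.exp_le_exp.mpr
        rw [le_div_iff₀ hp]; nlinarith only [hh]
      have h6 := Real.exp_pos (16 / P.h)
      linarith only [h5, h6]
    have := Real.log_le_log (Real.exp_pos _) h4
    rwa [Real.log_exp] at this
  have h7 : (1 : ℝ) * 16 ≤ P.H * Real.log P.Λ := by
    apply mul_le_mul hH h3 (by norm_num) (by linarith only [hH])
  linarith

theorem Λ_pos : 0 < P.Λ := lt_of_lt_of_le (by positivity) P.Λ_ge

theorem A_nonneg (ζ : Circle) : 0 ≤ P.A ζ := by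
  unfold Par.A
  exact expNegInvGlue.nonneg _

theorem A_one : P.A 1 = 0 := by
  unfold Par.A
  rw [nu_one, zero_div]
  exact expNegInvGlue.zero_of_nonpos le_rfl

theorem A_le (ζ : Circle) : P.A ζ ≤ 1 / 4 := by
  unfold Par.A
  have hK := one_le_K P
  unfold expNegInvGlue
  split_ifs with h
  · norm_num
  · push Not at h
    have h1 : 160 ≤ (nu ζ / P.K)⁻¹ := by
      rw [inv_div, le_div_iff₀]
      · have := nu_le_one ζ
        have := nu_nonneg ζ
        (clear h this; nlinarith)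
      · by_contra hc
        push Not at hc
        have : nu ζ / P.K ≤ 0 := div_nonpos_of_nonpos_of_nonneg hc (by linarith only [hK])
        linarith
    have h2 : Real.exp (-(nu ζ / P.K)⁻¹) ≤ Real.exp (-160) := Real.exp_le_exp.mpr (by linarith only [h1])
    refine h2.trans ?_
    rw [Real.exp_neg]
    have h3 : (4 : ℝ) ≤ Real.exp 160 := by
      have := Real.add_one_le_exp (160 : ℝ)
      linarith only [this]
    have h4 : (Real.exp 160)⁻¹ ≤ (4 : ℝ)⁻¹ := inv_anti₀ (by norm_num) h3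
    linarith only [h4]

theorem q_nonneg (ζ : Circle) (t : ℕ) : 0 ≤ P.q ζ t := by
  unfold Par.q
  exact Finset.prod_nonneg (fun j _ => mul_nonneg (Λ_pos P).le (nu_nonneg _))

theorem r_nonneg (ζ : Circle) {a : ℝ} (ha : 0 ≤ a) (t : ℕ) : 0 ≤ P.r ζ a t := by
  unfold Par.r
  exact div_nonneg (A_nonneg P _) (mul_nonneg ha (q_nonneg P _ _))

theorem Pr_mem (ζ : Circle) (a : ℝ) (t : ℕ) : 0 ≤ P.Pr ζ a t ∧ P.Pr ζ a t ≤ 1 := by
  unfold Par.Pr
  constructor
  · exact Finset.prod_nonneg (fun j _ => by have := (kk_mem (P.r ζ a j)).2; linarith only [this])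
  · apply Finset.prod_le_one
    · exact fun j _ => by have := (kk_mem (P.r ζ a j)).2; linarith
    · exact fun j _ => by have := (kk_mem (P.r ζ a j)).1; linarith

theorem coef_mem (ζ : Circle) {a : ℝ} (ha : 0 ≤ a) (t : ℕ) :
    0 ≤ P.coef ζ a t ∧ P.coef ζ a t ≤ a * (1 / 2) ^ t := by
  unfold Par.coef
  have h1 := Pr_mem P ζ a t
  have h2 := S_mem (r_nonneg P ζ ha t)
  constructor
  · apply div_nonneg _ (by positivity)
    exact mul_nonneg (mul_nonneg h1.1 h2.1) ha
  · rw [one_div, inv_pow, ← div_eq_mul_inv]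
    apply div_le_div_of_nonneg_right _ (by positivity)
    have : P.Pr ζ a t * S (P.r ζ a t) ≤ 1 := mul_le_one₀ h1.2 h2.1 h2.2
    nlinarith only [ha, this]

theorem norm_bas (j : ZMod P.p) : ‖P.bas j‖ = 1 := by
  simp [Par.bas]

theorem norm_e_le (ζ : Circle) {a : ℝ} (ha : 0 ≤ a) {u : ℂ} (hu : ‖u‖ ≤ 1) :
    ‖P.e ζ a u‖ ≤ 2 * a := by
  unfold Par.e
  have hs : HasSum (fun t : ℕ => a * (1 / 2 : ℝ) ^ t) (a * 2) :=
    (hasSum_geometric_two).mul_left a
  rw [mul_comm] at hs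
  apply tsum_of_norm_bounded hs
  intro t
  rw [norm_smul, norm_mul, norm_bas, mul_one, norm_pow, Complex.norm_real,
    Real.norm_of_nonneg (coef_mem P ζ ha t).1]
  calc P.coef ζ a t * ‖u‖ ^ 2 ^ t ≤ P.coef ζ a t * 1 :=
        mul_le_mul_of_nonneg_left (pow_le_one₀ (norm_nonneg _) hu) (coef_mem P ζ ha t).1
    _ ≤ _ := by rw [mul_one]; exact (coef_mem P ζ ha t).2

theorem e_eq_single (ζ : Circle) {a : ℝ} (u : ℂ) (h : P.r ζ a 0 ≤ 1 / 2) :
    P.e ζ a u = ((S (P.r ζ a 0) * a : ℝ) * u) • P.bas 0 := by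
  unfold Par.e
  rw [tsum_eq_single 0]
  · unfold Par.coef Par.Pr
    simp only [Finset.range_zero, Finset.prod_empty, one_mul, pow_zero, div_one, Complex.ofReal_mul, pow_one, Nat.cast_zero, neg_zero]
  · intro t ht
    have : P.coef ζ a t = 0 := by
      unfold Par.coef Par.Pr
      rw [Finset.prod_eq_zero (Finset.mem_range.mpr (Nat.pos_of_ne_zero ht))]
      · simp
      · rw [kk_one_of_le h]; norm_num
    rw [this]; simp only [Complex.ofReal_zero, zero_mul, zero_smul]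

theorem beta_nonneg {a : ℝ} (ha : 0 ≤ a) : 0 ≤ beta a := by
  unfold beta
  have : 0 ≤ Real.log (1 + 1 / a) := Real.log_nonneg (by have : 0 ≤ 1 / a := by positivity
                                                         linarith only [this])
  positivity

theorem mx_nonneg {ν b : ℝ} (hν : 0 ≤ ν) (hb : 0 ≤ b) : 0 ≤ mx ν b := by
  unfold mx
  have := Real.smoothTransition.nonneg (2 - ν / b)
  positivity

theorem Gam_nonneg (ζ : Circle) {a : ℝ} (ha : 0 ≤ a) : 0 ≤ P.Gam ζ a := by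
  unfold Par.Gam
  exact mul_nonneg (mul_nonneg (Λ_pos P).le (mx_nonneg (nu_nonneg ζ) (beta_nonneg ha))) ha

theorem W_one' (z : ℂ) : P.W 1 z = P.e P.ω (P.Gam 1 ‖z‖) ((z / ‖z‖) ^ 2) := by
  unfold Par.W
  rw [A_one, zero_div, kk_one_of_le (by norm_num), mul_one, zero_add]
  simp

theorem F_one' (z : ℂ) : P.F 1 z 0 = P.W 1 z := by
  unfold Par.F
  rw [nu_one, mul_zero, mul_zero, Complex.ofReal_zero, zero_smul, zero_add]

theorem sou_ne_nor (V : Type) [NormedAddCommGroup V] [InnerProductSpace ℝ V] :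
    (sou : Sph V) ≠ nor := by
  intro h
  have := congrArg ht h
  simp only [sou, nor, ht_mk] at this
  norm_num at this

theorem G_one (x : Sph ℂ) : P.G 1 x sou = P.W 1 (st x) := by
  unfold Par.G
  rw [if_neg (sou_ne_nor _)]
  have : st (sou : Sph P.V) = 0 := by simp only [st, sou, ht_mk, sub_neg_eq_add, hp_mk, smul_zero]
  rw [this, F_one']

theorem norm_apply_le (v : P.V) (j : ZMod P.p) : ‖v j‖ ≤ ‖v‖ := by
  exact PiLp.norm_apply_le v j

theorem fib_fst_ne (x : Sph ℂ) :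
    ((P.fib 1 x sou).1 : WithLp 2 (ℂ × ℝ)) ≠ -(Dmap x : WithLp 2 (ℂ × ℝ)) := by
  intro h
  have h1 : hp (P.fib 1 x sou).1 = -(hp x ^ 2 / ‖hp x‖) := congrArg WithLp.fst h
  have h2 : ht (P.fib 1 x sou).1 = -(ht x) := congrArg WithLp.snd h
  unfold Par.fib at h1 h2
  split_ifs at h1 h2 with hx
  · -- southern cap
    rw [G_one] at h1 h2
    simp only at h1 h2
    set z : ℂ := st x with hz
    set a : ℝ := P.Gam 1 ‖z‖ with ha
    have ha0 : 0 ≤ a := Gam_nonneg P 1 (norm_nonneg _)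
    have hu : ‖(z / ‖z‖) ^ 2‖ ≤ 1 := by
      rw [norm_pow, norm_div, Complex.norm_real, norm_norm]
      apply pow_le_one₀ (by (clear * -; positivity))
      exact div_self_le_one _
    by_cases hlt : a < 1 / 2
    · have h3 : ‖P.W 1 z 0‖ < 1 := by
        refine (norm_apply_le P _ _).trans_lt ?_
        rw [W_one']
        have := norm_e_le P P.ω ha0 hu
        linarith only [hlt, this]
      have h4 : gcut (P.W 1 z 0) = 1 := by
        unfold gcut
        apply Real.smoothTransition.one_of_one_le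
        nlinarith only [h3, norm_nonneg (P.W 1 z 0)]
      have h5 : ht (E2 (P.W 1 z 0)) = (‖P.W 1 z 0‖ ^ 2 - 1) / (1 + ‖P.W 1 z 0‖ ^ 2) := by
        unfold E2
        rw [ht_mk, h4]; norm_num
      rw [h5] at h2
      have h6 : (‖P.W 1 z 0‖ ^ 2 - 1) / (1 + ‖P.W 1 z 0‖ ^ 2) ≤ 0 := by
        apply div_nonpos_of_nonpos_of_nonneg
        · nlinarith only [h3, norm_nonneg (P.W 1 z 0)]
        · (clear * -; positivity)
      linarith only [hx, h2, h6]
    · push Not at hlt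
      have hr : P.r P.ω a 0 ≤ 1 / 2 := by
        unfold Par.r
        have hA := A_le P (P.ω ^ 0 * P.ω)
        have hq : P.q P.ω 0 = 1 := by simp [Par.q]
        rw [hq, mul_one, div_le_iff₀ (by linarith only [hlt])]
        linarith only [hlt, hA]
      have h3 : P.W 1 z 0 = ((S (P.r P.ω a 0) * a : ℝ) : ℂ) * (z / ‖z‖) ^ 2 := by
        rw [W_one', ← ha, e_eq_single P _ _ hr]
        simp [Par.bas]
      have hhp : hp x ≠ 0 := by
        intro h0
        have hz0 : z = 0 := by rw [hz]; simp [st, h0]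
        have : a = 0 := by
          rw [ha, hz0]
          simp [Par.Gam]
        linarith only [hlt, this]
      have hn : ‖hp x‖ ≠ 0 := norm_ne_zero_iff.mpr hhp
      have hden : 0 < (1 - ht x)⁻¹ := by
        apply inv_pos.mpr; linarith only [hx]
      have hzu : z / ‖z‖ = hp x / ‖hp x‖ := by
        rw [hz]
        unfold st
        rw [norm_smul, Real.norm_of_nonneg hden.le, Complex.real_smul, Complex.ofReal_mul]
        have : (((1 - ht x)⁻¹ : ℝ) : ℂ) ≠ 0 := Complex.ofReal_ne_zero.mpr hden.ne'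
        exact mul_div_mul_left _ _ this
      -- horizontal parts
      have h4 : ∃ c : ℝ, 0 ≤ c ∧ hp (E2 (P.W 1 z 0)) = (c : ℂ) * (hp x / ‖hp x‖) ^ 2 := by
        refine ⟨(2 * gcut (P.W 1 z 0) / (gcut (P.W 1 z 0) ^ 2 + ‖P.W 1 z 0‖ ^ 2)) *
          (S (P.r P.ω a 0) * a), ?_, ?_⟩
        · have hg : 0 ≤ gcut (P.W 1 z 0) := Real.smoothTransition.nonneg _
          have hS := (S_mem (r_nonneg P P.ω ha0 0)).1
          (clear * - hg hS hlt; positivity)
        · unfold E2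
          rw [hp_mk, Complex.real_smul, ← hzu]
          refine (congrArg (fun y : ℂ => ((2 * gcut (P.W 1 z 0) /
            (gcut (P.W 1 z 0) ^ 2 + ‖P.W 1 z 0‖ ^ 2) : ℝ) : ℂ) * y) h3).trans ?_
          push_cast
          ring
      obtain ⟨c, hc, h4⟩ := h4
      rw [h4] at h1
      have h5 : ((c + ‖hp x‖ : ℝ) : ℂ) * (hp x / ‖hp x‖) ^ 2 = 0 := by
        have h6 : (hp x) ^ 2 / (‖hp x‖ : ℂ) = (‖hp x‖ : ℂ) * (hp x / ‖hp x‖) ^ 2 := by
          have : (‖hp x‖ : ℂ) ≠ 0 := Complex.ofReal_ne_zero.mpr hn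
          field_simp
        rw [h6] at h1
        push_cast
        rw [add_mul, h1]; ring
      have h7 : ((c + ‖hp x‖ : ℝ) : ℂ) ≠ 0 := by
        apply Complex.ofReal_ne_zero.mpr
        have : 0 < ‖hp x‖ := norm_pos_iff.mpr hhp
        linarith only [hc, this]
      have h8 : (hp x / (‖hp x‖ : ℂ)) ^ 2 ≠ 0 := by
        apply pow_ne_zero
        exact div_ne_zero hhp (Complex.ofReal_ne_zero.mpr hn)
      exact mul_ne_zero h7 h8 h5
  · -- the rest
    simp only [nor, ht_mk] at h2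
    linarith only [hx, h2]

theorem fib_snd_ne (x : Sph ℂ) :
    ((P.fib 1 x sou).2 : WithLp 2 (P.V × ℝ)) ≠ -(sou : Sph P.V).1 := by
  intro h
  have h2 : ht (P.fib 1 x sou).2 = -(-1) := congrArg WithLp.snd h
  unfold Par.fib at h2
  split_ifs at h2 with hx
  · simp only at h2
    unfold ist at h2
    rw [ht_mk] at h2
    have h3 : 0 < 1 + ‖P.hat (P.G 1 x sou)‖ ^ 2 := by (clear * -; positivity)
    rw [div_eq_iff h3.ne'] at h2
    linarith only [h2]
  · simp only [sou, ht_mk] at h2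
    norm_num at h2

end Hm

end Vale.Agent.P103
end
end

section

section

open CategoryTheory Limits AlgebraicTopology Simplicial

namespace P103
namespace Hlg

noncomputable section

/-- coefficients -/
abbrev RR : ModuleCat.{0} ℝ := ModuleCat.of ℝ ℝ

/-- singular chain complex with real coefficients -/
abbrev SC (X : TopCat.{0}) : ChainComplex (ModuleCat.{0} ℝ) ℕ :=
  ((singularChainComplexFunctor (ModuleCat.{0} ℝ)).obj RR).obj X

/-- face inclusion -/
def face (n : ℕ) (i : Fin (n + 2)) :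
    C(stdSimplex ℝ (Fin (n + 1)), stdSimplex ℝ (Fin (n + 2))) :=
  ⟨stdSimplex.map (Fin.succAbove i), stdSimplex.continuous_map _⟩

/-- a singular simplex as a chain -/
def smp {X : TopCat.{0}} (n : ℕ) (s : C(stdSimplex ℝ (Fin (n + 1)), X)) :
    RR ⟶ (SC X).X n :=
  (TopCat.toSSet.obj X).ιChainComplex
    ((TopCat.toSSetObjEquiv X (.op ⦋n⦌)).symm s)

lemma smp_d {X : TopCat.{0}} (n : ℕ) (s : C(stdSimplex ℝ (Fin (n + 2)), X)) :
    smp (n + 1) s ≫ (SC X).d (n + 1) n =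
      ∑ i : Fin (n + 2), (-1) ^ i.val • smp n (s.comp (face n i)) := by
  refine (SSet.ιChainComplex_d (X := TopCat.toSSet.obj X) (R := RR) _).trans ?_
  refine Finset.sum_congr rfl fun i _ => ?_
  rfl

lemma smp_map {X Y : TopCat.{0}} (f : X ⟶ Y) (n : ℕ)
    (s : C(stdSimplex ℝ (Fin (n + 1)), X)) :
    smp n s ≫ (((singularChainComplexFunctor (ModuleCat.{0} ℝ)).obj RR).map f).f n =
      smp n (f.hom.comp s) := by
  exact SSet.ι_chainComplexMap_f (TopCat.toSSet.obj X) (TopCat.toSSet.obj Y) (TopCat.toSSet.map f) RR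
    ((TopCat.toSSetObjEquiv X (.op ⦋n⦌)).symm s)

/-- homology class of a cycle -/
def cls {X : TopCat.{0}} (z : RR ⟶ (SC X).X 2) (hz : z ≫ (SC X).d 2 1 = 0) :
    RR ⟶ (SC X).homology 2 :=
  (SC X).liftCycles z 1 (by simp) hz ≫ (SC X).homologyπ 2

lemma cls_map {X Y : TopCat.{0}} (f : X ⟶ Y) (z : RR ⟶ (SC X).X 2)
    (hz : z ≫ (SC X).d 2 1 = 0) (z' : RR ⟶ (SC Y).X 2)
    (hz' : z' ≫ (SC Y).d 2 1 = 0)
    (h : z ≫ (((singularChainComplexFunctor (ModuleCat.{0} ℝ)).obj RR).map f).f 2 = z') :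
    cls z hz ≫ HomologicalComplex.homologyMap
      (((singularChainComplexFunctor (ModuleCat.{0} ℝ)).obj RR).map f) 2 = cls z' hz' := by
  subst h
  simp only [cls, Category.assoc, HomologicalComplex.homologyπ_naturality, HomologicalComplex.liftCycles_comp_cyclesMap_assoc]

lemma cls_add_bdry {X : TopCat.{0}} (a : ℝ) (z : RR ⟶ (SC X).X 2)
    (hz : z ≫ (SC X).d 2 1 = 0) (w : RR ⟶ (SC X).X 3) (z' : RR ⟶ (SC X).X 2)
    (hz' : z' ≫ (SC X).d 2 1 = 0) (h : z' = a • z + w ≫ (SC X).d 3 2) :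
    cls z' hz' = a • cls z hz := by
  subst h
  have h1 : (SC X).liftCycles (a • z + w ≫ (SC X).d 3 2) 1 (by simp) hz' =
      a • (SC X).liftCycles z 1 (by simp) hz + w ≫ (SC X).toCycles 3 2 := by
    rw [← cancel_mono ((SC X).iCycles 2)]
    simp [Preadditive.add_comp, Linear.smul_comp]
  rw [cls, cls, h1, Preadditive.add_comp, Linear.smul_comp, Category.assoc,
    HomologicalComplex.toCycles_comp_homologyπ, comp_zero, add_zero]

lemma cls_ne_zero {X : TopCat.{0}} (z : RR ⟶ (SC X).X 2)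
    (hz : z ≫ (SC X).d 2 1 = 0) (φ : (SC X).X 2 ⟶ RR)
    (hφ : (SC X).d 3 2 ≫ φ = 0) (h : z ≫ φ ≠ 0) : cls z hz ≠ 0 := by
  intro h0
  apply h
  have : cls z hz ≫ (SC X).homologyι 2 ≫ (SC X).descOpcycles φ 3 (by simp) hφ = z ≫ φ := by
    simp only [cls, Category.assoc, HomologicalComplex.homology_π_ι_assoc, HomologicalComplex.p_descOpcycles, HomologicalComplex.liftCycles_i_assoc]
  rw [← this, h0, zero_comp]


lemma exists_cochain {X : TopCat.{0}} (n : ℕ)
    (c : C(stdSimplex ℝ (Fin (n + 1)), X) → ℝ) :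
    ∃ φ : (SC X).X n ⟶ RR, ∀ s, smp n s ≫ φ = c s • 𝟙 RR := by
  refine ⟨(SSet.isColimitChainComplexXCofan (TopCat.toSSet.obj X) RR n).desc
    (Cofan.mk RR (fun x => c (TopCat.toSSetObjEquiv X (.op ⦋n⦌) x) • 𝟙 RR)), fun s => ?_⟩
  refine ((SSet.isColimitChainComplexXCofan (TopCat.toSSet.obj X) RR n).fac
    (Cofan.mk RR (fun x => c (TopCat.toSSetObjEquiv X (.op ⦋n⦌) x) • 𝟙 RR))
    ⟨(TopCat.toSSetObjEquiv X (.op ⦋n⦌)).symm s⟩).trans ?_
  simp

lemma chain_ext {X : TopCat.{0}} (n : ℕ) {Z : ModuleCat.{0} ℝ} {f g : (SC X).X n ⟶ Z}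
    (h : ∀ s : C(stdSimplex ℝ (Fin (n + 1)), X), smp n s ≫ f = smp n s ≫ g) : f = g := by
  refine SSet.chainComplex_hom_ext (X := TopCat.toSSet.obj X) (R := RR) ?_
  intro x
  have := h (TopCat.toSSetObjEquiv X (.op ⦋n⦌) x)
  simp only [smp, Equiv.symm_apply_apply] at this
  exact this

/-- A real function on singular 2-simplices satisfying the cocycle condition detects classes. -/
lemma cls_ne_zero_of_fun {X : TopCat.{0}} (z : RR ⟶ (SC X).X 2)
    (hz : z ≫ (SC X).d 2 1 = 0)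
    (c : C(stdSimplex ℝ (Fin 3), X) → ℝ)
    (hc : ∀ s : C(stdSimplex ℝ (Fin 4), X),
      ∑ i : Fin 4, (-1 : ℝ) ^ i.val * c (s.comp (face 2 i)) = 0)
    (hne : ∀ φ : (SC X).X 2 ⟶ RR, (∀ s, smp 2 s ≫ φ = c s • 𝟙 RR) → z ≫ φ ≠ 0) :
    cls z hz ≠ 0 := by
  obtain ⟨φ, hφ⟩ := exists_cochain 2 c
  refine cls_ne_zero z hz φ ?_ (hne φ hφ)
  apply chain_ext 3
  intro s
  rw [comp_zero, ← Category.assoc, smp_d, Preadditive.sum_comp]
  have h1 : ∀ i : Fin 4, ((-1 : ℤ) ^ i.val • smp 2 (s.comp (face 2 i))) ≫ φ =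
      ((-1 : ℝ) ^ i.val * c (s.comp (face 2 i))) • 𝟙 RR := by
    intro i
    rw [Preadditive.zsmul_comp, hφ, mul_smul]
    rcases Nat.even_or_odd i.val with h | h
    · simp only [Int.reduceNeg, h.neg_one_pow, Nat.reduceAdd, one_smul]
    · simp [h.neg_one_pow]
  rw [Finset.sum_congr rfl fun i _ => h1 i, ← Finset.sum_smul, hc s, zero_smul]

end

end Hlg
end P103
end
end

section

section

namespace P103
namespace Hlg

open unitInterval

noncomputable section

/-- Lifting through a map with local transport, over a compact contractible space. -/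
theorem exists_lift {K B E : Type*} [TopologicalSpace K] [CompactSpace K] [ContractibleSpace K]
    [PseudoMetricSpace B] [TopologicalSpace E] (h : C(E, B)) (hs : Function.Surjective h)
    {δ : ℝ} (hδ : 0 < δ) (T : E × B → E) (hT : ContinuousOn T {q | dist (h q.1) q.2 < δ})
    (hT2 : ∀ q : E × B, dist (h q.1) q.2 < δ → h (T q) = q.2) (sg : C(K, B)) :
    ∃ τ : C(K, E), ∀ t, h (τ t) = sg t := by
  obtain ⟨y, ⟨H⟩⟩ := id_nullhomotopic K
  -- reversed homotopy: starts at const, ends at id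
  set G : C(I × K, B) := sg.comp H.symm.toContinuousMap with hG
  have hG0 : ∀ t, G (0, t) = sg y := fun t => by simp [hG]
  have hG1 : ∀ t, G (1, t) = sg t := fun t => by simp [hG]
  set g : C(I, C(K, B)) := G.curry with hg
  have huc : UniformContinuous g := CompactSpace.uniformContinuous_of_continuous g.continuous
  obtain ⟨η, hη, hgη⟩ := Metric.uniformContinuous_iff.1 huc δ hδ
  obtain ⟨N, hN⟩ := exists_nat_one_div_lt hη
  have key : ∀ k : ℕ, (hk : k ≤ N + 1) → ∃ τ : C(K, E), ∀ t,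
      h (τ t) = G (⟨(k : ℝ) / (N + 1), by (clear * -; positivity),
        by rw [div_le_one (by positivity)]; exact_mod_cast hk⟩, t) := by
    intro k
    induction k with
    | zero =>
      intro _
      obtain ⟨e, he⟩ := hs (sg y)
      refine ⟨ContinuousMap.const K e, fun t => ?_⟩
      have : (⟨((0 : ℕ) : ℝ) / (N + 1), by (clear * -; positivity),
        by simp only [CharP.cast_eq_zero, zero_div, zero_le_one]⟩ : I) = 0 := by
        ext; simp only [CharP.cast_eq_zero, zero_div, Set.Icc.coe_zero]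
      rw [this, hG0]; simpa using he
    | succ k ih =>
      intro hk
      obtain ⟨τ, hτ⟩ := ih (by omega)
      set a : I := ⟨(k : ℝ) / (N + 1), by (clear * -; positivity),
        by rw [div_le_one (by positivity)]; exact_mod_cast (by omega : k ≤ N + 1)⟩ with ha
      set b : I := ⟨((k + 1 : ℕ) : ℝ) / (N + 1), by (clear * -; positivity),
        by rw [div_le_one (by positivity)]; exact_mod_cast hk⟩ with hb
      have hab : dist a b < η := by
        rw [Subtype.dist_eq, Real.dist_eq]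
        have : ((a : ℝ) - (b : ℝ)) = - (1 / (N + 1)) := by
          simp only [ha, hb]; push_cast; ring
        rw [this, abs_neg, abs_of_pos (by positivity)]
        exact hN
      have hd : ∀ t, dist (h (τ t)) (G (b, t)) < δ := by
        intro t
        rw [hτ t]
        exact lt_of_le_of_lt (ContinuousMap.dist_apply_le_dist (f := g a) (g := g b) t) (hgη hab)
      have hcont : Continuous fun t => T (τ t, G (b, t)) := by
        have h1 : Continuous fun t => ((τ t, G (b, t)) : E × B) := by (clear * -; fun_prop)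
        exact hT.comp_continuous h1 hd
      exact ⟨⟨_, hcont⟩, fun t => hT2 _ (hd t)⟩
  obtain ⟨τ, hτ⟩ := key (N + 1) le_rfl
  refine ⟨τ, fun t => ?_⟩
  rw [hτ t]
  have : (⟨((N + 1 : ℕ) : ℝ) / (N + 1), by (clear * -; positivity),
        by rw [div_le_one (by positivity)]; push_cast; rfl⟩ : I) = 1 := by
    ext
    have : ((N : ℝ) + 1) ≠ 0 := by (clear * -; positivity)
    simp only [Nat.cast_add, Nat.cast_one, ne_eq, this, not_false_eq_true, div_self, Set.Icc.coe_one]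
  rw [this, hG1]

/-- `θ` is a continuous argument of `g`. -/
def IsArg {K : Type*} [TopologicalSpace K] (g : K → ℂ) (θ : C(K, ℝ)) : Prop :=
  ∀ t, g t = Complex.exp (θ t * Complex.I)

theorem exists_isArg {K : Type*} [TopologicalSpace K] [CompactSpace K] [ContractibleSpace K]
    (g : K → ℂ) (hg : Continuous g) (h1 : ∀ t, ‖g t‖ = 1) : ∃ θ : C(K, ℝ), IsArg g θ := by
  let gc : C(K, Circle) := ⟨fun t => ⟨g t, by simpa only [Submonoid.unitSphere, Submonoid.mem_mk, Subsemigroup.mem_mk, mem_sphere_iff_norm, sub_zero] using     h1 t⟩,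
    by exact Continuous.subtype_mk hg _⟩
  let e : C(ℝ, Circle) := Circle.exp
  have hs : Function.Surjective e := by
    intro z
    exact ⟨Complex.arg z, Circle.exp_arg z⟩
  let T : ℝ × Circle → ℝ := fun q => q.1 + Complex.arg ((q.2 : ℂ) * Complex.exp (-(q.1) * Complex.I))
  suffices H : ContinuousOn T {q | dist (e q.1) q.2 < 1} ∧
      (∀ q : ℝ × Circle, dist (e q.1) q.2 < 1 → e (T q) = q.2) by
    obtain ⟨τ, hτ⟩ := exists_lift e hs (δ := 1) one_pos T H.1 H.2 gc
    refine ⟨τ, fun t => ?_⟩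
    have := congrArg (fun z : Circle => (z : ℂ)) (hτ t)
    simp only [e] at this
    exact this.symm
  constructor
  · intro q hq
    have hslit : (q.2 : ℂ) * Complex.exp (-(q.1) * Complex.I) ∈ Complex.slitPlane := by
      rw [Complex.mem_slitPlane_iff]
      left
      have hd : ‖(Circle.exp q.1 : ℂ) - (q.2 : ℂ)‖ < 1 := by
        rw [← dist_eq_norm]
        exact hq
      have h2 : ‖1 - (q.2 : ℂ) * Complex.exp (-(q.1) * Complex.I)‖ < 1 := by
        have h3 : (1 : ℂ) - (q.2 : ℂ) * Complex.exp (-(q.1) * Complex.I) =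
            ((Circle.exp q.1 : ℂ) - (q.2 : ℂ)) * Complex.exp (-(q.1) * Complex.I) := by
          rw [sub_mul, Circle.coe_exp, ← Complex.exp_add]
          simp only [neg_mul, add_neg_cancel, Complex.exp_zero]
        rw [h3, norm_mul]
        have h4 : ‖Complex.exp (-(q.1 : ℂ) * Complex.I)‖ = 1 := by
          have := Complex.norm_exp_ofReal_mul_I (-q.1)
          push_cast at this
          exact this
        rw [h4, mul_one]; exact hd
      have h5 := lt_of_le_of_lt (Complex.re_le_norm _) h2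
      rw [Complex.sub_re, Complex.one_re] at h5
      linarith only [h5]
    refine ContinuousAt.continuousWithinAt ?_
    refine continuousAt_fst.add ?_
    refine ContinuousAt.comp (g := Complex.arg) (Complex.continuousAt_arg hslit) ?_
    (clear * -; fun_prop)
  · intro q hq
    apply Circle.ext
    simp only [e, T, Circle.coe_exp]
    have hn : ‖(q.2 : ℂ) * Complex.exp (-(q.1 : ℂ) * Complex.I)‖ = 1 := by
      have h4 : ‖Complex.exp (-(q.1 : ℂ) * Complex.I)‖ = 1 := by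
          have := Complex.norm_exp_ofReal_mul_I (-q.1)
          push_cast at this
          exact this
      rw [norm_mul, h4, mul_one]; exact Circle.norm_coe _
    have h6 := Complex.norm_mul_exp_arg_mul_I ((q.2 : ℂ) * Complex.exp (-(q.1 : ℂ) * Complex.I))
    rw [hn, Complex.ofReal_one, one_mul] at h6
    show Complex.exp (((q.1 + Complex.arg _ : ℝ) : ℂ) * Complex.I) = _
    push_cast
    rw [add_mul, Complex.exp_add, h6, mul_comm, mul_assoc, ← Complex.exp_add]
    simp only [neg_mul, neg_add_cancel, Complex.exp_zero, mul_one]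

end

end Hlg
end P103
end
end

section

section

open scoped ComplexConjugate

namespace P103
namespace Hlg

noncomputable section

/-- simplex -/
abbrev Dl (n : ℕ) := stdSimplex ℝ (Fin (n + 1))

instance (n : ℕ) : ContractibleSpace (Dl n) :=
  (convex_stdSimplex ℝ (Fin (n + 1))).contractibleSpace
    ⟨_, (stdSimplex.vertex (S := ℝ) (0 : Fin (n + 1))).2⟩

/-- the 2-sphere in `ℂ × ℝ` -/
def S2 : Set (ℂ × ℝ) := {x | ‖x.1‖ ^ 2 + x.2 ^ 2 = 1}
/-- the 3-sphere in `ℂ × ℂ` -/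
def S3 : Set (ℂ × ℂ) := {p | ‖p.1‖ ^ 2 + ‖p.2‖ ^ 2 = 1}

lemma normsq (z : ℂ) : ‖z‖ ^ 2 = z.re ^ 2 + z.im ^ 2 := by
  rw [← Complex.normSq_eq_norm_sq, Complex.normSq_apply]; ring

/-- Hopf map formula -/
def hp (p : ℂ × ℂ) : ℂ × ℝ := (2 * p.1 * conj p.2, ‖p.1‖ ^ 2 - ‖p.2‖ ^ 2)

lemma hp_mem {p : ℂ × ℂ} (hp1 : p ∈ S3) : hp p ∈ S2 := by
  have h : ‖p.1‖ ^ 2 + ‖p.2‖ ^ 2 = 1 := hp1
  show ‖2 * p.1 * conj p.2‖ ^ 2 + (‖p.1‖ ^ 2 - ‖p.2‖ ^ 2) ^ 2 = 1
  rw [norm_mul, norm_mul, Complex.norm_conj, Complex.norm_ofNat]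
  linear_combination (‖p.1‖ ^ 2 + ‖p.2‖ ^ 2 + 1) * h

/-- Hopf map -/
def hopf : C(S3, S2) :=
  ⟨fun p => ⟨hp p.1, hp_mem p.2⟩, by
    apply Continuous.subtype_mk
    unfold hp
    fun_prop⟩

/-- transported (unnormalised) vector -/
def tv (p : ℂ × ℂ) (y : ℂ × ℝ) : ℂ × ℂ :=
  ((1 + y.2) * p.1 + y.1 * p.2, conj y.1 * p.1 + (1 - y.2) * p.2)

/-- squared norm -/
def nq (p : ℂ × ℂ) : ℝ := ‖p.1‖ ^ 2 + ‖p.2‖ ^ 2

lemma nq_tv {p : ℂ × ℂ} (hp1 : p ∈ S3) {y : ℂ × ℝ} (hy : y ∈ S2) :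
    nq (tv p y) = 2 * (1 + ((hp p).1.re * y.1.re + (hp p).1.im * y.1.im + (hp p).2 * y.2)) := by
  have h : ‖p.1‖ ^ 2 + ‖p.2‖ ^ 2 = 1 := hp1
  have h2 : ‖y.1‖ ^ 2 + y.2 ^ 2 = 1 := hy
  obtain ⟨⟨a, b⟩, ⟨c, d⟩⟩ := p
  obtain ⟨⟨u, v⟩, w⟩ := y
  simp only [nq, tv, hp, normsq] at *
  simp only [Complex.add_re, Complex.mul_re, Complex.one_re, Complex.ofReal_re, Complex.add_im, Complex.one_im, Complex.ofReal_im, add_zero, zero_mul, sub_zero, Complex.mul_im, Complex.conj_re, Complex.conj_im, neg_mul, sub_neg_eq_add, Complex.sub_re, Complex.sub_im, sub_self, Complex.re_ofNat, Complex.im_ofNat, mul_neg] at *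
  linear_combination (a ^ 2 + b ^ 2 + c ^ 2 + d ^ 2) * h2 + 2 * h

lemma hp_tv {p : ℂ × ℂ} {y : ℂ × ℝ} (hy : y ∈ S2) :
    hp (tv p y) = ((nq (tv p y) : ℂ) * y.1, nq (tv p y) * y.2) := by
  have h2 : ‖y.1‖ ^ 2 + y.2 ^ 2 = 1 := hy
  obtain ⟨⟨a, b⟩, ⟨c, d⟩⟩ := p
  obtain ⟨⟨u, v⟩, w⟩ := y
  have hA : (tv (⟨a, b⟩, ⟨c, d⟩) (⟨u, v⟩, w)).1 =
      ⟨(1 + w) * a + (u * c - v * d), (1 + w) * b + (u * d + v * c)⟩ := by
    apply Complex.ext <;> simp [tv]
  have hB : (tv (⟨a, b⟩, ⟨c, d⟩) (⟨u, v⟩, w)).2 =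
      ⟨u * a + v * b + (1 - w) * c, u * b - v * a + (1 - w) * d⟩ := by
    apply Complex.ext <;> simp [tv] <;> ring
  have hN : nq (tv (⟨a, b⟩, ⟨c, d⟩) (⟨u, v⟩, w)) =
      ((1 + w) * a + (u * c - v * d)) ^ 2 + ((1 + w) * b + (u * d + v * c)) ^ 2 +
      ((u * a + v * b + (1 - w) * c) ^ 2 + (u * b - v * a + (1 - w) * d) ^ 2) := by
    simp only [nq, hA, hB, normsq]
  simp only [normsq] at h2
  unfold hp
  rw [hN]
  simp only [hA, hB, normsq]
  refine Prod.ext (Complex.ext ?_ ?_) ?_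
  · simp only [Complex.ofReal_re, Complex.ofReal_im, Complex.mul_re, Complex.mul_im, Complex.conj_re,
      Complex.conj_im, Complex.re_ofNat, Complex.im_ofNat]
    linear_combination (-(a * (u * a + v * b + (1 - w) * c) + b * (u * b - v * a + (1 - w) * d) +
      (((1 + w) * a + (u * c - v * d)) * c + ((1 + w) * b + (u * d + v * c)) * d))) * h2
  · simp only [Complex.ofReal_re, Complex.ofReal_im, Complex.mul_re, Complex.mul_im, Complex.conj_re,
      Complex.conj_im, Complex.re_ofNat, Complex.im_ofNat]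
    linear_combination (-(b * (u * a + v * b + (1 - w) * c) - a * (u * b - v * a + (1 - w) * d) +
      (((1 + w) * b + (u * d + v * c)) * c - ((1 + w) * a + (u * c - v * d)) * d))) * h2
  · simp only
    linear_combination (-(((1 + w) * a + (u * c - v * d)) * a + ((1 + w) * b + (u * d + v * c)) * b
      - ((u * a + v * b + (1 - w) * c) * c + (u * b - v * a + (1 - w) * d) * d))) * h2

lemma nq_smul (r : ℝ) (p : ℂ × ℂ) : nq (r • p) = r ^ 2 * nq p := by
  simp only [nq, Prod.smul_fst, Complex.real_smul, Complex.norm_mul, Complex.norm_real, Real.norm_eq_abs, mul_pow, sq_abs, Prod.smul_snd]; ring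

lemma hp_smul (r : ℝ) (p : ℂ × ℂ) : hp (r • p) = r ^ 2 • hp p := by
  refine Prod.ext ?_ ?_
  · simp only [hp, Prod.smul_fst, Complex.real_smul, Prod.smul_snd, map_mul, Complex.conj_ofReal, Complex.norm_mul, Complex.norm_real, Real.norm_eq_abs, Prod.smul_mk, Complex.ofReal_pow, smul_eq_mul]; ring
  · simp only [hp, Prod.smul_fst, Complex.real_smul, Prod.smul_snd, map_mul, Complex.conj_ofReal, Complex.norm_mul, Complex.norm_real, Real.norm_eq_abs, mul_pow, sq_abs, Prod.smul_mk, Complex.ofReal_pow, smul_eq_mul]; ring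

lemma nq_tv_pos {p : ℂ × ℂ} (hp1 : p ∈ S3) {y : ℂ × ℝ} (hy : y ∈ S2)
    (hd : dist (hp p) y < 1) : 0 < nq (tv p y) := by
  have h1 : ‖(hp p).1‖ ^ 2 + (hp p).2 ^ 2 = 1 := hp_mem hp1
  have h2 : ‖y.1‖ ^ 2 + y.2 ^ 2 = 1 := hy
  rw [nq_tv hp1 hy]
  rw [Prod.dist_eq, max_lt_iff, dist_eq_norm, Real.dist_eq] at hd
  obtain ⟨ha, hb⟩ := hd
  have ha2 : ‖(hp p).1 - y.1‖ ^ 2 < 1 := by
    have := norm_nonneg ((hp p).1 - y.1); nlinarith only [ha, this]
  have hb2 : ((hp p).2 - y.2) ^ 2 < 1 := by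
    rw [← sq_abs]; have := abs_nonneg ((hp p).2 - y.2); nlinarith only [hb, this]
  rw [normsq] at h1 h2 ha2
  rw [Complex.sub_re, Complex.sub_im] at ha2
  linarith

/-- normalised transport -/
def TT (q : S3 × S2) : S3 :=
  if h : 0 < nq (tv q.1.1 q.2.1) then
    ⟨(1 / Real.sqrt (nq (tv q.1.1 q.2.1))) • tv q.1.1 q.2.1, by
      show nq _ = 1
      rw [nq_smul, one_div, inv_pow, Real.sq_sqrt h.le, inv_mul_cancel₀ h.ne']⟩
  else q.1

lemma TT_cont : ContinuousOn TT {q | dist (hopf q.1) q.2 < 1} := by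
  rw [Topology.IsInducing.subtypeVal.continuousOn_iff]
  have hpos : ∀ q : S3 × S2, dist (hopf q.1) q.2 < 1 → 0 < nq (tv q.1.1 q.2.1) := fun q hq =>
    nq_tv_pos q.1.2 q.2.2 hq
  have hc : ContinuousOn (fun q : S3 × S2 => (1 / Real.sqrt (nq (tv q.1.1 q.2.1))) •
      tv q.1.1 q.2.1) {q | dist (hopf q.1) q.2 < 1} := by
    have h1 : Continuous fun q : S3 × S2 => tv q.1.1 q.2.1 := by unfold tv; fun_prop
    have h2 : Continuous fun q : S3 × S2 => nq (tv q.1.1 q.2.1) := by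
      unfold nq; fun_prop
    have h3 : ContinuousOn (fun q : S3 × S2 => 1 / Real.sqrt (nq (tv q.1.1 q.2.1)))
        {q | dist (hopf q.1) q.2 < 1} :=
      continuousOn_const.div (Real.continuous_sqrt.comp h2).continuousOn
        (fun q hq => (Real.sqrt_pos.2 (hpos q hq)).ne')
    exact h3.smul h1.continuousOn
  refine hc.congr ?_
  intro q hq
  simp only [Function.comp, TT, dif_pos (hpos q hq)]

lemma TT_hopf (q : S3 × S2) (hq : dist (hopf q.1) q.2 < 1) : hopf (TT q) = q.2 := by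
  have hpos : 0 < nq (tv q.1.1 q.2.1) := nq_tv_pos q.1.2 q.2.2 hq
  apply Subtype.ext
  simp only [TT, dif_pos hpos, hopf, ContinuousMap.coe_mk]
  rw [hp_smul, hp_tv q.2.2, one_div, inv_pow, Real.sq_sqrt hpos.le]
  refine Prod.ext ?_ ?_
  · simp only [Prod.smul_fst, Complex.real_smul]
    have : (nq (tv q.1.1 q.2.1) : ℂ) ≠ 0 := by exact_mod_cast hpos.ne'
    push_cast
    field_simp
  · simp only [Prod.smul_snd, smul_eq_mul]
    field_simp

lemma hopf_surj : Function.Surjective hopf := by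
  intro y
  by_cases hy : y.1.2 = -1
  · refine ⟨⟨(0, 1), by simp only [S3, Set.mem_ofPred_eq, norm_zero, ne_eq, OfNat.ofNat_ne_zero, not_false_eq_true, zero_pow, norm_one, one_pow, zero_add]⟩, ?_⟩
    apply Subtype.ext
    have h2 : ‖y.1.1‖ ^ 2 + y.1.2 ^ 2 = 1 := y.2
    rw [hy] at h2
    have h3 : y.1.1 = 0 := by
      rw [← norm_eq_zero]; nlinarith only [h2]
    refine Prod.ext ?_ ?_
    · simp only [hopf, hp, ContinuousMap.coe_mk, mul_zero, map_one, mul_one, norm_zero, ne_eq, OfNat.ofNat_ne_zero, not_false_eq_true, zero_pow, norm_one, one_pow, zero_sub, h3]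
    · simp only [hopf, hp, ContinuousMap.coe_mk, mul_zero, map_one, mul_one, norm_zero, ne_eq, OfNat.ofNat_ne_zero, not_false_eq_true, zero_pow, norm_one, one_pow, zero_sub, hy]
  · have h2 : ‖y.1.1‖ ^ 2 + y.1.2 ^ 2 = 1 := y.2
    have hlt : -1 < y.1.2 := by
      rcases lt_or_ge (-1) y.1.2 with h | h
      · exact h
      · exfalso; apply hy; nlinarith [sq_nonneg ‖y.1.1‖]
    have hp1 : ((1, 0) : ℂ × ℂ) ∈ S3 := by simp [S3]
    have hpos : 0 < nq (tv (1, 0) y.1) := by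
      rw [nq_tv hp1 y.2]; simp only [hp, mul_one, map_zero, mul_zero, norm_one, one_pow, norm_zero, ne_eq, OfNat.ofNat_ne_zero, not_false_eq_true, zero_pow, sub_zero, Complex.zero_re, zero_mul, Complex.zero_im, add_zero, one_mul, zero_add, Nat.ofNat_pos, mul_pos_iff_of_pos_left]; linarith only [hlt]
    refine ⟨TT (⟨(1, 0), hp1⟩, y), ?_⟩
    apply Subtype.ext
    simp only [TT, dif_pos hpos, hopf, ContinuousMap.coe_mk]
    rw [hp_smul, hp_tv y.2, one_div, inv_pow, Real.sq_sqrt hpos.le]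
    refine Prod.ext ?_ ?_
    · simp only [Prod.smul_fst, Complex.real_smul]
      have : (nq (tv (1, 0) y.1) : ℂ) ≠ 0 := by exact_mod_cast hpos.ne'
      push_cast
      field_simp
    · simp only [Prod.smul_snd, smul_eq_mul]
      (clear * - hpos; field_simp)

theorem exists_hopf_lift {K : Type*} [TopologicalSpace K] [CompactSpace K] [ContractibleSpace K]
    (s : C(K, S2)) : ∃ τ : C(K, S3), hopf.comp τ = s := by
  obtain ⟨τ, hτ⟩ := exists_lift hopf hopf_surj one_pos TT TT_cont TT_hopf s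
  exact ⟨τ, ContinuousMap.ext hτ⟩

end

end Hlg
end P103
end
end

section

section

/-!
# P103: the global map is `C^1`
-/

namespace Vale.Agent.P103

open Filter Topology
open scoped Manifold ContDiff

section Sph

variable {V : Type} [NormedAddCommGroup V] [InnerProductSpace ℝ V]

theorem contDiff_hpAmb {n : WithTop ℕ∞} : ContDiff ℝ n (fun x : WithLp 2 (V × ℝ) => x.fst) :=
  contDiff_fst.comp (WithLp.prodContinuousLinearEquiv 2 ℝ V ℝ).contDiff

theorem contDiff_htAmb {n : WithTop ℕ∞} : ContDiff ℝ n (fun x : WithLp 2 (V × ℝ) => x.snd) :=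
  contDiff_snd.comp (WithLp.prodContinuousLinearEquiv 2 ℝ V ℝ).contDiff

theorem continuous_ht_bd270 : Continuous (ht : Sph V → ℝ) :=
  (WithLp.continuous_snd 2 V ℝ).comp continuous_subtype_val

theorem ht_le_one (x : Sph V) : ht x ≤ 1 := by
  have := hp_ht x
  nlinarith only [this]

theorem eq_nor_of_ht {x : Sph V} (h : ht x = 1) : x = nor := by
  have h1 := hp_ht x
  have h2 : ‖hp x‖ ^ 2 = 0 := by rw [h] at h1; linarith only [h1]
  have h3 : hp x = 0 := by simpa using h2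
  exact Sph_ext h3 h

theorem ht_lt_one {x : Sph V} (h : x ≠ nor) : ht x < 1 :=
  lt_of_le_of_ne (ht_le_one x) fun h1 => h (eq_nor_of_ht h1)

theorem norm_st_sq {x : Sph V} (h : x ≠ nor) : ‖st x‖ ^ 2 = (1 + ht x) / (1 - ht x) := by
  have h1 := ht_lt_one h
  have h2 : 0 < 1 - ht x := by linarith only [h1]
  have h3 := hp_ht x
  rw [st, norm_smul, norm_inv, Real.norm_of_nonneg h2.le, mul_pow]
  have h4 : ‖hp x‖ ^ 2 = (1 - ht x) * (1 + ht x) := by linarith
  rw [h4]
  field_simp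

variable {n : ℕ} [Fact (Module.finrank ℝ (WithLp 2 (V × ℝ)) = n + 1)]

theorem contMDiffAt_st {x : Sph V} (h : x ≠ nor) : ContMDiffAt (𝓡 n) 𝓘(ℝ, V) 1 st x := by
  have h1 := ht_lt_one h
  have h2 : ContDiffAt ℝ 1 (fun y : WithLp 2 (V × ℝ) => (1 - y.snd)⁻¹ • y.fst) x.1 := by
    refine ContDiffAt.smul (ContDiffAt.inv ?_ ?_) contDiff_hpAmb.contDiffAt
    · exact contDiffAt_const.sub contDiff_htAmb.contDiffAt
    · change 1 - ht x ≠ 0
      linarith
  exact h2.contMDiffAt.comp x (contMDiff_coe_sphere.contMDiffAt)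

theorem contMDiff_mkSph {E : Type} [NormedAddCommGroup E] [NormedSpace ℝ E] {f : E → V} {g : E → ℝ}
    {m : WithTop ℕ∞} (hf : ContDiff ℝ m f) (hg : ContDiff ℝ m g)
    (h : ∀ x, ‖f x‖ ^ 2 + g x ^ 2 = 1) :
    ContMDiff 𝓘(ℝ, E) (𝓡 n) m (fun x => mkSph (f x) (g x) (h x)) := by
  have h1 : ContDiff ℝ m (fun x => (WithLp.toLp 2 (f x, g x) : WithLp 2 (V × ℝ))) :=
    (WithLp.prodContinuousLinearEquiv 2 ℝ V ℝ).symm.contDiff.comp (hf.prodMk hg)
  exact h1.contMDiff.codRestrict_sphere (fun x => (mkSph (f x) (g x) (h x)).2)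

theorem contMDiff_ist {m : ℕ∞} : ContMDiff 𝓘(ℝ, V) (𝓡 n) m (ist : V → Sph V) := by
  have h0 : ∀ z : V, 1 + ‖z‖ ^ 2 ≠ 0 := fun z => by positivity
  refine contMDiff_mkSph ?_ ?_ _
  · exact (contDiff_const.div (contDiff_const.add (contDiff_norm_sq ℝ)) h0).smul contDiff_id
  · exact ((contDiff_norm_sq ℝ).sub contDiff_const).div
      (contDiff_const.add (contDiff_norm_sq ℝ)) h0

end Sph

theorem contDiff_gcut {m : ℕ∞} : ContDiff ℝ m gcut :=
  Real.smoothTransition.contDiff.comp (contDiff_const.sub (contDiff_norm_sq ℝ))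

theorem contMDiff_E2 {n : ℕ} [Fact (Module.finrank ℝ (WithLp 2 (ℂ × ℝ)) = n + 1)] {m : ℕ∞} :
    ContMDiff 𝓘(ℝ, ℂ) (𝓡 n) m E2 := by
  have h0 : ∀ z : ℂ, gcut z ^ 2 + ‖z‖ ^ 2 ≠ 0 := fun z => (gcut_den_pos z).ne'
  refine contMDiff_mkSph ?_ ?_ _
  · exact ((contDiff_const.mul contDiff_gcut).div
      ((contDiff_gcut.pow 2).add (contDiff_norm_sq ℝ)) h0).smul contDiff_id
  · exact ((contDiff_norm_sq ℝ).sub (contDiff_gcut.pow 2)).div
      ((contDiff_gcut.pow 2).add (contDiff_norm_sq ℝ)) h0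

theorem gcut_eq_zero {z : ℂ} (h : 2 ≤ ‖z‖) : gcut z = 0 := by
  apply Real.smoothTransition.zero_of_nonpos
  nlinarith only [h]

theorem E2_of_two_le {z : ℂ} (h : 2 ≤ ‖z‖) : E2 z = nor := by
  have h1 := gcut_eq_zero h
  have h2 : ‖z‖ ≠ 0 := by intro h3; rw [h3] at h; norm_num at h
  apply Sph_ext
  · simp only [E2, h1, mul_zero, ne_eq, OfNat.ofNat_ne_zero, not_false_eq_true, zero_pow, zero_add, zero_div, zero_smul, sub_zero, hp_mk, nor]
  · simp only [E2, h1, mul_zero, ne_eq, OfNat.ofNat_ne_zero, not_false_eq_true, zero_pow, zero_add, zero_div, zero_smul, sub_zero, pow_eq_zero_iff, h2, div_self, ht_mk, nor]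

theorem ist_zero {V : Type} [NormedAddCommGroup V] [InnerProductSpace ℝ V] :
    (ist (0 : V)) = sou := by
  apply Sph_ext
  · simp [ist, sou]
  · simp [ist, sou]

/-- a local lift of the circle to the line -/
noncomputable def lift (ζ₀ ζ : Circle) : ℝ :=
  Complex.arg ((ζ₀ : Circle) : ℂ) + Complex.arg ((ζ * ζ₀⁻¹ : Circle) : ℂ)

theorem exp_lift (ζ₀ ζ : Circle) : Circle.exp (lift ζ₀ ζ) = ζ := by
  rw [lift, Circle.exp_add, Circle.exp_arg, Circle.exp_arg]
  rw [mul_comm, inv_mul_cancel_right]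

theorem contMDiffAt_lift (ζ₀ : Circle) : ContMDiffAt (𝓡 1) 𝓘(ℝ, ℝ) 1 (lift ζ₀) ζ₀ := by
  have h1 : ContMDiffAt (𝓡 1) (𝓡 1) 1 (fun ζ : Circle => ζ * ζ₀⁻¹) ζ₀ :=
    (contMDiff_mul_right (I := 𝓡 1) (n := 1) (a := ζ₀⁻¹)).contMDiffAt
  have := finrank_real_complex_fact'
  have h2 : ContMDiffAt (𝓡 1) 𝓘(ℝ, ℂ) 1 (fun ζ : Circle => (ζ : ℂ)) (ζ₀ * ζ₀⁻¹) :=
    (contMDiff_coe_sphere (E := ℂ) (n := 1) (m := 1)).contMDiffAt
  have h3 : ContDiffAt ℝ 1 (fun z : ℂ => (Complex.log z).im) ((ζ₀ * ζ₀⁻¹ : Circle) : ℂ) := by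
    have : ContDiffAt ℝ 1 Complex.log ((ζ₀ * ζ₀⁻¹ : Circle) : ℂ) := by
      refine (Complex.contDiffAt_log ?_).restrict_scalars ℝ
      rw [mul_inv_cancel]
      simp
    exact Complex.imCLM.contDiff.contDiffAt.comp _ this
  have h4 := h3.contMDiffAt.comp (ζ₀ * ζ₀⁻¹) h2
  have h5 : ContMDiffAt (𝓡 1) 𝓘(ℝ, ℝ) 1 (fun ζ : Circle => Complex.arg ((ζ * ζ₀⁻¹ : Circle) : ℂ))
      ζ₀ := by
    refine (h4.comp ζ₀ h1).congr_of_eventuallyEq (Eventually.of_forall fun ζ => ?_)
    exact (Complex.log_im _).symm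
  exact contMDiffAt_const.add h5

instance factS2 : Fact (Module.finrank ℝ (WithLp 2 (ℂ × ℝ)) = 2 + 1) := ⟨by
  rw [(WithLp.linearEquiv 2 ℝ (ℂ × ℝ)).finrank_eq, Module.finrank_prod, Complex.finrank_real_complex,
    Module.finrank_self]⟩

namespace Par

variable (P : Par)

instance factSm : Fact (Module.finrank ℝ (WithLp 2 (P.V × ℝ)) = 2 * P.p + 1) := ⟨by
  rw [(WithLp.linearEquiv 2 ℝ (P.V × ℝ)).finrank_eq, Module.finrank_prod, Module.finrank_self,
    (WithLp.linearEquiv 2 ℝ (ZMod P.p → ℂ)).finrank_eq, Module.finrank_pi_fintype]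
  simp only [Complex.finrank_real_complex, Finset.sum_const, Finset.card_univ, ZMod.card,
    smul_eq_mul]
  ring⟩

theorem contDiff_zeroCoord {n : WithTop ℕ∞} : ContDiff ℝ n (fun v : P.V => v 0) :=
  ((EuclideanSpace.proj (𝕜 := ℂ) (0 : ZMod P.p) : P.V →L[ℂ] ℂ).restrictScalars ℝ).contDiff

theorem contDiff_hat {n : WithTop ℕ∞} : ContDiff ℝ n P.hat := by
  have h : ContDiff ℝ n (fun v : P.V => v 0 • P.bas 0) :=
    (((EuclideanSpace.proj (𝕜 := ℂ) (0 : ZMod P.p) : P.V →L[ℂ] ℂ).smulRight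
      (P.bas 0)).restrictScalars ℝ).contDiff
  exact contDiff_id.sub h

/-- the map `G` near a point of the region where `st x` is defined -/
theorem contMDiffAt_G
    (hF : ContDiff ℝ 1 (fun q : ℝ × ℂ × P.V => P.F (Circle.exp q.1) q.2.1 q.2.2))
    (hW : ContDiff ℝ 1 (fun q : ℝ × ℂ => P.W (Circle.exp q.1) q.2))
    (hFW : ∀ (ζ : Circle) (z : ℂ) (v : P.V), 16 * P.A ζ ^ 2 ≤ ‖z‖ ^ 2 + ‖v‖ ^ 2 →
      0 < ‖z‖ ^ 2 + ‖v‖ ^ 2 → P.F ζ z v = P.W ζ z)
    (hA : ∀ ζ : Circle, P.A ζ ≤ 1 / 1000)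
    (y : Circle × (Sph ℂ × Sph P.V)) (hx : y.2.1 ≠ nor) :
    ContMDiffAt ((𝓡 1).prod ((𝓡 2).prod (𝓡 (2 * P.p)))) 𝓘(ℝ, P.V) 1
      (fun y : Circle × (Sph ℂ × Sph P.V) => P.G y.1 y.2.1 y.2.2) y := by
  classical
  have hc1 : ContMDiffAt ((𝓡 1).prod ((𝓡 2).prod (𝓡 (2 * P.p)))) 𝓘(ℝ, ℝ) 1
      (fun y' : Circle × (Sph ℂ × Sph P.V) => lift y.1 y'.1) y :=
    (contMDiffAt_lift y.1).comp y contMDiffAt_fst
  have hc2 : ContMDiffAt ((𝓡 1).prod ((𝓡 2).prod (𝓡 (2 * P.p)))) 𝓘(ℝ, ℂ) 1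
      (fun y' : Circle × (Sph ℂ × Sph P.V) => st y'.2.1) y :=
    (contMDiffAt_st hx).comp y (contMDiffAt_fst.comp y contMDiffAt_snd)
  by_cases hw : y.2.2 = nor
  · have h1 : ContMDiffAt ((𝓡 1).prod ((𝓡 2).prod (𝓡 (2 * P.p)))) 𝓘(ℝ, P.V) 1
        ((fun q : ℝ × ℂ => P.W (Circle.exp q.1) q.2) ∘
          (fun y' : Circle × (Sph ℂ × Sph P.V) => (lift y.1 y'.1, st y'.2.1))) y :=
      hW.contDiffAt.contMDiffAt.comp y (hc1.prodMk_space hc2)
    refine h1.congr_of_eventuallyEq ?_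
    have h2 : ∀ᶠ y' : Circle × (Sph ℂ × Sph P.V) in 𝓝 y, 0 < ht y'.2.2 := by
      refine (continuous_ht_bd270.comp (continuous_snd.comp continuous_snd)).continuousAt.eventually
        (lt_mem_nhds (a := (0 : ℝ)) ?_)
      change 0 < ht y.2.2
      rw [hw]
      simp only [nor, ht_mk, zero_lt_one]
    filter_upwards [h2] with y' hy'
    simp only [Function.comp_apply, exp_lift]
    rw [G]
    split_ifs with h3
    · rfl
    · have h4 := norm_st_sq h3
      have h5 := ht_lt_one h3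
      have h6 : 1 ≤ ‖st y'.2.2‖ ^ 2 := by
        rw [h4, le_div_iff₀ (by linarith only [h5])]
        linarith only [hy']
      refine hFW _ _ _ ?_ ?_
      · have h7 := hA y'.1
        have h8 : 0 ≤ P.A y'.1 := expNegInvGlue.nonneg _
        nlinarith only [h6, h7, h8]
      · have := sq_nonneg ‖st y'.2.1‖
        linarith only [h6, this]
  · have hc3 : ContMDiffAt ((𝓡 1).prod ((𝓡 2).prod (𝓡 (2 * P.p)))) 𝓘(ℝ, P.V) 1
        (fun y' : Circle × (Sph ℂ × Sph P.V) => st y'.2.2) y := by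
      have hs : ContMDiffAt ((𝓡 1).prod ((𝓡 2).prod (𝓡 (2 * P.p)))) (𝓡 (2 * P.p)) 1
          (fun y' : Circle × (Sph ℂ × Sph P.V) => y'.2.2) y :=
        contMDiffAt_snd.comp y contMDiffAt_snd
      exact ContMDiffAt.comp (g := st) y (contMDiffAt_st hw) hs
    have h1 : ContMDiffAt ((𝓡 1).prod ((𝓡 2).prod (𝓡 (2 * P.p)))) 𝓘(ℝ, P.V) 1
        ((fun q : ℝ × ℂ × P.V => P.F (Circle.exp q.1) q.2.1 q.2.2) ∘
          (fun y' : Circle × (Sph ℂ × Sph P.V) => (lift y.1 y'.1, st y'.2.1, st y'.2.2))) y :=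
      hF.contDiffAt.contMDiffAt.comp y (hc1.prodMk_space (hc2.prodMk_space hc3))
    refine h1.congr_of_eventuallyEq ?_
    have h2 : ∀ᶠ y' : Circle × (Sph ℂ × Sph P.V) in 𝓝 y, y'.2.2 ≠ nor :=
      (continuous_snd.comp continuous_snd).continuousAt.eventually
        (isOpen_ne.mem_nhds hw)
    filter_upwards [h2] with y' hy'
    simp only [Function.comp_apply, exp_lift]
    rw [G, if_neg hy']

/-- `C^1` regularity of the global map, from the regularity of `F` and `W`. -/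
theorem fM_contMDiff_of
    (hF : ContDiff ℝ 1 (fun q : ℝ × ℂ × P.V => P.F (Circle.exp q.1) q.2.1 q.2.2))
    (hW : ContDiff ℝ 1 (fun q : ℝ × ℂ => P.W (Circle.exp q.1) q.2))
    (hFW : ∀ (ζ : Circle) (z : ℂ) (v : P.V), 16 * P.A ζ ^ 2 ≤ ‖z‖ ^ 2 + ‖v‖ ^ 2 →
      0 < ‖z‖ ^ 2 + ‖v‖ ^ 2 → P.F ζ z v = P.W ζ z)
    (hfar : ∀ (ζ : Circle) {z : ℂ}, 1 / 4 ≤ ‖z‖ → 2 ≤ ‖P.W ζ z 0‖ ∧ P.hat (P.W ζ z) = 0)
    (hA : ∀ ζ : Circle, P.A ζ ≤ 1 / 1000) :
    ContMDiff ((𝓡 1).prod ((𝓡 2).prod (𝓡 (2 * P.p)))) ((𝓡 1).prod ((𝓡 2).prod (𝓡 (2 * P.p)))) 1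
      P.fM := by
  classical
  intro y
  have hfst : ContMDiffAt ((𝓡 1).prod ((𝓡 2).prod (𝓡 (2 * P.p)))) (𝓡 1) 1
      (fun y : Circle × (Sph ℂ × Sph P.V) => P.ω * y.1) y :=
    (contMDiff_mul_left (I := 𝓡 1) (n := 1) (a := P.ω)).contMDiffAt.comp y contMDiffAt_fst
  refine hfst.prodMk ?_
  by_cases hx : -(15 / 17) < ht y.2.1
  · have h1 : ContMDiffAt ((𝓡 1).prod ((𝓡 2).prod (𝓡 (2 * P.p)))) ((𝓡 2).prod (𝓡 (2 * P.p))) 1
        (fun _ : Circle × (Sph ℂ × Sph P.V) => ((nor, sou) : Sph ℂ × Sph P.V)) y :=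
      contMDiffAt_const
    refine h1.congr_of_eventuallyEq ?_
    have h2 : ∀ᶠ y' : Circle × (Sph ℂ × Sph P.V) in 𝓝 y, -(15 / 17) < ht y'.2.1 :=
      (continuous_ht_bd270.comp (continuous_fst.comp continuous_snd)).continuousAt.eventually
        (lt_mem_nhds hx)
    filter_upwards [h2] with y' hy'
    rw [fib]
    split_ifs with h3
    · have h4 : y'.2.1 ≠ nor := by
        intro h; rw [h] at h3; simp only [nor, ht_mk] at h3; norm_num at h3
      have h5 := norm_st_sq h4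
      have h6 : 1 / 4 ≤ ‖st y'.2.1‖ := by
        have h7 : (1 / 4 : ℝ) ^ 2 ≤ ‖st y'.2.1‖ ^ 2 := by
          rw [h5, le_div_iff₀ (by linarith only [h3])]
          linarith only [hy']
        exact le_of_sq_le_sq h7 (norm_nonneg _)
      have h8 : P.G y'.1 y'.2.1 y'.2.2 = P.W y'.1 (st y'.2.1) := by
        rw [G]
        split_ifs with h9
        · rfl
        · refine hFW _ _ _ ?_ ?_
          · have h7 := hA y'.1
            have h8 : 0 ≤ P.A y'.1 := expNegInvGlue.nonneg _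
            nlinarith only [h6, h7, h8]
          · have := sq_nonneg ‖st y'.2.2‖
            nlinarith only [h6]
      obtain ⟨h10, h11⟩ := hfar y'.1 h6
      rw [h8, h11, E2_of_two_le h10, ist_zero]
    · rfl
  · have hx' : ht y.2.1 < -(3 / 4) := by
      have := not_lt.1 hx
      linarith
    have hne : y.2.1 ≠ nor := by
      intro h; rw [h] at hx'; simp only [nor, ht_mk] at hx'; norm_num at hx'
    have hG := P.contMDiffAt_G hF hW hFW hA y hne
    have h1 : ContMDiffAt ((𝓡 1).prod ((𝓡 2).prod (𝓡 (2 * P.p)))) (𝓡 2) 1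
        (fun y : Circle × (Sph ℂ × Sph P.V) => E2 (P.G y.1 y.2.1 y.2.2 0)) y :=
      (contMDiff_E2 (m := 1)).contMDiffAt.comp y
        ((P.contDiff_zeroCoord (n := 1)).contMDiff.contMDiffAt.comp y hG)
    have h2 : ContMDiffAt ((𝓡 1).prod ((𝓡 2).prod (𝓡 (2 * P.p)))) (𝓡 (2 * P.p)) 1
        (fun y : Circle × (Sph ℂ × Sph P.V) => (ist (P.hat (P.G y.1 y.2.1 y.2.2)) : Sph P.V)) y :=
      (contMDiff_ist (V := P.V) (n := 2 * P.p) (m := 1)).contMDiffAt.comp y
        ((P.contDiff_hat (n := 1)).contMDiff.contMDiffAt.comp y hG)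
    refine (h1.prodMk h2).congr_of_eventuallyEq ?_
    have h3 : ∀ᶠ y' : Circle × (Sph ℂ × Sph P.V) in 𝓝 y, ht y'.2.1 < -(3 / 4) :=
      (continuous_ht_bd270.comp (continuous_fst.comp continuous_snd)).continuousAt.eventually
        (gt_mem_nhds hx')
    filter_upwards [h3] with y' hy'
    rw [fib, if_pos hy']

end Par

end Vale.Agent.P103
end
end

section

section

/-!
# P103: elementary facts about `S`, `kk`, `mx`, `nu`, `A`, `q`, `r`, `Pr`, `coef`
-/

namespace Vale.Agent.P103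

open scoped BigOperators Topology
open Finset

/-! ### The functions `S`, `kk`, `mx`, `nu` -/

theorem S_of_one_le {r : ℝ} (h : 1 ≤ r) : S r = 0 := by
  unfold S; rw [Real.smoothTransition.zero_of_nonpos (by linarith only [h]), mul_zero]

theorem S_of_le {r : ℝ} (h : r ≤ 3 / 4) : S r = 1 - r := by
  unfold S; rw [Real.smoothTransition.one_of_one_le (by linarith only [h]), mul_one]

theorem S_pos {r : ℝ} (h : r < 1) : 0 < S r := by
  unfold S
  exact mul_pos (by linarith only [h]) (Real.smoothTransition.pos_of_pos (by linarith only [h]))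

theorem S_nonneg (r : ℝ) : 0 ≤ S r := by
  rcases lt_or_ge r 1 with h | h
  · exact (S_pos h).le
  · exact (S_of_one_le h).ge

theorem S_le_one {r : ℝ} (h : 0 ≤ r) : S r ≤ 1 := by
  rcases lt_or_ge r 1 with h1 | h1
  · unfold S
    exact mul_le_one₀ (by linarith only [h]) (Real.smoothTransition.nonneg _)
      (Real.smoothTransition.le_one _)
  · rw [S_of_one_le h1]; norm_num

theorem S_le {r : ℝ} (h : r ≤ 1) : S r ≤ 1 - r := by
  unfold S
  exact mul_le_of_le_one_right (by linarith only [h]) (Real.smoothTransition.le_one _)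

theorem kk_nonneg (r : ℝ) : 0 ≤ kk r := Real.smoothTransition.nonneg _

theorem kk_le_one (r : ℝ) : kk r ≤ 1 := Real.smoothTransition.le_one _

theorem kk_of_le {r : ℝ} (h : r ≤ 1 / 2) : kk r = 1 :=
  Real.smoothTransition.one_of_one_le (by linarith only [h])

theorem kk_of_ge {r : ℝ} (h : 3 / 4 ≤ r) : kk r = 0 :=
  Real.smoothTransition.zero_of_nonpos (by linarith only [h])

theorem lt_of_kk_ne_one {r : ℝ} (h : kk r ≠ 1) : 1 / 2 < r := by
  by_contra hc; exact h (kk_of_le (not_lt.1 hc))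

theorem kk_le_S (r : ℝ) : kk r ≤ 4 * S r := by
  rcases le_or_gt r (3 / 4) with h | h
  · rw [S_of_le h]; have := kk_le_one r; linarith only [h, this]
  · rw [kk_of_ge h.le]; have := S_nonneg r; linarith only [this]

theorem mx_eq_of_le {ν b : ℝ} (hb : 0 < b) (h : 2 * b ≤ ν) : mx ν b = ν := by
  unfold mx
  rw [Real.smoothTransition.zero_of_nonpos, mul_zero, add_zero]
  have : 2 ≤ ν / b := by rw [le_div_iff₀ hb]; linarith only [h]
  linarith

theorem le_mx_left {ν b : ℝ} (hb : 0 < b) : ν ≤ mx ν b := by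
  unfold mx
  have := mul_nonneg hb.le (Real.smoothTransition.nonneg (2 - ν / b))
  linarith only [this]

theorem le_mx_right {ν b : ℝ} (hb : 0 < b) (hν : 0 ≤ ν) : b ≤ mx ν b := by
  rcases le_total b ν with h | h
  · exact h.trans (le_mx_left hb)
  · unfold mx
    rw [Real.smoothTransition.one_of_one_le]
    · linarith only [hν]
    · have : ν / b ≤ 1 := by rw [div_le_one hb]; exact h
      linarith only [this]

theorem mx_pos {ν b : ℝ} (hb : 0 < b) (hν : 0 ≤ ν) : 0 < mx ν b := hb.trans_le (le_mx_right hb hν)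

theorem mx_le_add {ν b : ℝ} (hb : 0 ≤ b) : mx ν b ≤ ν + b := by
  unfold mx
  have := mul_le_of_le_one_right hb (Real.smoothTransition.le_one (2 - ν / b))
  linarith only [this]

theorem beta_pos {a : ℝ} (ha : 0 < a) : 0 < beta a := by
  unfold beta
  have : 0 ≤ Real.log (1 + 1 / a) := Real.log_nonneg (by
    have : 0 < 1 / a := by positivity
    linarith)
  positivity

theorem beta_le_half {a : ℝ} (ha : 0 ≤ a) : beta a ≤ 1 / 2 := by
  unfold beta
  have : 0 ≤ Real.log (1 + 1 / a) := Real.log_nonneg (by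
    have : 0 ≤ 1 / a := by positivity
    linarith only [this])
  exact one_div_le_one_div_of_le (by norm_num) (by linarith)

theorem nu_nonneg (ζ : Circle) : 0 ≤ nu ζ := by unfold nu; positivity

theorem nu_le_one (ζ : Circle) : nu ζ ≤ 1 := by
  unfold nu
  have : ‖(ζ : ℂ) - 1‖ ≤ 2 := by
    calc ‖(ζ : ℂ) - 1‖ ≤ ‖(ζ : ℂ)‖ + ‖(1 : ℂ)‖ := norm_sub_le _ _
      _ = 2 := by rw [Circle.norm_coe, norm_one]; norm_num
  nlinarith only [this, norm_nonneg ((ζ : ℂ) - 1)]

theorem nu_le_iff {ζ : Circle} {v : ℝ} (hv : 0 ≤ v) :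
    nu ζ ≤ v ↔ ‖(ζ : ℂ) - 1‖ ≤ 2 * Real.sqrt v := by
  unfold nu
  have hs := Real.sqrt_nonneg v
  have hs2 := Real.sq_sqrt hv
  constructor
  · intro h
    refine (pow_le_pow_iff_left₀ (norm_nonneg _) (by (clear * -; positivity)) two_ne_zero).1 ?_
    linarith
  · intro h
    nlinarith only [hs2, h, norm_nonneg ((ζ : ℂ) - 1)]

theorem norm_eq_sqrt_nu (ζ : Circle) : ‖(ζ : ℂ) - 1‖ = 2 * Real.sqrt (nu ζ) := by
  unfold nu
  have : ‖(ζ : ℂ) - 1‖ ^ 2 / 4 = (‖(ζ : ℂ) - 1‖ / 2) ^ 2 := by ring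
  rw [this, Real.sqrt_sq (by positivity)]; ring

/-- `log y ≤ 2 √y`. -/
theorem log_le_sqrt {y : ℝ} (hy : 0 < y) : Real.log y ≤ 2 * Real.sqrt y := by
  have h1 : Real.log y = 2 * Real.log (Real.sqrt y) := by
    rw [Real.log_sqrt hy.le]; ring
  have h2 := Real.log_le_sub_one_of_pos (Real.sqrt_pos.2 hy)
  rw [h1]; linarith only [h2]

namespace Par

variable (P : Par)

/-! ### Parameters -/

theorem one_le_H : 1 ≤ P.H := P.nt.one_le

theorem Λ_pos : 0 < P.Λ := lt_of_lt_of_le (by positivity) P.Λ_ge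

theorem Λ_ge_64 : 64 ≤ P.Λ := by
  have h1 : 1 ≤ Real.exp (16 / P.h) := Real.one_le_exp (by have := P.nt.h_pos; positivity)
  have := P.Λ_ge
  linarith only [h1, this]

theorem log_Λ_ge : 20 ≤ Real.log P.Λ := by
  have hh := P.nt.h_pos
  have hh' := P.nt.h_le
  have h1 : Real.log (64 * Real.exp (16 / P.h)) ≤ Real.log P.Λ :=
    Real.log_le_log (by positivity) P.Λ_ge
  rw [Real.log_mul (by norm_num) (Real.exp_pos _).ne', Real.log_exp] at h1
  have h2 : 16 ≤ 16 / P.h := by rw [le_div_iff₀ hh]; linarith only [hh']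
  have h3 : Real.log 64 = 6 * Real.log 2 := by
    rw [show (64 : ℝ) = 2 ^ 6 by norm_num, Real.log_pow]; norm_num
  have h4 := Real.log_two_gt_d9
  rw [h3] at h1
  linarith only [h1, h2, h4]

theorem K_ge_200 : 200 * P.H ≤ P.K := by
  have h1 := P.K_ge
  have h2 := P.log_Λ_ge
  have h3 := P.one_le_H
  nlinarith only [h1, h2, h3]

theorem K_pos : 0 < P.K := by
  have h1 := P.K_ge_200
  have h3 := P.one_le_H
  linarith only [h1, h3]

theorem A_nonneg (ζ : Circle) : 0 ≤ P.A ζ := expNegInvGlue.nonneg _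

/-- `A = exp(-K/ν)` (implicit form of `A_eq`). -/
theorem A_eq_exp {ζ : Circle} (h : 0 < nu ζ) : P.A ζ = Real.exp (-(P.K / nu ζ)) := by
  unfold A expNegInvGlue
  rw [if_neg (not_le.2 (div_pos h P.K_pos)), inv_div]

theorem A_pos {ζ : Circle} (h : 0 < nu ζ) : 0 < P.A ζ := by
  rw [P.A_eq_exp h]; exact Real.exp_pos _

theorem A_eq_zero_iff {ζ : Circle} : P.A ζ = 0 ↔ nu ζ = 0 := by
  constructor
  · intro h
    by_contra hc
    exact (P.A_pos (lt_of_le_of_ne (nu_nonneg ζ) (Ne.symm hc))).ne' h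
  · intro h; unfold A; rw [h, zero_div, expNegInvGlue.zero]

theorem nu_pos_of_A {ζ : Circle} (h : 0 < P.A ζ) : 0 < nu ζ :=
  lt_of_le_of_ne (nu_nonneg ζ) fun h0 => h.ne' (P.A_eq_zero_iff.2 h0.symm)

theorem A_le_exp {ζ : Circle} {v : ℝ} (hv : 0 < v) (h : nu ζ ≤ v) :
    P.A ζ ≤ Real.exp (-(P.K / v)) := by
  rcases (nu_nonneg ζ).eq_or_lt with h0 | h0
  · rw [P.A_eq_zero_iff.2 h0.symm]; exact (Real.exp_pos _).le
  · rw [P.A_eq_exp h0, Real.exp_le_exp, neg_le_neg_iff]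
    exact div_le_div_of_nonneg_left P.K_pos.le h0 h

theorem exp_lt_A {ζ : Circle} {v : ℝ} (hv : 0 < v) (h : v < nu ζ) :
    Real.exp (-(P.K / v)) < P.A ζ := by
  rw [P.A_eq_exp (hv.trans h), Real.exp_lt_exp, neg_lt_neg_iff]
  exact div_lt_div_of_pos_left P.K_pos hv h

theorem A_le_exp_neg_K (ζ : Circle) : P.A ζ ≤ Real.exp (-P.K) := by
  have := P.A_le_exp one_pos (nu_le_one ζ)
  rwa [div_one] at this

/-- `A ≤ 10⁻⁴` -/
theorem A_le_small (ζ : Circle) : P.A ζ ≤ 1 / 10000 := by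
  refine (P.A_le_exp_neg_K ζ).trans ?_
  have h1 := P.K_ge_200
  have h2 := P.one_le_H
  have h3 : Real.exp (-P.K) ≤ Real.exp (-200) := Real.exp_le_exp.2 (by linarith only [h1, h2])
  have h4 : Real.exp (-200) = (Real.exp 100)⁻¹ * (Real.exp 100)⁻¹ := by
    rw [← Real.exp_neg, ← Real.exp_add]; norm_num
  have h5 : (100 : ℝ) ≤ Real.exp 100 := by
    have := Real.add_one_le_exp (100 : ℝ)
    linarith only [this]
  have h6 : (Real.exp 100)⁻¹ ≤ 1 / 100 := by
    rw [← one_div]; exact one_div_le_one_div_of_le (by norm_num) h5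
  have h7 : 0 ≤ (Real.exp 100)⁻¹ := by positivity
  nlinarith only [h3, h4, h6, h7]

theorem A_le_one (ζ : Circle) : P.A ζ ≤ 1 := (P.A_le_small ζ).trans (by norm_num)

/-! ### `q` and `r` -/

@[simp] theorem q_zero (ζ : Circle) : P.q ζ 0 = 1 := by simp [q]

theorem q_succ' (ζ : Circle) (t : ℕ) : P.q ζ (t + 1) = P.Λ * nu ζ * P.q (P.ω * ζ) t := by
  unfold q
  rw [Finset.prod_range_succ', mul_comm, pow_zero, one_mul]
  congr 1
  refine Finset.prod_congr rfl fun j _ => ?_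
  rw [pow_succ, mul_assoc]

theorem q_add (ζ : Circle) (s t : ℕ) : P.q ζ (s + t) = P.q ζ s * P.q (P.ω ^ s * ζ) t := by
  unfold q
  rw [Finset.prod_range_add]
  congr 1
  refine Finset.prod_congr rfl fun j _ => ?_
  rw [← mul_assoc (P.ω ^ j), ← pow_add, add_comm j s]

theorem q_nonneg (ζ : Circle) (t : ℕ) : 0 ≤ P.q ζ t :=
  Finset.prod_nonneg fun j _ => mul_nonneg P.Λ_pos.le (nu_nonneg _)

theorem q_le (ζ : Circle) (t : ℕ) : P.q ζ t ≤ P.Λ ^ t := by
  have h : ∀ j ∈ Finset.range t, P.Λ * nu (P.ω ^ j * ζ) ≤ P.Λ := fun j _ =>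
    mul_le_of_le_one_right P.Λ_pos.le (nu_le_one _)
  calc P.q ζ t ≤ ∏ _j ∈ Finset.range t, P.Λ :=
        Finset.prod_le_prod (fun j _ => mul_nonneg P.Λ_pos.le (nu_nonneg _)) h
    _ = P.Λ ^ t := by simp

theorem q_ge {ζ : Circle} {v : ℝ} (hv : 0 ≤ v) {s : ℕ}
    (h : ∀ j < s, v ≤ nu (P.ω ^ j * ζ)) : v ^ s ≤ P.q ζ s := by
  have hΛ := P.Λ_ge_64
  calc v ^ s = ∏ _j ∈ Finset.range s, v := by simp
    _ ≤ P.q ζ s := Finset.prod_le_prod (fun _ _ => hv) (fun j hj => by
        have h1 := h j (Finset.mem_range.1 hj)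
        nlinarith only [hv, h1, hΛ])

theorem q_pos {ζ : Circle} {s : ℕ} (h : ∀ j < s, 0 < nu (P.ω ^ j * ζ)) : 0 < P.q ζ s :=
  Finset.prod_pos fun j hj => mul_pos P.Λ_pos (h j (Finset.mem_range.1 hj))

theorem r_nonneg (ζ : Circle) {a : ℝ} (ha : 0 ≤ a) (t : ℕ) : 0 ≤ P.r ζ a t :=
  div_nonneg (P.A_nonneg _) (mul_nonneg ha (P.q_nonneg _ _))

theorem r_zero (ζ : Circle) (a : ℝ) : P.r ζ a 0 = P.A ζ / a := by simp [r]

theorem r_succ' (ζ : Circle) (a : ℝ) (t : ℕ) :
    P.r ζ a (t + 1) = P.r (P.ω * ζ) (P.Λ * nu ζ * a) t := by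
  unfold r
  rw [q_succ', pow_succ, mul_assoc (P.ω ^ t)]
  congr 1; ring

/-! ### `Pr` and `coef` -/

theorem Pr_nonneg (ζ : Circle) (a : ℝ) (t : ℕ) : 0 ≤ P.Pr ζ a t :=
  Finset.prod_nonneg fun m _ => by have := kk_le_one (P.r ζ a m); linarith only [this]

theorem Pr_le_one (ζ : Circle) (a : ℝ) (t : ℕ) : P.Pr ζ a t ≤ 1 :=
  Finset.prod_le_one (fun m _ => by have := kk_le_one (P.r ζ a m); linarith only [this])
    (fun m _ => by have := kk_nonneg (P.r ζ a m); linarith only [this])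

@[simp] theorem Pr_zero (ζ : Circle) (a : ℝ) : P.Pr ζ a 0 = 1 := by simp [Pr]

theorem Pr_succ (ζ : Circle) (a : ℝ) (t : ℕ) :
    P.Pr ζ a (t + 1) = P.Pr ζ a t * (1 - kk (P.r ζ a t)) := by
  simp only [Pr, prod_range_succ]

theorem Pr_succ' (ζ : Circle) (a : ℝ) (t : ℕ) :
    P.Pr ζ a (t + 1) = (1 - kk (P.r ζ a 0)) * P.Pr (P.ω * ζ) (P.Λ * nu ζ * a) t := by
  unfold Pr
  rw [Finset.prod_range_succ', mul_comm]
  congr 1
  exact Finset.prod_congr rfl fun j _ => by rw [r_succ']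

theorem Pr_eq_zero_of {ζ : Circle} {a : ℝ} {s : ℕ} (h : kk (P.r ζ a s) = 1) {t : ℕ}
    (ht : s < t) : P.Pr ζ a t = 0 :=
  Finset.prod_eq_zero (Finset.mem_range.2 ht) (by rw [h, sub_self])

theorem coef_eq_zero_of {ζ : Circle} {a : ℝ} {s : ℕ} (h : kk (P.r ζ a s) = 1) {t : ℕ}
    (ht : s < t) : P.coef ζ a t = 0 := by
  unfold coef; rw [P.Pr_eq_zero_of h ht]; simp

theorem half_lt_r_of_Pr {ζ : Circle} {a : ℝ} {s t : ℕ} (h : P.Pr ζ a t ≠ 0) (hs : s < t) :
    1 / 2 < P.r ζ a s :=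
  lt_of_kk_ne_one fun h1 => h (P.Pr_eq_zero_of h1 hs)

theorem coef_zero (ζ : Circle) (a : ℝ) : P.coef ζ a 0 = S (P.r ζ a 0) * a := by
  simp [coef]

/-- the recursion for the coefficients -/
theorem coef_succ' (ζ : Circle) {a : ℝ} (h : 0 < nu ζ) (t : ℕ) :
    P.coef ζ a (t + 1) =
      (1 - kk (P.r ζ a 0)) * (2 * P.Λ * nu ζ)⁻¹ * P.coef (P.ω * ζ) (P.Λ * nu ζ * a) t := by
  have hΛ := P.Λ_pos
  unfold coef
  rw [Pr_succ', r_succ']
  field_simp
  ring

/-- telescoping: `Σ_{t<n} Pr_t kk(r_t) = 1 - Pr_n` -/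
theorem sum_Pr_kk (ζ : Circle) (a : ℝ) (n : ℕ) :
    ∑ t ∈ Finset.range n, P.Pr ζ a t * kk (P.r ζ a t) = 1 - P.Pr ζ a n := by
  induction n with
  | zero => simp
  | succ n ih => rw [Finset.sum_range_succ, ih, Pr_succ]; ring

/-! ### Stop times -/

/-- First visit with `nu ≤ v`. -/
theorem exists_first (ζ : Circle) {v : ℝ} (hv : 0 < v) (hv1 : v ≤ 1) :
    ∃ s : ℕ, (s : ℝ) * (2 * Real.sqrt v) ≤ P.H ∧ nu (P.ω ^ s * ζ) ≤ v ∧
      ∀ j < s, v < nu (P.ω ^ j * ζ) := by
  have hs := Real.sqrt_pos.2 hv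
  have hs1 : Real.sqrt v ≤ 1 := Real.sqrt_le_one.2 hv1
  obtain ⟨s0, _, h2, h3⟩ := P.nt.visit ζ (2 * Real.sqrt v) (by positivity) (by linarith only [hs1])
  have hex : ∃ s : ℕ, nu (P.ω ^ s * ζ) ≤ v := ⟨s0, (nu_le_iff hv.le).2 h3⟩
  classical
  refine ⟨Nat.find hex, ?_, Nat.find_spec hex, fun j hj => ?_⟩
  · have : Nat.find hex ≤ s0 := Nat.find_min' hex ((nu_le_iff hv.le).2 h3)
    have h4 : ((Nat.find hex : ℕ) : ℝ) ≤ s0 := by exact_mod_cast this
    calc ((Nat.find hex : ℕ) : ℝ) * (2 * Real.sqrt v) ≤ s0 * (2 * Real.sqrt v) :=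
          mul_le_mul_of_nonneg_right h4 (by positivity)
      _ ≤ P.H := h2
  · exact not_le.1 (Nat.find_min hex hj)

/-- `v ^ s` is not too small if `2 s √v ≤ B`. -/
theorem pow_ge_exp {v : ℝ} (hv : 0 < v) {s : ℕ} {B : ℝ}
    (h : s * (2 * Real.sqrt v) ≤ B) : Real.exp (-(B / v)) ≤ v ^ s := by
  have hs := Real.sqrt_pos.2 hv
  have hss := Real.mul_self_sqrt hv.le
  have h1 : v ^ s = Real.exp (s * Real.log v) := by
    rw [← Real.log_pow, Real.exp_log (pow_pos hv s)]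
  rw [h1, Real.exp_le_exp]
  have h2 : -Real.log v ≤ 2 * (Real.sqrt v)⁻¹ := by
    have := log_le_sqrt (inv_pos.2 hv)
    rwa [Real.log_inv, Real.sqrt_inv] at this
  have h3 : (s : ℝ) * (-Real.log v) ≤ s * (2 * (Real.sqrt v)⁻¹) :=
    mul_le_mul_of_nonneg_left h2 (Nat.cast_nonneg s)
  have h4 : (s : ℝ) * (2 * (Real.sqrt v)⁻¹) ≤ B / v := by
    rw [le_div_iff₀ hv]
    calc (s : ℝ) * (2 * (Real.sqrt v)⁻¹) * v
        = s * (2 * (Real.sqrt v)⁻¹) * (Real.sqrt v * Real.sqrt v) := by rw [hss]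
      _ = s * (2 * Real.sqrt v) := by field_simp
      _ ≤ B := h
  linarith only [h3, h4]

/-- the first visit, with a lower bound for `q` -/
theorem exists_first' (ζ : Circle) {v : ℝ} (hv : 0 < v) (hv1 : v ≤ 1) :
    ∃ s : ℕ, (s : ℝ) * (2 * Real.sqrt v) ≤ P.H ∧ nu (P.ω ^ s * ζ) ≤ v ∧
      (∀ j < s, v < nu (P.ω ^ j * ζ)) ∧ Real.exp (-(P.H / v)) ≤ P.q ζ s := by
  obtain ⟨s, h1, h2, h3⟩ := P.exists_first ζ hv hv1
  exact ⟨s, h1, h2, h3, (pow_ge_exp hv h1).trans (P.q_ge hv.le fun j hj => (h3 j hj).le)⟩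

end Par

end Vale.Agent.P103
end
end

section

section

/-!
# P103, T2a: constants, stopping time, number of alive indices (on top of `Base` and `CoreSep`)
-/

namespace Vale.Agent.P103

open scoped BigOperators Topology

theorem kk_eq_one {r : ℝ} (h : r ≤ 1 / 2) : kk r = 1 := kk_of_le h

namespace Par

variable (P : Par)

theorem H_ge : 1 ≤ P.H := P.nt.one_le

theorem Λ_ge' : 64 ≤ P.Λ := P.Λ_ge_64

theorem K_ge_160H : 160 * P.H ≤ P.K := by
  have h1 := P.K_ge_200
  have h3 := P.H_ge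
  linarith only [h1, h3]

theorem K_ge' : 40 ≤ P.K := by
  have := P.K_ge_160H
  have := P.H_ge
  linarith

theorem K_ge_H : 40 * P.H ≤ P.K := by
  have := P.K_ge_160H
  have := P.H_ge
  linarith

/-- `A = exp(-K/ν)` -/
theorem A_eq {ζ : Circle} (h : 0 < nu ζ) : P.A ζ = Real.exp (-(P.K / nu ζ)) := P.A_eq_exp h

theorem A_eq_zero {ζ : Circle} (h : nu ζ = 0) : P.A ζ = 0 := P.A_eq_zero_iff.2 h

theorem A_le (ζ : Circle) : P.A ζ ≤ 1 / 1000 := (P.A_le_small ζ).trans (by norm_num)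

theorem neg_mul_log_le {w : ℝ} (hw : 0 < w) : -(w * Real.log w) ≤ 0.37 := by
  have h1 : (-Real.log w - 1) + 1 ≤ Real.exp (-Real.log w - 1) := Real.add_one_le_exp _
  have h2 : Real.exp (-Real.log w - 1) = w⁻¹ * Real.exp (-1) := by
    rw [sub_eq_add_neg, Real.exp_add, Real.exp_neg, Real.exp_log hw]
  rw [h2] at h1
  have h3 : w * (-Real.log w) ≤ w * (w⁻¹ * Real.exp (-1)) := by
    refine mul_le_mul_of_nonneg_left ?_ hw.le
    linarith only [h1]
  have h4 : w * (w⁻¹ * Real.exp (-1)) = Real.exp (-1) := by field_simp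
  have h5 : Real.exp (-1) ≤ 0.37 := by
    rw [Real.exp_neg]
    have h6 := Real.exp_one_gt_d9
    rw [inv_le_comm₀ (Real.exp_pos 1) (by norm_num)]
    norm_num at h6 ⊢
    linarith only [h6]
  linarith only [h3, h4, h5]

/-- (ST) quantitative stopping time: the first time `s` with `ν(ζ_s) ≤ v`. -/
theorem stop (ζ : Circle) {v : ℝ} (hv : 0 < v) (hv1 : v ≤ 1) :
    ∃ s : ℕ, nu (P.ω ^ s * ζ) ≤ v ∧ (∀ j < s, v < nu (P.ω ^ j * ζ)) ∧
      (s : ℝ) * (2 * Real.sqrt v) ≤ P.H ∧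
      Real.exp (-(0.37 * P.H / v)) ≤ P.q ζ s := by
  have hsv : 0 < Real.sqrt v := Real.sqrt_pos.2 hv
  have hsv1 : Real.sqrt v ≤ 1 := Real.sqrt_le_one.2 hv1
  have hsq : Real.sqrt v ^ 2 = v := Real.sq_sqrt hv.le
  obtain ⟨s', _, hs'H, hs'⟩ := P.nt.visit ζ (2 * Real.sqrt v) (by positivity) (by linarith only [hsv1])
  have hex : ∃ s : ℕ, nu (P.ω ^ s * ζ) ≤ v := by
    refine ⟨s', ?_⟩
    unfold nu
    have h0 := norm_nonneg (((P.ω ^ s' * ζ : Circle) : ℂ) - 1)
    have h1 := pow_le_pow_left₀ h0 hs' 2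
    rw [mul_pow, hsq] at h1
    linarith only [h1]
  classical
  have hle : Nat.find hex ≤ s' := Nat.find_min' hex (by
    unfold nu
    have h0 := norm_nonneg (((P.ω ^ s' * ζ : Circle) : ℂ) - 1)
    have h1 := pow_le_pow_left₀ h0 hs' 2
    rw [mul_pow, hsq] at h1
    linarith only [h1])
  have hsx : (Nat.find hex : ℝ) * (2 * Real.sqrt v) ≤ P.H := by
    refine le_trans ?_ hs'H
    have : (Nat.find hex : ℝ) ≤ s' := by exact_mod_cast hle
    exact mul_le_mul_of_nonneg_right this (by positivity)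
  have hmin : ∀ j < Nat.find hex, v < nu (P.ω ^ j * ζ) := fun j hj => not_le.1 (Nat.find_min hex hj)
  refine ⟨Nat.find hex, Nat.find_spec hex, hmin, hsx, ?_⟩
  set s := Nat.find hex with hs
  have h1 : v ^ s ≤ P.q ζ s := by
    unfold q
    rw [← Finset.card_range s, ← Finset.prod_const]
    rw [Finset.card_range]
    refine Finset.prod_le_prod (fun _ _ => hv.le) fun j hj => ?_
    have h2 := hmin j (Finset.mem_range.1 hj)
    have h3 := P.Λ_ge'
    nlinarith only [hv, h2, h3]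
  refine le_trans ?_ h1
  have h4 : v ^ s = Real.exp (s * Real.log v) := by
    rw [Real.exp_nat_mul, Real.exp_log hv]
  rw [h4]
  refine Real.exp_le_exp.2 ?_
  have h5 : Real.log v = 2 * Real.log (Real.sqrt v) := by
    rw [← hsq, Real.log_pow, hsq]
    norm_num
  have h6 := neg_mul_log_le hsv
  have h7 : Real.log (Real.sqrt v) ≤ 0 := Real.log_nonpos hsv.le hsv1
  rw [h5, neg_le, ← mul_neg]
  rw [le_div_iff₀ hv]
  have h8 : (s : ℝ) * -(2 * Real.log (Real.sqrt v)) * v =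
      ((s : ℝ) * (2 * Real.sqrt v)) * (-(Real.sqrt v * Real.log (Real.sqrt v))) := by
    nth_rewrite 2 [← hsq]
    ring
  rw [h8]
  have h9 : 0 ≤ -(Real.sqrt v * Real.log (Real.sqrt v)) := by nlinarith only [hsv, h7]
  have hH := P.H_ge
  calc ((s : ℝ) * (2 * Real.sqrt v)) * (-(Real.sqrt v * Real.log (Real.sqrt v)))
      ≤ P.H * (-(Real.sqrt v * Real.log (Real.sqrt v))) := mul_le_mul_of_nonneg_right hsx h9
    _ ≤ P.H * 0.37 := mul_le_mul_of_nonneg_left h6 (by linarith only [hH])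
    _ = 0.37 * P.H := by ring

/-- at the stopping time for `v` with `a ≥ 2 exp(-K/(2v))`, we have `r_s < 1/2` -/
theorem r_stop (ζ : Circle) {v a : ℝ} (hv : 0 < v) (hv1 : v ≤ 1)
    (ha : 2 * Real.exp (-(P.K / (2 * v))) ≤ a) (s : ℕ) (hs : nu (P.ω ^ s * ζ) ≤ v)
    (hq : Real.exp (-(0.37 * P.H / v)) ≤ P.q ζ s) : P.r ζ a s < 1 / 2 := by
  have hpos : 0 < a * P.q ζ s := by
    have h1 := Real.exp_pos (-(P.K / (2 * v)))
    have h2 := Real.exp_pos (-(0.37 * P.H / v))
    exact mul_pos (by linarith only [ha, h1]) (by linarith only [hq, h2])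
  unfold r
  rw [div_lt_iff₀ hpos]
  have h1 := P.A_le_exp hv hs
  have h2 : 2 * Real.exp (-(P.K / (2 * v))) * Real.exp (-(0.37 * P.H / v)) ≤ a * P.q ζ s :=
    mul_le_mul ha hq (Real.exp_pos _).le (by have := Real.exp_pos (-(P.K / (2 * v))); linarith only [ha, this])
  have h3 : Real.exp (-(P.K / v)) <
      Real.exp (-(P.K / (2 * v))) * Real.exp (-(0.37 * P.H / v)) := by
    rw [← Real.exp_add]
    refine Real.exp_lt_exp.2 ?_
    have h4 : -(P.K / (2 * v)) + -(0.37 * P.H / v) - -(P.K / v) =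
        (P.K / 2 - 0.37 * P.H) / v := by
      field_simp
      ring
    have h5 : 0 < (P.K / 2 - 0.37 * P.H) / v := by
      have := P.K_ge_160H
      have := P.H_ge
      exact div_pos (by (clear ζ v a hv hv1 ha s hs hq hpos h1 h2 h4; linarith)) hv
    linarith only [h4, h5]
  linarith only [h1, h2, h3]

/-- after an index with `k = 1` all products vanish -/
theorem Pr_eq_zero {ζ : Circle} {a : ℝ} {s t : ℕ} (h : P.r ζ a s < 1 / 2) (hst : s < t) :
    P.Pr ζ a t = 0 := by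
  refine Finset.prod_eq_zero (Finset.mem_range.2 hst) ?_
  rw [kk_eq_one h.le, sub_self]

theorem coef_eq_zero_of_lt {ζ : Circle} {a : ℝ} {s t : ℕ} (h : P.r ζ a s < 1 / 2) (hst : s < t) :
    P.coef ζ a t = 0 := by
  unfold coef
  rw [P.Pr_eq_zero h hst]
  simp

/-- quantitative bound of the number of alive indices -/
theorem exists_coef_zero : ∃ C : ℝ, 0 < C ∧ ∀ (ζ : Circle) (a : ℝ) (t : ℕ), 0 < a → a ≤ 1 →
    C * Real.sqrt (Real.log (2 / a)) < t → P.coef ζ a t = 0 := by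
  have hH := P.H_ge
  have hK := P.K_ge_160H
  have hKp := P.K_pos
  refine ⟨P.H, by linarith only [hH], fun ζ a t ha ha1 ht => ?_⟩
  obtain ⟨L, hL⟩ : ∃ L, L = Real.log (2 / a) := ⟨_, rfl⟩
  rw [← hL] at ht
  have hL0 : Real.log 2 ≤ L := by
    rw [hL]
    refine Real.log_le_log (by norm_num) ?_
    rw [le_div_iff₀ ha]
    linarith only [ha1]
  have hlog2 : 0.69 < Real.log 2 := by
    have := Real.log_two_gt_d9
    linarith only [this]
  have hLp : 0 < L := by linarith only [hL0, hlog2]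
  have hexpL : 2 * Real.exp (-L) = a := by
    rw [hL, Real.exp_neg, Real.exp_log (by positivity)]
    field_simp
  -- choice of `v`
  obtain ⟨v, hv⟩ : ∃ v, v = min 1 (P.K / (2 * L)) := ⟨_, rfl⟩
  have hv0 : 0 < v := by rw [hv]; positivity
  have hv1 : v ≤ 1 := by rw [hv]; exact min_le_left _ _
  have hvK : v ≤ P.K / (2 * L) := by rw [hv]; exact min_le_right _ _
  have hcond : 2 * Real.exp (-(P.K / (2 * v))) ≤ a := by
    rw [← hexpL]
    refine mul_le_mul_of_nonneg_left (Real.exp_le_exp.2 (neg_le_neg ?_)) (by norm_num)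
    rw [le_div_iff₀ (by positivity)] at hvK ⊢
    linarith only [hvK]
  obtain ⟨s, hs1, hs2, hs3, hs4⟩ := P.stop ζ hv0 hv1
  have hr := P.r_stop ζ hv0 hv1 hcond s hs1 hs4
  refine P.coef_eq_zero_of_lt hr ?_
  have h1 : (s : ℝ) ≤ P.H * Real.sqrt L := by
    -- `1 ≤ 2 √v √L`
    have h2 : 1 ≤ 2 * Real.sqrt v * Real.sqrt L := by
      have h3 : 1 / 4 ≤ v * L := by
        rw [hv]
        rcases min_choice 1 (P.K / (2 * L)) with h | h
        · rw [h]; linarith only [hL0, hlog2]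
        · rw [h]
          have h4 : P.K / (2 * L) * L = P.K / 2 := by field_simp
          rw [h4]
          linarith only [hH, hK]
      have h5 : Real.sqrt v * Real.sqrt L = Real.sqrt (v * L) := (Real.sqrt_mul hv0.le L).symm
      have h6 : 1 / 2 ≤ Real.sqrt (v * L) := by
        refine Real.le_sqrt_of_sq_le ?_
        norm_num
        linarith only [h3]
      rw [mul_assoc, h5]
      linarith only [h6]
    have h7 : 0 ≤ Real.sqrt L := Real.sqrt_nonneg _
    calc (s : ℝ) = (s : ℝ) * 1 := (mul_one _).symm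
      _ ≤ (s : ℝ) * (2 * Real.sqrt v * Real.sqrt L) := mul_le_mul_of_nonneg_left h2 (by (clear * -; positivity))
      _ = ((s : ℝ) * (2 * Real.sqrt v)) * Real.sqrt L := by ring
      _ ≤ P.H * Real.sqrt L := mul_le_mul_of_nonneg_right hs3 h7
  exact_mod_cast h1.trans_lt ht

end Par

end Vale.Agent.P103
end
end

section

section

/-!
# P103, T3a: regularity of the coefficients
-/

namespace Vale.Agent.P103

open Filter Topology

/-! ### The functions `S` and `kk` -/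

theorem rc_S_contDiff : ContDiff ℝ 1 S := by
  unfold S
  exact (contDiff_const.sub contDiff_id).mul
    (Real.smoothTransition.contDiff.comp (contDiff_const.mul (contDiff_const.sub contDiff_id)))

theorem rc_kk_contDiff : ContDiff ℝ 1 kk := by
  unfold kk
  exact Real.smoothTransition.contDiff.comp (contDiff_const.sub (contDiff_const.mul contDiff_id))

theorem rc_S_nonneg {r : ℝ} : 0 ≤ S r := by
  unfold S
  rcases le_total r 1 with h | h
  · exact mul_nonneg (by linarith only [h]) (Real.smoothTransition.nonneg _)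
  · rw [Real.smoothTransition.zero_of_nonpos (by linarith only [h])]; simp

theorem rc_S_le_one {r : ℝ} (hr : 0 ≤ r) : S r ≤ 1 := by
  unfold S
  rcases le_total r 1 with h | h
  · exact mul_le_one₀ (by linarith only [hr]) (Real.smoothTransition.nonneg _)
      (Real.smoothTransition.le_one _)
  · rw [Real.smoothTransition.zero_of_nonpos (by linarith only [h])]; simp only [mul_zero, zero_le_one]

theorem rc_kk_nonneg (r : ℝ) : 0 ≤ kk r := Real.smoothTransition.nonneg _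

theorem rc_kk_le_one (r : ℝ) : kk r ≤ 1 := Real.smoothTransition.le_one _

theorem rc_kk_eq_one {r : ℝ} (hr : r ≤ 1 / 2) : kk r = 1 :=
  Real.smoothTransition.one_of_one_le (by linarith only [hr])

theorem rc_S_zero {r : ℝ} (hr : 1 ≤ r) : S r = 0 := by
  unfold S
  rw [Real.smoothTransition.zero_of_nonpos (by linarith only [hr]), mul_zero]

theorem rc_kk_zero {r : ℝ} (hr : 1 ≤ r) : kk r = 0 :=
  Real.smoothTransition.zero_of_nonpos (by linarith only [hr])

/-- A `C^1` function vanishing on `[1,∞)` has `|f'|` and `|f'(r)| r` bounded on `[0,∞)`. -/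
theorem rc_deriv_bound {f : ℝ → ℝ} (hf : ContDiff ℝ 1 f) (h1 : ∀ r, 1 ≤ r → f r = 0) :
    ∃ C : ℝ, 0 ≤ C ∧ ∀ r, 0 ≤ r → |deriv f r| ≤ C ∧ |deriv f r| * r ≤ C := by
  have hc : Continuous (deriv f) := hf.continuous_deriv le_rfl
  obtain ⟨C, hC⟩ := (isCompact_Icc (a := (0 : ℝ)) (b := 1)).exists_bound_of_continuousOn
    hc.continuousOn
  have hC0 : 0 ≤ C := (norm_nonneg _).trans (hC 0 (by simp only [Set.mem_Icc, Std.le_refl, zero_le_one, and_self]))
  refine ⟨C, hC0, fun r hr => ?_⟩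
  rcases le_or_gt r 1 with h | h
  · have := hC r ⟨hr, h⟩
    rw [Real.norm_eq_abs] at this
    refine ⟨this, ?_⟩
    calc |deriv f r| * r ≤ |deriv f r| * 1 := by
          exact mul_le_mul_of_nonneg_left h (abs_nonneg _)
      _ ≤ C := by rw [mul_one]; exact this
  · have : deriv f r = 0 := by
      have he : f =ᶠ[𝓝 r] fun _ => 0 := by
        filter_upwards [lt_mem_nhds h] with x hx
        exact h1 x hx.le
      rw [he.deriv_eq]; simp
    rw [this]; simp only [abs_zero, hC0, zero_mul, and_self]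

theorem rc_exists_bound : ∃ C : ℝ, 0 ≤ C ∧ ∀ r, 0 ≤ r →
    |deriv S r| ≤ C ∧ |deriv S r| * r ≤ C ∧ |deriv kk r| ≤ C ∧ |deriv kk r| * r ≤ C := by
  obtain ⟨C1, h1, h2⟩ := rc_deriv_bound rc_S_contDiff (fun r hr => rc_S_zero hr)
  obtain ⟨C2, h3, h4⟩ := rc_deriv_bound rc_kk_contDiff (fun r hr => rc_kk_zero hr)
  refine ⟨max C1 C2, h1.trans (le_max_left _ _), fun r hr => ⟨?_, ?_, ?_, ?_⟩⟩
  · exact (h2 r hr).1.trans (le_max_left _ _)
  · exact (h2 r hr).2.trans (le_max_left _ _)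
  · exact (h4 r hr).1.trans (le_max_right _ _)
  · exact (h4 r hr).2.trans (le_max_right _ _)


/-! ### `nu` in the angle variable -/

theorem rc_nu_exp (x : ℝ) : nu (Circle.exp x) = (1 - Real.cos x) / 2 := by
  unfold nu
  rw [Circle.coe_exp, Complex.sq_norm, Complex.normSq_apply]
  simp only [Complex.sub_re, Complex.sub_im, Complex.exp_ofReal_mul_I_re,
    Complex.exp_ofReal_mul_I_im, Complex.one_re, Complex.one_im, sub_zero]
  have h3 := Real.sin_sq_add_cos_sq x
  linarith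

theorem rc_nu_nonneg (ζ : Circle) : 0 ≤ nu ζ := by unfold nu; positivity

theorem rc_hasDerivAt_glue (x : ℝ) :
    HasDerivAt expNegInvGlue (x⁻¹ ^ 2 * expNegInvGlue x) x := by
  have := expNegInvGlue.hasDerivAt_polynomial_eval_inv_mul 1 x
  simpa only [inv_pow, Polynomial.eval_one, one_mul, Polynomial.derivative_one, sub_zero, mul_one,     Polynomial.eval_pow, Polynomial.eval_X] using this

/-- product of functions with values in `[0,1]` and bounded derivatives -/
theorem rc_prod_deriv (f : ℕ → ℝ → ℝ) (x : ℝ) (t : ℕ) {M : ℝ}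
    (h01 : ∀ m < t, 0 ≤ f m x ∧ f m x ≤ 1)
    (h : ∀ m < t, ∃ D, HasDerivAt (f m) D x ∧ |D| ≤ M) :
    ∃ D, HasDerivAt (fun y => ∏ m ∈ Finset.range t, f m y) D x ∧ |D| ≤ t * M := by
  induction t with
  | zero => exact ⟨0, by simpa only [Finset.range_zero, Finset.prod_empty] using hasDerivAt_const x (1 : ℝ), by simp⟩
  | succ t ih =>
    obtain ⟨D, hD, hDb⟩ := ih (fun m hm => h01 m (hm.trans (Nat.lt_succ_self t)))
      (fun m hm => h m (hm.trans (Nat.lt_succ_self t)))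
    obtain ⟨E, hE, hEb⟩ := h t (Nat.lt_succ_self t)
    obtain ⟨hf0, hf1⟩ := h01 t (Nat.lt_succ_self t)
    have hM : 0 ≤ M := (abs_nonneg _).trans hEb
    have hp0 : 0 ≤ ∏ m ∈ Finset.range t, f m x :=
      Finset.prod_nonneg fun m hm =>
        (h01 m ((Finset.mem_range.1 hm).trans (Nat.lt_succ_self t))).1
    have hp1 : ∏ m ∈ Finset.range t, f m x ≤ 1 :=
      Finset.prod_le_one (fun m hm =>
        (h01 m ((Finset.mem_range.1 hm).trans (Nat.lt_succ_self t))).1) (fun m hm =>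
        (h01 m ((Finset.mem_range.1 hm).trans (Nat.lt_succ_self t))).2)
    refine ⟨_, by simp only [Finset.prod_range_succ]; exact hD.mul hE, ?_⟩
    calc |D * f t x + (∏ m ∈ Finset.range t, f m x) * E|
        ≤ |D| * f t x + (∏ m ∈ Finset.range t, f m x) * |E| := by
          refine (abs_add_le _ _).trans ?_
          rw [abs_mul, abs_mul, abs_of_nonneg hf0, abs_of_nonneg hp0]
      _ ≤ |D| * 1 + 1 * |E| := by
          (clear * - hf1 hp1; gcongr)
      _ ≤ (t + 1 : ℕ) * M := by push_cast; linarith only [hDb, hEb]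

namespace Par

variable (P : Par)

/-- argument of `ω` -/
noncomputable def rcAl : ℝ := Complex.arg P.ω

theorem rc_omega (j : ℕ) (θ : ℝ) :
    P.ω ^ j * Circle.exp θ = Circle.exp (j * P.rcAl + θ) := by
  rw [Circle.exp_add]
  congr 1
  have h : Circle.exp (P.rcAl) = P.ω := Circle.exp_arg _
  induction j with
  | zero => simp
  | succ j ih => rw [pow_succ, ih, Nat.cast_succ, add_mul, Circle.exp_add, one_mul, h]

theorem rc_nu_contDiff (j : ℕ) : ContDiff ℝ 1 (fun θ => nu (P.ω ^ j * Circle.exp θ)) := by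
  have h : (fun θ => nu (P.ω ^ j * Circle.exp θ)) =
      fun θ => (1 - Real.cos (j * P.rcAl + θ)) / 2 := by
    funext θ; rw [rc_omega, rc_nu_exp]
  rw [h]
  fun_prop

/-- derivative of `ν(ζ_j)` -/
noncomputable def rcNu' (j : ℕ) (θ : ℝ) : ℝ := Real.sin (j * P.rcAl + θ) / 2

theorem rc_hasDerivAt_nu (j : ℕ) (θ : ℝ) :
    HasDerivAt (fun θ => nu (P.ω ^ j * Circle.exp θ)) (P.rcNu' j θ) θ := by
  have h : (fun θ => nu (P.ω ^ j * Circle.exp θ)) =
      fun θ => (1 - Real.cos (j * P.rcAl + θ)) / 2 := by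
    funext θ; rw [rc_omega, rc_nu_exp]
  rw [h]
  have := ((Real.hasDerivAt_cos (j * P.rcAl + θ)).comp θ
    ((hasDerivAt_id θ).const_add (j * P.rcAl))).const_sub 1 |>.div_const 2
  simpa only [rcNu', Function.comp_apply, mul_one, neg_neg] using this

theorem rc_nu'_le (j : ℕ) (θ : ℝ) :
    |P.rcNu' j θ| ≤ Real.sqrt (nu (P.ω ^ j * Circle.exp θ)) := by
  rw [rc_omega, rc_nu_exp]
  unfold rcNu'
  apply Real.abs_le_sqrt
  have h1 := Real.cos_le_one (j * P.rcAl + θ)
  have h2 := Real.neg_one_le_cos (j * P.rcAl + θ)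
  have h3 := Real.sin_sq_add_cos_sq (j * P.rcAl + θ)
  nlinarith only [h3]

theorem rc_K_pos : 0 < P.K := by have := P.K_ge'; linarith only [this]

theorem rc_Λ_pos : 0 < P.Λ := by have := P.Λ_ge'; linarith only [this]

theorem rc_A_contDiff (j : ℕ) : ContDiff ℝ 1 (fun θ => P.A (P.ω ^ j * Circle.exp θ)) := by
  unfold A
  exact expNegInvGlue.contDiff.comp ((P.rc_nu_contDiff j).div_const _)

theorem rc_A_nonneg (ζ : Circle) : 0 ≤ P.A ζ := expNegInvGlue.nonneg _

theorem rc_hasDerivAt_A (j : ℕ) (θ : ℝ) :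
    HasDerivAt (fun θ => P.A (P.ω ^ j * Circle.exp θ))
      (P.K * ((nu (P.ω ^ j * Circle.exp θ))⁻¹ ^ 2 * P.A (P.ω ^ j * Circle.exp θ) * P.rcNu' j θ))
      θ := by
  have h := (rc_hasDerivAt_glue (nu (P.ω ^ j * Circle.exp θ) / P.K)).comp θ
    ((P.rc_hasDerivAt_nu j θ).div_const P.K)
  have hK := P.rc_K_pos.ne'
  refine h.congr_deriv ?_
  unfold A
  rw [inv_div]
  field_simp

theorem rc_q_contDiff (t : ℕ) : ContDiff ℝ 1 (fun θ => P.q (Circle.exp θ) t) := by
  unfold q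
  exact contDiff_prod fun j _ => contDiff_const.mul (P.rc_nu_contDiff j)

theorem rc_q_succ (ζ : Circle) (t : ℕ) :
    P.q ζ (t + 1) = P.q ζ t * (P.Λ * nu (P.ω ^ t * ζ)) := by
  unfold q; rw [Finset.prod_range_succ]

theorem rc_q_nonneg (ζ : Circle) (t : ℕ) : 0 ≤ P.q ζ t :=
  Finset.prod_nonneg fun _ _ => mul_nonneg P.rc_Λ_pos.le (rc_nu_nonneg _)

theorem rc_q_ne_zero {ζ : Circle} {t : ℕ} (h : ∀ j < t, nu (P.ω ^ j * ζ) ≠ 0) : P.q ζ t ≠ 0 :=
  Finset.prod_ne_zero_iff.2 fun j hj => mul_ne_zero P.rc_Λ_pos.ne' (h j (Finset.mem_range.1 hj))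

theorem rc_r_nonneg (ζ : Circle) {a : ℝ} (ha : 0 ≤ a) (t : ℕ) : 0 ≤ P.r ζ a t :=
  div_nonneg (P.rc_A_nonneg _) (mul_nonneg ha (P.rc_q_nonneg _ _))

theorem rc_r_contDiffAt {θ a : ℝ} (ha : 0 < a) (t : ℕ)
    (hq : P.q (Circle.exp θ) t ≠ 0) :
    ContDiffAt ℝ 1 (fun x : ℝ × ℝ => P.r (Circle.exp x.1) x.2 t) (θ, a) := by
  unfold r
  refine ContDiffAt.div ?_ ?_ (mul_ne_zero ha.ne' hq)
  · exact (P.rc_A_contDiff t).contDiffAt.comp (θ, a) contDiffAt_fst
  · exact contDiffAt_snd.mul ((P.rc_q_contDiff t).contDiffAt.comp (θ, a) contDiffAt_fst)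

/-- if `r_s < 1/2` at a point with `q_s ≠ 0` then all later coefficients vanish nearby -/
theorem rc_eventually_zero {θ a : ℝ} (ha : 0 < a) {s : ℕ}
    (hq : P.q (Circle.exp θ) s ≠ 0) (hr : P.r (Circle.exp θ) a s < 1 / 2) :
    ∀ᶠ x : ℝ × ℝ in 𝓝 (θ, a), ∀ t, s < t → P.coef (Circle.exp x.1) x.2 t = 0 := by
  have hc := (P.rc_r_contDiffAt ha s hq).continuousAt
  filter_upwards [hc.eventually (gt_mem_nhds hr)] with x hx t ht
  have : P.Pr (Circle.exp x.1) x.2 t = 0 := by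
    unfold Pr
    refine Finset.prod_eq_zero (Finset.mem_range.2 ht) ?_
    rw [rc_kk_eq_one hx.le, sub_self]
  unfold coef
  rw [this]; simp only [zero_mul, zero_div]

theorem coef_contDiffAt (θ : ℝ) {a : ℝ} (ha : 0 < a) (t : ℕ) :
    ContDiffAt ℝ 1 (fun q : ℝ × ℝ => P.coef (Circle.exp q.1) q.2 t) (θ, a) := by
  classical
  by_cases hex : ∃ j, j < t ∧ nu (P.ω ^ j * Circle.exp θ) = 0
  · have hs := Nat.find_spec hex
    set s := Nat.find hex with hsdef
    have hlt : ∀ j < s, nu (P.ω ^ j * Circle.exp θ) ≠ 0 := by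
      intro j hj h0
      exact Nat.find_min hex hj ⟨hj.trans hs.1, h0⟩
    have hq := P.rc_q_ne_zero hlt
    have hr : P.r (Circle.exp θ) a s < 1 / 2 := by
      unfold r
      rw [P.A_eq_zero hs.2]; norm_num
    have h0 : (fun q : ℝ × ℝ => P.coef (Circle.exp q.1) q.2 t) =ᶠ[𝓝 (θ, a)] fun _ => 0 := by
      filter_upwards [P.rc_eventually_zero ha hq hr] with x hx
      exact hx t hs.1
    exact contDiffAt_const.congr_of_eventuallyEq h0
  · push Not at hex
    have hr : ∀ m ≤ t, ContDiffAt ℝ 1 (fun x : ℝ × ℝ => P.r (Circle.exp x.1) x.2 m) (θ, a) := by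
      intro m hm
      exact P.rc_r_contDiffAt ha m (P.rc_q_ne_zero fun j hj => hex j (hj.trans_le hm))
    unfold coef Pr
    refine ContDiffAt.div_const (ContDiffAt.mul (ContDiffAt.mul ?_ ?_) contDiffAt_snd) _
    · refine contDiffAt_prod fun m hm => contDiffAt_const.sub ?_
      exact rc_kk_contDiff.contDiffAt.comp (θ, a) (hr m (Finset.mem_range.1 hm).le)
    · exact rc_S_contDiff.contDiffAt.comp (θ, a) (hr t le_rfl)

/-- choice of the threshold `v` for the stopping time -/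
theorem rc_exists_v {a : ℝ} (ha : 0 < a) : ∃ v : ℝ, 0 < v ∧ v ≤ 1 ∧
    2 * Real.exp (-(P.K / (2 * v))) ≤ a ∧ (a ≤ 1 → v⁻¹ ≤ 2 * Real.log (2 / a)) := by
  have hK := P.rc_K_pos
  have hK' := P.K_ge'
  by_cases h1 : Real.log (2 / a) ≤ 0
  · refine ⟨1, one_pos, le_rfl, ?_, ?_⟩
    · have h2 : 2 / a ≤ 1 := by
        by_contra hcon
        push Not at hcon
        exact absurd h1 (not_le.2 (Real.log_pos hcon))
      have h3 : 2 ≤ a := by rwa [div_le_one ha] at h2
      have : Real.exp (-(P.K / (2 * 1))) ≤ 1 := Real.exp_le_one_iff.2 (by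
        rw [neg_nonpos]; positivity)
      linarith only [h3, this]
    · intro ha1
      exfalso
      have : (1 : ℝ) < 2 / a := by rw [lt_div_iff₀ ha]; linarith only [ha1]
      exact absurd h1 (not_le.2 (Real.log_pos this))
  · push Not at h1
    refine ⟨min 1 (P.K / (2 * Real.log (2 / a))), ?_, min_le_left _ _, ?_, ?_⟩
    · exact lt_min one_pos (by positivity)
    · set v := min 1 (P.K / (2 * Real.log (2 / a))) with hv
      have hv0 : 0 < v := lt_min one_pos (by positivity)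
      have hv2 : v ≤ P.K / (2 * Real.log (2 / a)) := min_le_right _ _
      have h3 : Real.log (2 / a) ≤ P.K / (2 * v) := by
        rw [le_div_iff₀ (by positivity)] at hv2 ⊢
        linarith only [hv2]
      have h4 : Real.exp (-(P.K / (2 * v))) ≤ Real.exp (-Real.log (2 / a)) :=
        Real.exp_le_exp.2 (by linarith only [h3])
      rw [Real.exp_neg (Real.log (2 / a)), Real.exp_log (by positivity), inv_div] at h4
      linarith only [h4]
    · intro ha1
      have hlog2 : (1 / 2 : ℝ) ≤ Real.log (2 / a) := by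
        have h2 : Real.log 2 ≤ Real.log (2 / a) :=
          Real.log_le_log (by norm_num) (by rw [le_div_iff₀ ha]; linarith only [ha1])
        have := Real.log_two_gt_d9
        linarith only [h2, this]
      rcases le_total 1 (P.K / (2 * Real.log (2 / a))) with h | h
      · rw [min_eq_left h, inv_one]; linarith
      · rw [min_eq_right h, inv_div, div_le_iff₀ hK]
        nlinarith only [hK', h1]

theorem coef_eventually_zero (θ : ℝ) {a : ℝ} (ha : 0 < a) :
    ∃ T : ℕ, ∀ᶠ q : ℝ × ℝ in 𝓝 (θ, a), ∀ t, T ≤ t → P.coef (Circle.exp q.1) q.2 t = 0 := by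
  obtain ⟨v, hv0, hv1, hva, -⟩ := P.rc_exists_v ha
  obtain ⟨s, hs1, hs2, hs3, hs4⟩ := P.stop (Circle.exp θ) hv0 hv1
  have hr := P.r_stop (Circle.exp θ) hv0 hv1 hva s hs1 hs4
  have hq : P.q (Circle.exp θ) s ≠ 0 := (lt_of_lt_of_le (Real.exp_pos _) hs4).ne'
  exact ⟨s + 1, P.rc_eventually_zero ha hq hr⟩

/-! ### The derivative in `a` -/

theorem rc_r_hasDerivAt_a (ζ : Circle) {a : ℝ} (ha : 0 < a) (m : ℕ) :
    HasDerivAt (fun a => P.r ζ a m) (-(P.r ζ a m / a)) a := by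
  have h1 : (fun a => P.r ζ a m) = fun a => (P.A (P.ω ^ m * ζ) / P.q ζ m) * a⁻¹ := by
    funext x
    unfold r
    rw [div_eq_mul_inv, mul_inv, div_eq_mul_inv]; ring
  rw [h1]
  refine ((hasDerivAt_inv ha.ne').const_mul _).congr_deriv ?_
  unfold r
  rw [div_eq_mul_inv, div_eq_mul_inv, div_eq_mul_inv, mul_inv]
  field_simp

theorem coef_da_bound : ∃ C : ℝ, ∀ (θ a : ℝ) (t : ℕ), 0 < a →
    |deriv (fun a => P.coef (Circle.exp θ) a t) a| ≤ C * (t + 1) / 2 ^ t := by
  obtain ⟨C, hC0, hC⟩ := rc_exists_bound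
  refine ⟨C + 1, fun θ a t ha => ?_⟩
  set ζ := Circle.exp θ
  have hf : ∀ m, ∃ D, HasDerivAt (fun a => 1 - kk (P.r ζ a m)) D a ∧ |D| ≤ C / a := by
    intro m
    have h1 := ((rc_kk_contDiff.differentiable one_ne_zero (P.r ζ a m)).hasDerivAt.comp a
      (P.rc_r_hasDerivAt_a ζ ha m)).const_sub 1
    refine ⟨_, h1, ?_⟩
    have h2 := (hC (P.r ζ a m) (P.rc_r_nonneg ζ ha.le m)).2.2.2
    rw [abs_neg, abs_mul, abs_neg, abs_div, abs_of_pos ha,
      abs_of_nonneg (P.rc_r_nonneg ζ ha.le m), ← mul_div_assoc]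
    gcongr
  obtain ⟨D, hD, hDb⟩ := rc_prod_deriv (fun m a => 1 - kk (P.r ζ a m)) a t
    (fun m _ => ⟨by have := rc_kk_le_one (P.r ζ a m); linarith only [this],
      by have := rc_kk_nonneg (P.r ζ a m); linarith only [this]⟩) (fun m _ => hf m)
  have hS := (rc_S_contDiff.differentiable one_ne_zero (P.r ζ a t)).hasDerivAt.comp a
      (P.rc_r_hasDerivAt_a ζ ha t)
  have hSb : |deriv S (P.r ζ a t) * -(P.r ζ a t / a)| ≤ C / a := by
    have h2 := (hC (P.r ζ a t) (P.rc_r_nonneg ζ ha.le t)).2.1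
    rw [abs_mul, abs_neg, abs_div, abs_of_pos ha,
      abs_of_nonneg (P.rc_r_nonneg ζ ha.le t), ← mul_div_assoc]
    (clear * - h2 ha; gcongr)
  have hP0 : 0 ≤ P.Pr ζ a t := Finset.prod_nonneg fun m _ => by
    have := rc_kk_le_one (P.r ζ a m); linarith only [this]
  have hP1 : P.Pr ζ a t ≤ 1 := Finset.prod_le_one (fun m _ => by
    have := rc_kk_le_one (P.r ζ a m); linarith only [this]) (fun m _ => by
    have := rc_kk_nonneg (P.r ζ a m); linarith only [this])
  have hS0 : 0 ≤ S (P.r ζ a t) := rc_S_nonneg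
  have hS1 : S (P.r ζ a t) ≤ 1 := rc_S_le_one (P.rc_r_nonneg ζ ha.le t)
  have hder := ((hD.mul hS).mul (hasDerivAt_id a)).div_const (2 ^ t)
  have hder' : HasDerivAt (fun a => P.coef ζ a t)
      (((D * S (P.r ζ a t) + P.Pr ζ a t * (deriv S (P.r ζ a t) * -(P.r ζ a t / a))) * a
        + P.Pr ζ a t * S (P.r ζ a t) * 1) / 2 ^ t) a := hder
  rw [hder'.deriv, abs_div, abs_of_pos (by positivity : (0 : ℝ) < 2 ^ t)]
  gcongr
  set X := deriv S (P.r ζ a t) * -(P.r ζ a t / a)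
  calc |(D * S (P.r ζ a t) + P.Pr ζ a t * X) * a + P.Pr ζ a t * S (P.r ζ a t) * 1|
      ≤ (|D| * S (P.r ζ a t) + P.Pr ζ a t * |X|) * a + P.Pr ζ a t * S (P.r ζ a t) * 1 := by
        refine (abs_add_le _ _).trans ?_
        rw [abs_mul, abs_of_pos ha]
        gcongr
        · refine (abs_add_le _ _).trans ?_
          rw [abs_mul, abs_mul, abs_of_nonneg hS0, abs_of_nonneg hP0]
        · rw [abs_of_nonneg (by (clear * - hP0 hS0; positivity))]
    _ ≤ (t * (C / a) * 1 + 1 * (C / a)) * a + 1 * 1 * 1 := by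
        have : 0 ≤ C / a := by (clear * - hC0 ha; positivity)
        (clear * - hDb hS1 hS0 hC0 ha hP1 hSb; gcongr)
    _ = C * (t + 1) + 1 := by (clear * - ha hC0; field_simp)
    _ ≤ (C + 1) * (t + 1) := by
        have : (0 : ℝ) ≤ t := by (clear * -; positivity)
        nlinarith only []

/-! ### The derivative in `θ` -/

theorem rc_q_deriv {v : ℝ} (hv : 0 < v) (θ : ℝ) (t : ℕ)
    (h : ∀ j < t, v ≤ nu (P.ω ^ j * Circle.exp θ)) :
    ∃ D, HasDerivAt (fun θ => P.q (Circle.exp θ) t) D θ ∧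
      |D| ≤ P.q (Circle.exp θ) t * (t * (Real.sqrt v)⁻¹) := by
  induction t with
  | zero => exact ⟨0, by simpa only [q, Finset.range_zero, Finset.prod_empty] using hasDerivAt_const θ (1 : ℝ), by simp only [abs_zero, q_zero, CharP.cast_eq_zero, zero_mul, mul_zero, Std.le_refl]⟩
  | succ t ih =>
    obtain ⟨D, hD, hDb⟩ := ih (fun j hj => h j (hj.trans (Nat.lt_succ_self t)))
    have hν := P.rc_hasDerivAt_nu t θ
    have hνb := P.rc_nu'_le t θ
    have hvt := h t (Nat.lt_succ_self t)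
    set ν := nu (P.ω ^ t * Circle.exp θ) with hνdef
    set Q := P.q (Circle.exp θ) t with hQ
    have hQ0 : 0 ≤ Q := P.rc_q_nonneg _ _
    have hΛ := P.rc_Λ_pos
    have hν0 : 0 ≤ ν := hv.le.trans hvt
    refine ⟨_, by simp only [rc_q_succ]; exact hD.mul (hν.const_mul P.Λ), ?_⟩
    rw [rc_q_succ, ← hQ, ← hνdef]
    have hsv : 0 < Real.sqrt v := Real.sqrt_pos.2 hv
    have h1 : Real.sqrt ν ≤ ν * (Real.sqrt v)⁻¹ := by
      rw [← div_eq_mul_inv, le_div_iff₀ hsv]
      calc Real.sqrt ν * Real.sqrt v ≤ Real.sqrt ν * Real.sqrt ν := by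
            (clear * - hvt; gcongr)
        _ = ν := Real.mul_self_sqrt hν0
    calc |D * (P.Λ * ν) + Q * (P.Λ * P.rcNu' t θ)|
        ≤ |D| * (P.Λ * ν) + Q * (P.Λ * |P.rcNu' t θ|) := by
          refine (abs_add_le _ _).trans (le_of_eq ?_)
          simp only [abs_mul, abs_of_nonneg hQ0, abs_of_pos hΛ, abs_of_nonneg hν0]
      _ ≤ (Q * (t * (Real.sqrt v)⁻¹)) * (P.Λ * ν) + Q * (P.Λ * (ν * (Real.sqrt v)⁻¹)) := by
          gcongr
          exact hνb.trans h1
      _ = Q * (P.Λ * ν) * ((t + 1 : ℕ) * (Real.sqrt v)⁻¹) := by push_cast; ring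

theorem rc_r_deriv {v : ℝ} (hv : 0 < v) (θ : ℝ) {a : ℝ} (ha : 0 < a) (t : ℕ)
    (h : ∀ j < t, v ≤ nu (P.ω ^ j * Circle.exp θ)) {B : ℝ}
    (hB : P.K * ((nu (P.ω ^ t * Circle.exp θ))⁻¹ ^ 2 * P.A (P.ω ^ t * Circle.exp θ) *
      Real.sqrt (nu (P.ω ^ t * Circle.exp θ))) ≤ B * (a * P.q (Circle.exp θ) t)) :
    ∃ D, HasDerivAt (fun θ => P.r (Circle.exp θ) a t) D θ ∧
      |D| ≤ B + P.r (Circle.exp θ) a t * (t * (Real.sqrt v)⁻¹) := by
  obtain ⟨D, hD, hDb⟩ := P.rc_q_deriv hv θ t h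
  have hq : P.q (Circle.exp θ) t ≠ 0 := P.rc_q_ne_zero fun j hj => (hv.trans_le (h j hj)).ne'
  have hq0 : 0 < P.q (Circle.exp θ) t := lt_of_le_of_ne (P.rc_q_nonneg _ _) hq.symm
  have hA := P.rc_hasDerivAt_A t θ
  have hνb := P.rc_nu'_le t θ
  have hA0 := P.rc_A_nonneg (P.ω ^ t * Circle.exp θ)
  have hν0 := rc_nu_nonneg (P.ω ^ t * Circle.exp θ)
  have hK := P.rc_K_pos
  refine ⟨_, hA.div (hD.const_mul a) (mul_ne_zero ha.ne' hq), ?_⟩
  unfold r
  set ν := nu (P.ω ^ t * Circle.exp θ)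
  set A' := P.A (P.ω ^ t * Circle.exp θ)
  set Q := P.q (Circle.exp θ) t
  set ν' := P.rcNu' t θ
  have hpos : 0 < a * Q := by (clear * - ha hq0; positivity)
  rw [abs_div, abs_of_pos (by positivity : 0 < (a * Q) ^ 2), div_le_iff₀ (by positivity)]
  calc |P.K * (ν⁻¹ ^ 2 * A' * ν') * (a * Q) - A' * (a * D)|
      ≤ P.K * (ν⁻¹ ^ 2 * A' * |ν'|) * (a * Q) + A' * (a * |D|) := by
        refine (abs_sub _ _).trans (le_of_eq ?_)
        have hi : 0 ≤ ν⁻¹ := by (clear * - hν0; positivity)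
        simp only [abs_mul, abs_pow, abs_of_pos hK, abs_of_pos hq0, abs_of_nonneg hA0,
          abs_of_pos ha, abs_of_nonneg hi]
    _ ≤ (B * (a * Q)) * (a * Q) + A' * (a * (Q * (t * (Real.sqrt v)⁻¹))) := by
        have hX : P.K * (ν⁻¹ ^ 2 * A' * |ν'|) ≤ B * (a * Q) := le_trans (by (clear * - hνb hA0 hK; gcongr)) hB
        exact add_le_add (mul_le_mul_of_nonneg_right hX hpos.le) (by (clear * - hDb ha hA0; gcongr))
    _ = (B + A' / (a * Q) * (t * (Real.sqrt v)⁻¹)) * (a * Q) ^ 2 := by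
        (clear * - hv hq ha; field_simp)

/-- the flatness estimate: `ν^{-3/2} exp(-K/ν)` increases in `ν ≤ 1` -/
theorem rc_A_small (ζ : Circle) {v : ℝ} (hv0 : 0 < v) (hv1 : v ≤ 1) (h : nu ζ ≤ v) :
    (nu ζ)⁻¹ ^ 2 * P.A ζ * Real.sqrt (nu ζ) ≤ v⁻¹ ^ 2 * Real.exp (-(P.K / v)) * Real.sqrt v := by
  rcases (rc_nu_nonneg ζ).eq_or_lt with h0 | h0
  · rw [← h0]; simp only [inv_zero, ne_eq, OfNat.ofNat_ne_zero, not_false_eq_true, zero_pow, zero_mul, Real.sqrt_zero, mul_zero, inv_pow]; positivity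
  · rw [P.A_eq h0]
    set ν := nu ζ
    have hK' := P.K_ge'
    set w := v / ν with hw
    have hw1 : 1 ≤ w := by rw [hw, le_div_iff₀ h0]; linarith only [h]
    have h1 : ν⁻¹ = v⁻¹ * w := by rw [hw]; field_simp
    have h2 : Real.exp (-(P.K / ν)) = Real.exp (-(P.K / v)) * Real.exp (-(P.K / v * (w - 1))) := by
      rw [← Real.exp_add]
      congr 1
      rw [div_eq_mul_inv P.K ν, h1]; field_simp; ring
    have h3 : w ≤ Real.exp (w - 1) := by
      have := Real.add_one_le_exp (w - 1); linarith only [this]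
    have h4 : w ^ 2 ≤ Real.exp (P.K / v * (w - 1)) := by
      calc w ^ 2 ≤ Real.exp (w - 1) ^ 2 := by (clear * - hv0 h0 h3; gcongr)
        _ = Real.exp (2 * (w - 1)) := by rw [← Real.exp_nat_mul]; norm_num
        _ ≤ Real.exp (P.K / v * (w - 1)) := by
            apply Real.exp_le_exp.2
            have : 2 ≤ P.K / v := by rw [le_div_iff₀ hv0]; linarith only [hv1, hK']
            nlinarith only [hw1, this]
    have h5 : w ^ 2 * Real.exp (-(P.K / v * (w - 1))) ≤ 1 := by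
      rw [Real.exp_neg, ← div_eq_mul_inv, div_le_one (Real.exp_pos _)]
      exact h4
    rw [h1, h2]
    calc (v⁻¹ * w) ^ 2 * (Real.exp (-(P.K / v)) * Real.exp (-(P.K / v * (w - 1)))) * Real.sqrt ν
        = v⁻¹ ^ 2 * Real.exp (-(P.K / v)) * (w ^ 2 * Real.exp (-(P.K / v * (w - 1)))) *
          Real.sqrt ν := by ring
      _ ≤ v⁻¹ ^ 2 * Real.exp (-(P.K / v)) * 1 * Real.sqrt v := by
          (clear * - h5 hv0 h h0; gcongr)
      _ = _ := by ring

/-- all the data at the stopping time -/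
theorem rc_key {v : ℝ} (hv0 : 0 < v) (hv1 : v ≤ 1) (θ : ℝ) {a : ℝ} (ha : 0 < a)
    (hva : 2 * Real.exp (-(P.K / (2 * v))) ≤ a) (t : ℕ)
    (h : ∀ j < t, v < nu (P.ω ^ j * Circle.exp θ))
    (ht : (t : ℝ) * (2 * Real.sqrt v) ≤ P.H)
    (hq : nu (P.ω ^ t * Circle.exp θ) ≤ v →
      Real.exp (-(0.37 * P.H / v)) ≤ P.q (Circle.exp θ) t)
    {f : ℝ → ℝ} (hf : Differentiable ℝ f) {C : ℝ}
    (hC : ∀ r, 0 ≤ r → |deriv f r| ≤ C ∧ |deriv f r| * r ≤ C) :
    ∃ D, HasDerivAt (fun θ => f (P.r (Circle.exp θ) a t)) D θ ∧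
      |D| ≤ C * ((P.K + P.H) * (Real.sqrt v)⁻¹ ^ 3) := by
  have hK := P.rc_K_pos
  have hK' := P.K_ge'
  have hKH := P.K_ge_H
  have hH := P.nt.one_le
  have hsv : 0 < Real.sqrt v := Real.sqrt_pos.2 hv0
  have hs2 : Real.sqrt v ^ 2 = v := Real.sq_sqrt hv0.le
  set x := (Real.sqrt v)⁻¹ with hx
  have hx0 : 0 < x := by positivity
  have hx1 : 1 ≤ x := by
    rw [hx, one_le_inv₀ hsv]
    exact Real.sqrt_le_one.2 hv1
  have hvx : v⁻¹ = x ^ 2 := by rw [hx, inv_pow, hs2]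
  have hr0 := P.rc_r_nonneg (Circle.exp θ) ha.le t
  have htx : (t : ℝ) * x ≤ P.H * x ^ 3 := by
    have h1 : (t : ℝ) ≤ P.H * x := by
      rw [hx, ← div_eq_mul_inv, le_div_iff₀ hsv]
      have : (0 : ℝ) ≤ t := by (clear * -; positivity)
      nlinarith only [ht, hH]
    calc (t : ℝ) * x ≤ (P.H * x) * x := by (clear * - h1 hv0; gcongr)
      _ = P.H * (x ^ 2 * 1) := by ring
      _ ≤ P.H * (x ^ 2 * x) := by (clear * - hx1 hv0 hH; gcongr)
      _ = P.H * x ^ 3 := by ring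
  have hC0 : 0 ≤ C := (abs_nonneg _).trans (hC 0 le_rfl).1
  set r := P.r (Circle.exp θ) a t with hr
  rcases le_or_gt (nu (P.ω ^ t * Circle.exp θ)) v with hcase | hcase
  · -- at the stopping time
    have hA := P.rc_A_small (P.ω ^ t * Circle.exp θ) hv0 hv1 hcase
    have hqt := hq hcase
    have hB : P.K * ((nu (P.ω ^ t * Circle.exp θ))⁻¹ ^ 2 * P.A (P.ω ^ t * Circle.exp θ) *
      Real.sqrt (nu (P.ω ^ t * Circle.exp θ))) ≤ (P.K * x ^ 3) * (a * P.q (Circle.exp θ) t) := by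
      have h1 : Real.exp (-(P.K / v)) ≤ a * P.q (Circle.exp θ) t := by
        calc Real.exp (-(P.K / v)) ≤
              Real.exp (-(P.K / (2 * v))) * Real.exp (-(0.37 * P.H / v)) := by
              rw [← Real.exp_add]
              apply Real.exp_le_exp.2
              have : 0.37 * P.H / v ≤ P.K / (2 * v) := by
                rw [div_le_div_iff₀ hv0 (by positivity)]
                nlinarith only [hv0, hK', hKH]
              have h2 : P.K / v = P.K / (2 * v) + P.K / (2 * v) := by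
                field_simp; ring
              linarith only [this, h2]
          _ ≤ a * P.q (Circle.exp θ) t := by
              have : Real.exp (-(P.K / (2 * v))) ≤ a := by
                have := Real.exp_pos (-(P.K / (2 * v)))
                linarith only [hva, this]
              (clear * - this hqt ha; gcongr)
      calc _ ≤ P.K * (v⁻¹ ^ 2 * Real.exp (-(P.K / v)) * Real.sqrt v) := by (clear * - hA hK; gcongr)
        _ = P.K * x ^ 3 * Real.exp (-(P.K / v)) := by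
            rw [hvx]
            have : Real.sqrt v = x⁻¹ := by rw [hx, inv_inv]
            rw [this]; (clear * - hx0 hK; field_simp)
        _ ≤ _ := by (clear * - h1 hK hv0; gcongr)
    obtain ⟨D, hD, hDb⟩ := P.rc_r_deriv hv0 θ ha t (fun j hj => (h j hj).le) hB
    refine ⟨_, (hf _).hasDerivAt.comp θ hD, ?_⟩
    rw [← hr] at hDb ⊢
    obtain ⟨hC1, hC2⟩ := hC r hr0
    rw [abs_mul]
    calc |deriv f r| * |D| ≤ |deriv f r| * (P.K * x ^ 3 + r * (t * x)) := by (clear * - hDb; gcongr)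
      _ = |deriv f r| * (P.K * x ^ 3) + (|deriv f r| * r) * (t * x) := by ring
      _ ≤ C * (P.K * x ^ 3) + C * (P.H * x ^ 3) := by (clear * - hC1 hK hv0 hC2 htx hC0; gcongr)
      _ = C * ((P.K + P.H) * x ^ 3) := by ring
  · -- before the stopping time
    have hν0 := hv0.trans hcase
    have hB : P.K * ((nu (P.ω ^ t * Circle.exp θ))⁻¹ ^ 2 * P.A (P.ω ^ t * Circle.exp θ) *
      Real.sqrt (nu (P.ω ^ t * Circle.exp θ))) ≤
        (r * (P.K * x ^ 3)) * (a * P.q (Circle.exp θ) t) := by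
      have hqne : P.q (Circle.exp θ) t ≠ 0 :=
        P.rc_q_ne_zero fun j hj => (hv0.trans (h j hj)).ne'
      have h1 : r * (a * P.q (Circle.exp θ) t) = P.A (P.ω ^ t * Circle.exp θ) := by
        rw [hr]; unfold Par.r
        (clear * - ha hqne; field_simp)
      have hA0 := P.rc_A_nonneg (P.ω ^ t * Circle.exp θ)
      set ν := nu (P.ω ^ t * Circle.exp θ)
      have h2 : ν⁻¹ ^ 2 * Real.sqrt ν ≤ x ^ 3 := by
        have h3 : Real.sqrt ν ^ 2 = ν := Real.sq_sqrt hν0.le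
        have h4 : (Real.sqrt ν)⁻¹ ≤ x := by
          rw [hx]; (clear * - hv0 hcase; gcongr)
        have h5 : ν⁻¹ ≤ x ^ 2 := by rw [← hvx]; (clear * - hv0 hcase; gcongr)
        calc ν⁻¹ ^ 2 * Real.sqrt ν = ν⁻¹ * (Real.sqrt ν)⁻¹ := by
              have h6 : 0 < Real.sqrt ν := Real.sqrt_pos.2 hν0
              field_simp
              rw [h3]
          _ ≤ x ^ 2 * x := by (clear * - h5 h4 hν0 hv0; gcongr)
          _ = x ^ 3 := by ring
      calc P.K * (ν⁻¹ ^ 2 * P.A (P.ω ^ t * Circle.exp θ) * Real.sqrt ν)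
          = P.K * P.A (P.ω ^ t * Circle.exp θ) * (ν⁻¹ ^ 2 * Real.sqrt ν) := by ring
        _ ≤ P.K * P.A (P.ω ^ t * Circle.exp θ) * x ^ 3 := by (clear * - h2 hK hA0; gcongr)
        _ = (r * (P.K * x ^ 3)) * (a * P.q (Circle.exp θ) t) := by rw [← h1]; ring
    obtain ⟨D, hD, hDb⟩ := P.rc_r_deriv hv0 θ ha t (fun j hj => (h j hj).le) hB
    refine ⟨_, (hf _).hasDerivAt.comp θ hD, ?_⟩
    rw [← hr] at hDb ⊢
    obtain ⟨hC1, hC2⟩ := hC r hr0
    rw [abs_mul]
    calc |deriv f r| * |D| ≤ |deriv f r| * (r * (P.K * x ^ 3) + r * (t * x)) := by (clear * - hDb; gcongr)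
      _ = (|deriv f r| * r) * (P.K * x ^ 3) + (|deriv f r| * r) * (t * x) := by ring
      _ ≤ C * (P.K * x ^ 3) + C * (P.H * x ^ 3) := by (clear * - hC2 hK hv0 htx hC0; gcongr)
      _ = C * ((P.K + P.H) * x ^ 3) := by ring

theorem coef_dθ_bound : ∃ C : ℝ, ∀ (θ a : ℝ) (t : ℕ), 0 < a → a ≤ 1 →
    |deriv (fun θ => P.coef (Circle.exp θ) a t) θ| ≤ C * a * Real.log (2 / a) ^ 3 / 2 ^ t := by
  obtain ⟨C, hC0, hC⟩ := rc_exists_bound
  have hK := P.rc_K_pos
  have hH := P.nt.one_le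
  refine ⟨8 * ((P.H + 1) * (C * (P.K + P.H))), fun θ a t ha ha1 => ?_⟩
  obtain ⟨v, hv0, hv1, hva, hvlog⟩ := P.rc_exists_v ha
  obtain ⟨s, hs1, hs2, hs3, hs4⟩ := P.stop (Circle.exp θ) hv0 hv1
  have hlog := hvlog ha1
  have hlog2 : (1 / 2 : ℝ) ≤ Real.log (2 / a) := by
    have h2 : Real.log 2 ≤ Real.log (2 / a) :=
      Real.log_le_log (by norm_num) (by rw [le_div_iff₀ ha]; linarith only [ha1])
    have := Real.log_two_gt_d9
    linarith only [h2, this]
  have hL0 : 0 ≤ Real.log (2 / a) := by linarith only [hlog2]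
  rcases lt_or_ge s t with hst | hst
  · -- all zero near `θ`
    have hr := P.r_stop (Circle.exp θ) hv0 hv1 hva s hs1 hs4
    have hq : P.q (Circle.exp θ) s ≠ 0 := (lt_of_lt_of_le (Real.exp_pos _) hs4).ne'
    have hev := P.rc_eventually_zero ha hq hr
    have hev2 : (fun θ => P.coef (Circle.exp θ) a t) =ᶠ[𝓝 θ] fun _ => 0 := by
      have hcont : Tendsto (fun θ' : ℝ => (θ', a)) (𝓝 θ) (𝓝 (θ, a)) :=
        (continuous_id.prodMk continuous_const).continuousAt
      filter_upwards [hcont.eventually hev] with x hx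
      exact hx t hst
    rw [hev2.deriv_eq]
    simp only [deriv_const, abs_zero]
    (clear * - hH hC0 hK ha hlog2; positivity)
  · have hsv : 0 < Real.sqrt v := Real.sqrt_pos.2 hv0
    have hs2' : Real.sqrt v ^ 2 = v := Real.sq_sqrt hv0.le
    set x := (Real.sqrt v)⁻¹ with hx
    have hx0 : 0 < x := by positivity
    have hx1 : 1 ≤ x := by
      rw [hx, one_le_inv₀ hsv]
      exact Real.sqrt_le_one.2 hv1
    have hvx : v⁻¹ = x ^ 2 := by rw [hx, inv_pow, hs2']
    have htH : ∀ m ≤ t, (m : ℝ) * (2 * Real.sqrt v) ≤ P.H := by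
      intro m hm
      refine le_trans ?_ hs3
      have : (m : ℝ) ≤ s := by exact_mod_cast hm.trans hst
      (clear * - this hv0; gcongr)
    have hfac : ∀ m < t, ∃ D, HasDerivAt (fun θ => 1 - kk (P.r (Circle.exp θ) a m)) D θ ∧
        |D| ≤ C * ((P.K + P.H) * x ^ 3) := by
      intro m hm
      have hms : m < s := hm.trans_le hst
      obtain ⟨D, hD, hDb⟩ := P.rc_key hv0 hv1 θ ha hva m
        (fun j hj => hs2 j (hj.trans hms)) (htH m hm.le)
        (fun hcon => absurd hcon (not_le.2 (hs2 m hms)))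
        (rc_kk_contDiff.differentiable one_ne_zero)
        (fun r hr => ⟨(hC r hr).2.2.1, (hC r hr).2.2.2⟩)
      exact ⟨-D, hD.const_sub 1, by rw [abs_neg]; exact hDb⟩
    obtain ⟨D, hD, hDb⟩ := rc_prod_deriv (fun m θ => 1 - kk (P.r (Circle.exp θ) a m)) θ t
      (fun m _ => ⟨by have := rc_kk_le_one (P.r (Circle.exp θ) a m); linarith only [this],
        by have := rc_kk_nonneg (P.r (Circle.exp θ) a m); linarith only [this]⟩) hfac
    obtain ⟨E, hE, hEb⟩ := P.rc_key hv0 hv1 θ ha hva t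
        (fun j hj => hs2 j (hj.trans_le hst)) (htH t le_rfl)
        (fun hcon => by
          rcases hst.eq_or_lt with h | h
          · rw [h]; exact hs4
          · exact absurd hcon (not_le.2 (hs2 t h)))
        (rc_S_contDiff.differentiable one_ne_zero)
        (fun r hr => ⟨(hC r hr).1, (hC r hr).2.1⟩)
    have hP0 : 0 ≤ P.Pr (Circle.exp θ) a t := Finset.prod_nonneg fun m _ => by
      have := rc_kk_le_one (P.r (Circle.exp θ) a m); linarith only [this]
    have hP1 : P.Pr (Circle.exp θ) a t ≤ 1 := Finset.prod_le_one (fun m _ => by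
      have := rc_kk_le_one (P.r (Circle.exp θ) a m); linarith only [this]) (fun m _ => by
      have := rc_kk_nonneg (P.r (Circle.exp θ) a m); linarith only [this])
    have hS0 : 0 ≤ S (P.r (Circle.exp θ) a t) := rc_S_nonneg
    have hS1 : S (P.r (Circle.exp θ) a t) ≤ 1 := rc_S_le_one (P.rc_r_nonneg _ ha.le t)
    have hder := ((hD.mul hE).mul_const a).div_const (2 ^ t)
    have hder' : HasDerivAt (fun θ => P.coef (Circle.exp θ) a t)
        ((D * S (P.r (Circle.exp θ) a t) + P.Pr (Circle.exp θ) a t * E) * a / 2 ^ t) θ := hder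
    rw [hder'.deriv, abs_div, abs_of_pos (by positivity : (0 : ℝ) < 2 ^ t)]
    gcongr
    have htx : (t : ℝ) ≤ P.H * x := by
      rw [hx, ← div_eq_mul_inv, le_div_iff₀ hsv]
      have h1 := htH t le_rfl
      have : (0 : ℝ) ≤ t := by (clear * -; positivity)
      nlinarith only [hH, h1]
    set M := C * ((P.K + P.H) * x ^ 3) with hM
    have hM0 : 0 ≤ M := by (clear * - hC0 hK hH hv0; positivity)
    calc |(D * S (P.r (Circle.exp θ) a t) + P.Pr (Circle.exp θ) a t * E) * a|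
        ≤ (|D| * S (P.r (Circle.exp θ) a t) + P.Pr (Circle.exp θ) a t * |E|) * a := by
          rw [abs_mul, abs_of_pos ha]
          gcongr
          refine (abs_add_le _ _).trans ?_
          rw [abs_mul, abs_mul, abs_of_nonneg hS0, abs_of_nonneg hP0]
      _ ≤ ((t * M) * 1 + 1 * M) * a := by (clear * - hDb hS1 hS0 hC0 hK hH hv0 hP1 hEb ha; gcongr)
      _ ≤ ((P.H * x * M) + x * M) * a := by
          have h1 := mul_le_mul_of_nonneg_right htx hM0
          have h2 := mul_le_mul_of_nonneg_right hx1 hM0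
          exact mul_le_mul_of_nonneg_right (by linarith only [h1, h2]) ha.le
      _ = ((P.H + 1) * (C * (P.K + P.H))) * a * (x ^ 2) ^ 2 := by rw [hM]; ring
      _ ≤ ((P.H + 1) * (C * (P.K + P.H))) * a * (2 * Real.log (2 / a)) ^ 2 := by
          rw [← hvx]; (clear * - hv0 hlog hH hC0 hK ha; gcongr)
      _ = ((P.H + 1) * (C * (P.K + P.H))) * a * (4 * (Real.log (2 / a) ^ 2 * 1)) := by ring
      _ ≤ ((P.H + 1) * (C * (P.K + P.H))) * a *
            (4 * (Real.log (2 / a) ^ 2 * (2 * Real.log (2 / a)))) := by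
          gcongr; linarith only [hlog2]
      _ = 8 * ((P.H + 1) * (C * (P.K + P.H))) * a * Real.log (2 / a) ^ 3 := by ring

end Par

end Vale.Agent.P103
end
end

section

section

/-!
# P103: flat extension lemma and a small calculus of derivative bounds
-/

namespace Vale.Agent.P103

open Filter Topology Set

section Flat

variable {X Y F : Type*} [NormedAddCommGroup X] [NormedSpace ℝ X] [NormedAddCommGroup Y]
  [NormedSpace ℝ Y] [NormedAddCommGroup F] [NormedSpace ℝ F]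

/-- A function which vanishes on `{y = 0}`, is differentiable off it, with derivative tending to
`0` at the points of `{y = 0}`, has derivative `0` on `{y = 0}`. -/
theorem flat_hasFDerivAt (f : X × Y → F) (h0 : ∀ x, f (x, 0) = 0)
    (hd : ∀ q : X × Y, q.2 ≠ 0 → DifferentiableAt ℝ f q)
    (hcont : ∀ x, ContinuousAt f (x, 0)) (x : X)
    (hlim : Tendsto (fderiv ℝ f) (𝓝[{q | q.2 ≠ 0}] (x, 0)) (𝓝 0)) :
    HasFDerivAt f (0 : X × Y →L[ℝ] F) (x, 0) := by
  rw [hasFDerivAt_iff_isLittleO]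
  rw [Asymptotics.isLittleO_iff]
  intro ε hε
  have h1 : ∀ᶠ q in 𝓝[{q : X × Y | q.2 ≠ 0}] (x, 0), ‖fderiv ℝ f q‖ < ε := by
    have := hlim.norm
    rw [norm_zero] at this
    exact this.eventually (gt_mem_nhds hε)
  rw [eventually_nhdsWithin_iff, Metric.eventually_nhds_iff_ball] at h1
  obtain ⟨r, hr, hball⟩ := h1
  filter_upwards [Metric.ball_mem_nhds (x, (0 : Y)) hr] with q hq
  obtain ⟨x', y⟩ := q
  simp only [h0, sub_zero, _root_.zero_apply]
  rcases eq_or_ne y 0 with rfl | hy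
  · rw [h0, norm_zero]; (clear * - hε; positivity)
  have hmem : ∀ t ∈ Ioc (0 : ℝ) 1, (x', t • y) ∈ Metric.ball (x, (0 : Y)) r := by
    intro t ht
    rw [Metric.mem_ball, Prod.dist_eq, max_lt_iff] at hq ⊢
    refine ⟨hq.1, ?_⟩
    have h2 := hq.2
    simp only [dist_zero_right] at h2 ⊢
    refine lt_of_le_of_lt ?_ h2
    rw [norm_smul, Real.norm_eq_abs, abs_of_pos ht.1]
    exact mul_le_of_le_one_left (norm_nonneg _) ht.2
  have hbase : ∀ t ∈ Ioc (0 : ℝ) 1, HasDerivAt (fun t : ℝ => f (x', t • y))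
      (fderiv ℝ f (x', t • y) (0, y)) t := by
    intro t ht
    have hne : t • y ≠ 0 := smul_ne_zero ht.1.ne' hy
    have h3 : HasDerivAt (fun t : ℝ => ((x', t • y) : X × Y)) ((0 : X), y) t := by
      have h4 : HasDerivAt (fun t : ℝ => t • y) ((1 : ℝ) • y) t := (hasDerivAt_id t).smul_const y
      rw [one_smul] at h4
      exact (hasDerivAt_const t x').prodMk h4
    exact (hd (x', t • y) hne).hasFDerivAt.comp_hasDerivAt t h3
  have hstep : ∀ s ∈ Ioc (0 : ℝ) 1, ‖f (x', y) - f (x', s • y)‖ ≤ ε * ‖y‖ := by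
    intro s hs
    have hsub : Icc s 1 ⊆ Ioc (0 : ℝ) 1 := fun t ht => ⟨hs.1.trans_le ht.1, ht.2⟩
    have h5 := Convex.norm_image_sub_le_of_norm_deriv_le (𝕜 := ℝ)
      (f := fun t : ℝ => f (x', t • y)) (C := ε * ‖y‖) (s := Icc s 1) (x := s) (y := 1)
      (fun t ht => (hbase t (hsub ht)).differentiableAt) ?_ (convex_Icc s 1)
      (left_mem_Icc.2 hs.2) (right_mem_Icc.2 hs.2)
    · simp only [one_smul] at h5
      refine h5.trans ?_
      have : ‖(1 : ℝ) - s‖ ≤ 1 := by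
        rw [Real.norm_eq_abs, abs_of_nonneg (by linarith only [hs.2])]
        linarith only [hs.1]
      exact mul_le_of_le_one_right (by (clear * - hε hy; positivity)) this
    · intro t ht
      rw [(hbase t (hsub ht)).deriv]
      have h6 := (hball _ (hmem t (hsub ht)) (smul_ne_zero (hsub ht).1.ne' hy)).le
      refine (ContinuousLinearMap.le_opNorm _ _).trans ?_
      refine mul_le_mul h6 ?_ (norm_nonneg _) hε.le
      simp only [Prod.norm_def, norm_zero, norm_nonneg, sup_of_le_right, Std.le_refl]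
  have hlim0 : Tendsto (fun s : ℝ => ‖f (x', y) - f (x', s • y)‖) (𝓝[>] 0)
      (𝓝 (‖f (x', y) - f (x', 0)‖)) := by
    have h7 : Tendsto (fun s : ℝ => ((x', s • y) : X × Y)) (𝓝[>] 0) (𝓝 (x', 0)) := by
      have : Continuous (fun s : ℝ => ((x', s • y) : X × Y)) := by fun_prop
      have h8 := this.tendsto 0
      rw [zero_smul] at h8
      exact h8.mono_left nhdsWithin_le_nhds
    exact (((hcont x').tendsto.comp h7).const_sub (f (x', y))).norm
  have hfin : ‖f (x', y) - f (x', 0)‖ ≤ ε * ‖y‖ := by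
    refine le_of_tendsto hlim0 ?_
    filter_upwards [Ioc_mem_nhdsGT (zero_lt_one' ℝ)] with s hs
    exact hstep s hs
  rw [h0, sub_zero] at hfin
  refine hfin.trans ?_
  refine mul_le_mul_of_nonneg_left ?_ hε.le
  have : ‖((x', y) : X × Y) - (x, 0)‖ = max ‖x' - x‖ ‖y - 0‖ := rfl
  rw [this, sub_zero]
  exact le_max_right _ _

/-- Flat extension: `C^1` off `{y = 0}` with derivative tending to `0` there implies `C^1`. -/
theorem flat_contDiff (f : X × Y → F) (h0 : ∀ x, f (x, 0) = 0)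
    (hd : ∀ q : X × Y, q.2 ≠ 0 → ContDiffAt ℝ 1 f q)
    (hcont : ∀ x, ContinuousAt f (x, 0))
    (hlim : ∀ x, Tendsto (fderiv ℝ f) (𝓝[{q | q.2 ≠ 0}] (x, 0)) (𝓝 0)) :
    ContDiff ℝ 1 f ∧ ∀ x, fderiv ℝ f (x, 0) = 0 := by
  have hd' : ∀ q : X × Y, q.2 ≠ 0 → DifferentiableAt ℝ f q := fun q hq =>
    (hd q hq).differentiableAt (by norm_num)
  have h1 : ∀ x, HasFDerivAt f (0 : X × Y →L[ℝ] F) (x, 0) := fun x =>
    flat_hasFDerivAt f h0 hd' hcont x (hlim x)
  have h2 : ∀ x, fderiv ℝ f (x, 0) = 0 := fun x => (h1 x).fderiv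
  refine ⟨?_, h2⟩
  rw [contDiff_one_iff_fderiv]
  constructor
  · rintro ⟨x, y⟩
    rcases eq_or_ne y 0 with rfl | hy
    · exact (h1 x).differentiableAt
    · exact hd' _ hy
  · rw [continuous_iff_continuousAt]
    rintro ⟨x, y⟩
    rcases eq_or_ne y 0 with rfl | hy
    · rw [ContinuousAt, h2]
      have hu : (univ : Set (X × Y)) = {q | q.2 ≠ 0} ∪ {q | q.2 = 0} := by
        ext q; simp only [mem_univ, ne_eq, mem_union, mem_ofPred_eq, em']
      rw [← nhdsWithin_univ, hu, nhdsWithin_union]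
      refine (hlim x).sup ?_
      refine Tendsto.congr' ?_ tendsto_const_nhds
      filter_upwards [self_mem_nhdsWithin] with q hq
      obtain ⟨x', y'⟩ := q
      have hq' : y' = 0 := hq
      subst hq'
      exact (h2 x').symm
    · have h3 := (hd (x, y) hy).fderiv_right (m := 0) (by norm_num)
      exact h3.continuousAt

end Flat

section DB

variable {E F : Type*} [NormedAddCommGroup E] [NormedSpace ℝ E] [NormedAddCommGroup F]
  [NormedSpace ℝ F]

/-- `f` is differentiable at `x` with derivative of norm at most `b`. -/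
def DB (f : E → F) (x : E) (b : ℝ) : Prop := ∃ f' : E →L[ℝ] F, HasFDerivAt f f' x ∧ ‖f'‖ ≤ b

theorem DB.nonneg {f : E → F} {x : E} {b : ℝ} (h : DB f x b) : 0 ≤ b := by
  obtain ⟨f', -, h2⟩ := h
  exact (norm_nonneg _).trans h2

theorem DB.mono {f : E → F} {x : E} {b c : ℝ} (h : DB f x b) (hbc : b ≤ c) : DB f x c := by
  obtain ⟨f', h1, h2⟩ := h
  exact ⟨f', h1, h2.trans hbc⟩

theorem DB.fderiv_le {f : E → F} {x : E} {b : ℝ} (h : DB f x b) : ‖fderiv ℝ f x‖ ≤ b := by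
  obtain ⟨f', h1, h2⟩ := h
  rw [h1.fderiv]; exact h2

theorem DB.congr {f g : E → F} {x : E} {b : ℝ} (h : DB f x b) (hfg : g =ᶠ[𝓝 x] f) : DB g x b := by
  obtain ⟨f', h1, h2⟩ := h
  exact ⟨f', h1.congr_of_eventuallyEq hfg, h2⟩

theorem DB.const (c : F) (x : E) : DB (fun _ : E => c) x 0 :=
  ⟨0, hasFDerivAt_const c x, by simp⟩

theorem DB.add {f g : E → F} {x : E} {b c : ℝ} (hf : DB f x b) (hg : DB g x c) :
    DB (fun y => f y + g y) x (b + c) := by
  obtain ⟨f', h1, h2⟩ := hf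
  obtain ⟨g', h3, h4⟩ := hg
  exact ⟨f' + g', h1.add h3, (norm_add_le _ _).trans (add_le_add h2 h4)⟩

theorem DB.smul {f : E → ℝ} {g : E → F} {x : E} {b c : ℝ} (hf : DB f x b) (hg : DB g x c) :
    DB (fun y => f y • g y) x (|f x| * c + b * ‖g x‖) := by
  obtain ⟨f', h1, h2⟩ := hf
  obtain ⟨g', h3, h4⟩ := hg
  refine ⟨_, h1.smul h3, (norm_add_le _ _).trans (add_le_add ?_ ?_)⟩
  · rw [norm_smul, Real.norm_eq_abs]
    exact mul_le_mul_of_nonneg_left h4 (abs_nonneg _)
  · rw [ContinuousLinearMap.norm_smulRight_apply]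
    exact mul_le_mul_of_nonneg_right h2 (norm_nonneg _)

theorem DB.mul {f g : E → ℝ} {x : E} {b c : ℝ} (hf : DB f x b) (hg : DB g x c) :
    DB (fun y => f y * g y) x (|f x| * c + b * |g x|) := DB.smul hf hg

/-- chain rule with a real function -/
theorem DB.comp_real {f : E → ℝ} {x : E} {b : ℝ} (hf : DB f x b) {g : ℝ → F} {g' : F}
    (hg : HasDerivAt g g' (f x)) : DB (fun y => g (f y)) x (‖g'‖ * b) := by
  obtain ⟨f', h1, h2⟩ := hf
  refine ⟨_, hg.hasFDerivAt.comp x h1, ?_⟩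
  refine (ContinuousLinearMap.opNorm_comp_le _ _).trans ?_
  refine mul_le_mul ?_ h2 (norm_nonneg _) (norm_nonneg _)
  simp only [ContinuousLinearMap.norm_toSpanSingleton, Std.le_refl]

/-- chain rule with a function of two real variables -/
theorem DB.comp_real2 {f₁ f₂ : E → ℝ} {x : E} {b₁ b₂ : ℝ} (h₁ : DB f₁ x b₁) (h₂ : DB f₂ x b₂)
    {g : ℝ × ℝ → ℝ} {c₁ c₂ : ℝ}
    (hg : HasFDerivAt g (c₁ • ContinuousLinearMap.fst ℝ ℝ ℝ + c₂ • ContinuousLinearMap.snd ℝ ℝ ℝ)
      (f₁ x, f₂ x)) :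
    DB (fun y => g (f₁ y, f₂ y)) x (|c₁| * b₁ + |c₂| * b₂) := by
  obtain ⟨f₁', h1, h2⟩ := h₁
  obtain ⟨f₂', h3, h4⟩ := h₂
  refine ⟨_, HasFDerivAt.comp x hg (h1.prodMk h3), ?_⟩
  have : (c₁ • ContinuousLinearMap.fst ℝ ℝ ℝ + c₂ • ContinuousLinearMap.snd ℝ ℝ ℝ).comp
      (f₁'.prod f₂') = c₁ • f₁' + c₂ • f₂' := by
    ext y; simp
  rw [this]
  refine (norm_add_le _ _).trans (add_le_add ?_ ?_)
  · rw [norm_smul, Real.norm_eq_abs]
    exact mul_le_mul_of_nonneg_left h2 (abs_nonneg _)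
  · rw [norm_smul, Real.norm_eq_abs]
    exact mul_le_mul_of_nonneg_left h4 (abs_nonneg _)

end DB

section MaxPow

end MaxPow

end Vale.Agent.P103
end
end

section

section

/-!
# P103: elementary estimates used for the regularity of `W`
-/

namespace Vale.Agent.P103.RW

open Filter Topology Set

theorem st_contDiff : ContDiff ℝ 1 Real.smoothTransition := Real.smoothTransition.contDiff (n := 1)

theorem st_hasDerivAt (x : ℝ) :
    HasDerivAt Real.smoothTransition (deriv Real.smoothTransition x) x :=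
  (st_contDiff.differentiable (by norm_num) x).hasDerivAt

theorem st_deriv_zero {x : ℝ} (hx : x < 0 ∨ 1 < x) : deriv Real.smoothTransition x = 0 := by
  rcases hx with hx | hx
  · have h : Real.smoothTransition =ᶠ[𝓝 x] fun _ => 0 := by
      filter_upwards [gt_mem_nhds hx] with y hy
      exact Real.smoothTransition.zero_of_nonpos hy.le
    rw [h.deriv_eq, deriv_const]
  · have h : Real.smoothTransition =ᶠ[𝓝 x] fun _ => 1 := by
      filter_upwards [lt_mem_nhds hx] with y hy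
      exact Real.smoothTransition.one_of_one_le hy.le
    rw [h.deriv_eq, deriv_const]

theorem st_deriv_bound : ∃ C : ℝ, 1 ≤ C ∧ ∀ x, |deriv Real.smoothTransition x| ≤ C := by
  have hc : Continuous (deriv Real.smoothTransition) := st_contDiff.continuous_deriv (by norm_num)
  obtain ⟨C, hC⟩ := isCompact_Icc.exists_bound_of_continuousOn (s := Icc (0 : ℝ) 1)
    hc.continuousOn
  refine ⟨max C 1, le_max_right _ _, fun x => ?_⟩
  by_cases hx : x ∈ Icc (0 : ℝ) 1
  · exact (hC x hx).trans (le_max_left _ _)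
  · rw [st_deriv_zero, abs_zero]
    · exact zero_le_one.trans (le_max_right _ _)
    · rw [mem_Icc, not_and_or, not_le, not_le] at hx
      exact hx

theorem kk_hasDerivAt (r : ℝ) :
    HasDerivAt kk (deriv Real.smoothTransition (3 - 4 * r) * (-4)) r := by
  have h1 : HasDerivAt (fun r : ℝ => 3 - 4 * r) (-4) r := by
    have := ((hasDerivAt_id r).const_mul (4 : ℝ)).const_sub 3
    simpa only [id_eq, mul_one] using this
  exact (st_hasDerivAt _).comp r h1

theorem kk_contDiff : ContDiff ℝ 1 kk := by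
  unfold kk
  exact st_contDiff.comp (by fun_prop)

theorem kk_nonneg (r : ℝ) : 0 ≤ kk r := Real.smoothTransition.nonneg _

theorem kk_le_one (r : ℝ) : kk r ≤ 1 := Real.smoothTransition.le_one _

theorem kk_eq_zero {r : ℝ} (h : 3 / 4 ≤ r) : kk r = 0 :=
  Real.smoothTransition.zero_of_nonpos (by linarith only [h])

/-! ### `mx` -/

theorem mx_le {ν b : ℝ} (hb : 0 ≤ b) : mx ν b ≤ ν + b := by
  unfold mx
  have := Real.smoothTransition.le_one (2 - ν / b)
  nlinarith only [hb, this]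

theorem le_mx_right {ν b : ℝ} (hν : 0 ≤ ν) (hb : 0 < b) : b ≤ mx ν b := by
  unfold mx
  rcases le_total ν b with h | h
  · have : Real.smoothTransition (2 - ν / b) = 1 := by
      apply Real.smoothTransition.one_of_one_le
      have : ν / b ≤ 1 := (div_le_one hb).2 h
      linarith
    rw [this]; linarith only [hν]
  · have := Real.smoothTransition.nonneg (2 - ν / b)
    nlinarith only [h, hb, this]

theorem mx_hasFDerivAt (ν : ℝ) {b : ℝ} (hb : 0 < b) :
    HasFDerivAt (fun q : ℝ × ℝ => mx q.1 q.2)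
      ((1 - deriv Real.smoothTransition (2 - ν / b)) • ContinuousLinearMap.fst ℝ ℝ ℝ +
       (Real.smoothTransition (2 - ν / b) + ν / b * deriv Real.smoothTransition (2 - ν / b)) •
        ContinuousLinearMap.snd ℝ ℝ ℝ) (ν, b) := by
  have hf : HasFDerivAt (fun q : ℝ × ℝ => q.1) (ContinuousLinearMap.fst ℝ ℝ ℝ) (ν, b) :=
    hasFDerivAt_fst
  have hs : HasFDerivAt (fun q : ℝ × ℝ => q.2) (ContinuousLinearMap.snd ℝ ℝ ℝ) (ν, b) :=
    hasFDerivAt_snd
  have hinv : HasFDerivAt (fun q : ℝ × ℝ => (q.2)⁻¹) ((-(b ^ 2)⁻¹) •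
      ContinuousLinearMap.snd ℝ ℝ ℝ) (ν, b) := by
    have h1 : HasDerivAt (fun y : ℝ => y⁻¹) (-(b ^ 2)⁻¹) b := hasDerivAt_inv hb.ne'
    have h2 := h1.comp_hasFDerivAt (ν, b) hs
    exact h2
  have hdiv : HasFDerivAt (fun q : ℝ × ℝ => 2 - q.1 * (q.2)⁻¹)
      (-(ν • ((-(b ^ 2)⁻¹) • ContinuousLinearMap.snd ℝ ℝ ℝ) +
        b⁻¹ • ContinuousLinearMap.fst ℝ ℝ ℝ)) (ν, b) := (hf.mul hinv).const_sub 2
  have hst : HasFDerivAt (fun q : ℝ × ℝ => Real.smoothTransition (2 - q.1 * (q.2)⁻¹))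
      (deriv Real.smoothTransition (2 - ν * b⁻¹) •
        (-(ν • ((-(b ^ 2)⁻¹) • ContinuousLinearMap.snd ℝ ℝ ℝ) +
        b⁻¹ • ContinuousLinearMap.fst ℝ ℝ ℝ))) (ν, b) :=
    HasDerivAt.comp_hasFDerivAt (h₂ := Real.smoothTransition)
      (f := fun q : ℝ × ℝ => 2 - q.1 * (q.2)⁻¹) (ν, b) (st_hasDerivAt (2 - ν * b⁻¹)) hdiv
  have hall := hf.add (hs.mul hst)
  have hfun : (fun q : ℝ × ℝ => mx q.1 q.2) =
      fun q : ℝ × ℝ => q.1 + q.2 * Real.smoothTransition (2 - q.1 * (q.2)⁻¹) := by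
    funext q
    unfold mx
    rw [div_eq_mul_inv]
  rw [hfun]
  refine hall.congr_fderiv ?_
  ext
  · simp only [div_eq_mul_inv]
    simp only [neg_add_rev, smul_add, smul_neg, ContinuousLinearMap.add_comp, ContinuousLinearMap.fst_comp_inl, ContinuousLinearMap.neg_comp, ContinuousLinearMap.smul_comp, ContinuousLinearMap.snd_comp_inl, smul_zero, neg_zero, add_zero, add_apply, ContinuousLinearMap.id_apply, neg_apply, smul_apply, smul_eq_mul, mul_one]
    field_simp
    ring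
  · simp only [div_eq_mul_inv]
    simp only [neg_add_rev, smul_add, smul_neg, ContinuousLinearMap.add_comp, ContinuousLinearMap.fst_comp_inr, ContinuousLinearMap.neg_comp, ContinuousLinearMap.smul_comp, smul_zero, neg_zero, ContinuousLinearMap.snd_comp_inr, neg_smul, neg_neg, zero_add, add_apply, smul_apply, ContinuousLinearMap.id_apply, smul_eq_mul, mul_one]
    field_simp
    ring

theorem mx_deriv_bound {C : ℝ} (hC : ∀ x, |deriv Real.smoothTransition x| ≤ C) {ν b : ℝ}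
    (hν : 0 ≤ ν) (hb : 0 < b) :
    |1 - deriv Real.smoothTransition (2 - ν / b)| ≤ 1 + C ∧
    |Real.smoothTransition (2 - ν / b) + ν / b * deriv Real.smoothTransition (2 - ν / b)|
      ≤ 1 + 2 * C := by
  have hC0 : 0 ≤ C := (abs_nonneg _).trans (hC 0)
  constructor
  · calc _ ≤ |(1 : ℝ)| + |deriv Real.smoothTransition (2 - ν / b)| := abs_sub _ _
      _ ≤ 1 + C := by rw [abs_one]; linarith only [hC (2 - ν / b)]
  · have h1 : |Real.smoothTransition (2 - ν / b)| ≤ 1 := by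
      rw [abs_of_nonneg (Real.smoothTransition.nonneg _)]
      exact Real.smoothTransition.le_one _
    have h2 : |ν / b * deriv Real.smoothTransition (2 - ν / b)| ≤ 2 * C := by
      rcases le_or_gt (ν / b) 2 with h | h
      · rw [abs_mul, abs_of_nonneg (by positivity : 0 ≤ ν / b)]
        exact mul_le_mul h (hC _) (abs_nonneg _) (by norm_num)
      · rw [st_deriv_zero (Or.inl (by linarith only [h])), mul_zero, abs_zero]
        positivity
    exact (abs_add_le _ _).trans (add_le_add h1 h2)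

theorem mx_contDiffAt (ν : ℝ) {b : ℝ} (hb : 0 < b) :
    ContDiffAt ℝ 1 (fun q : ℝ × ℝ => mx q.1 q.2) (ν, b) := by
  unfold mx
  have h1 : ContDiffAt ℝ 1 (fun q : ℝ × ℝ => 2 - q.1 / q.2) (ν, b) :=
    contDiffAt_const.sub (contDiffAt_fst.div contDiffAt_snd hb.ne')
  exact contDiffAt_fst.add (contDiffAt_snd.mul (st_contDiff.contDiffAt.comp (ν, b) h1))

/-! ### `beta` -/

theorem log_one_add_inv_pos {a : ℝ} (ha : 0 < a) : 0 < Real.log (1 + 1 / a) := by
  apply Real.log_pos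
  have : 0 < 1 / a := by positivity
  linarith only [this]

theorem beta_pos {a : ℝ} (ha : 0 < a) : 0 < beta a := by
  unfold beta
  have := log_one_add_inv_pos ha
  positivity

theorem beta_le_half {a : ℝ} (ha : 0 < a) : beta a ≤ 1 / 2 := by
  unfold beta
  have := log_one_add_inv_pos ha
  apply one_div_le_one_div_of_le (by norm_num)
  linarith only [this]

theorem one_add_log_eq {a : ℝ} (ha : 0 < a) :
    1 + Real.log (1 + 1 / a) = 1 / (2 * beta a) := by
  unfold beta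
  have := log_one_add_inv_pos ha
  field_simp

theorem beta_hasDerivAt {a : ℝ} (ha : 0 < a) :
    ∃ b', HasDerivAt beta b' a ∧ |b'| ≤ beta a / a := by
  have hL := log_one_add_inv_pos ha
  set L := Real.log (1 + 1 / a) with hLdef
  have h1 : HasDerivAt (fun a : ℝ => 1 + 1 / a) (-(a ^ 2)⁻¹) a := by
    have := (hasDerivAt_inv ha.ne').const_add (1 : ℝ)
    simpa [one_div] using this
  have hne : (1 + 1 / a) ≠ 0 := by positivity
  have h2 : HasDerivAt (fun a : ℝ => Real.log (1 + 1 / a)) (-(a ^ 2)⁻¹ / (1 + 1 / a)) a :=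
    h1.log hne
  have h3 : HasDerivAt (fun a : ℝ => 2 * (1 + Real.log (1 + 1 / a)))
      (2 * (-(a ^ 2)⁻¹ / (1 + 1 / a))) a := (h2.const_add 1).const_mul 2
  have h4 : HasDerivAt (fun a : ℝ => (2 * (1 + Real.log (1 + 1 / a)))⁻¹)
      (-(2 * (-(a ^ 2)⁻¹ / (1 + 1 / a))) / (2 * (1 + L)) ^ 2) a := by
    apply h3.inv
    positivity
  have hfun : beta = fun a : ℝ => (2 * (1 + Real.log (1 + 1 / a)))⁻¹ := by
    funext a; unfold beta; rw [one_div]
  refine ⟨_, by rw [hfun]; exact h4, ?_⟩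
  have e1 : -(2 * (-(a ^ 2)⁻¹ / (1 + 1 / a))) / (2 * (1 + L)) ^ 2 =
      1 / (2 * (1 + L)) / a * (1 / ((1 + L) * (a + 1))) := by
    field_simp
  have e2 : beta a / a = 1 / (2 * (1 + L)) / a := by unfold beta; rfl
  rw [e1, e2]
  have hp : 0 < 1 / (2 * (1 + L)) / a := by positivity
  rw [abs_of_pos (by positivity)]
  apply mul_le_of_le_one_right hp.le
  rw [div_le_one (by positivity)]
  nlinarith only [ha, hL]

theorem beta_contDiffAt {a : ℝ} (ha : 0 < a) : ContDiffAt ℝ 1 beta a := by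
  unfold beta
  have hL := log_one_add_inv_pos ha
  have h1 : ContDiffAt ℝ 1 (fun a : ℝ => 1 + 1 / a) a :=
    contDiffAt_const.add (contDiffAt_const.div contDiffAt_id ha.ne')
  have h2 : ContDiffAt ℝ 1 (fun a : ℝ => Real.log (1 + 1 / a)) a := h1.log (by positivity)
  have h3 : ContDiffAt ℝ 1 (fun a : ℝ => 2 * (1 + Real.log (1 + 1 / a))) a :=
    contDiffAt_const.mul (contDiffAt_const.add h2)
  exact contDiffAt_const.div h3 (by positivity)

theorem beta_tendsto : Tendsto beta (𝓝[>] 0) (𝓝 0) := by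
  have h1 : Tendsto (fun a : ℝ => 1 + 1 / a) (𝓝[>] 0) atTop := by
    have := tendsto_inv_nhdsGT_zero (𝕜 := ℝ)
    have h2 := tendsto_atTop_add_const_left _ (1 : ℝ) this
    simpa only [one_div] using h2
  have h2 : Tendsto (fun a : ℝ => 2 * (1 + Real.log (1 + 1 / a))) (𝓝[>] 0) atTop := by
    apply Tendsto.const_mul_atTop (by norm_num)
    apply tendsto_atTop_add_const_left
    exact Real.tendsto_log_atTop.comp h1
  have h3 := tendsto_inv_atTop_zero.comp h2
  refine h3.congr (fun a => ?_)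
  simp only [one_div, Function.comp_apply, mul_inv_rev, beta]

/-! ### logarithmic estimates -/

theorem log_two_div_le {Γ a b : ℝ} (ha : 0 < a) (hb : b = beta a) (hΓ : b * a ≤ Γ) (hΓ1 : Γ ≤ 1) :
    0 < Real.log (2 / Γ) ∧ Real.log (2 / Γ) ≤ 2 / b := by
  have hbp : 0 < b := hb ▸ beta_pos ha
  have hba : 0 < b * a := by positivity
  have hΓ0 : 0 < Γ := hba.trans_le hΓ
  constructor
  · apply Real.log_pos
    rw [lt_div_iff₀ hΓ0]; linarith only [hΓ1]
  · have h1 : Real.log (2 / Γ) ≤ Real.log (2 / (b * a)) :=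
      Real.log_le_log (by positivity) (div_le_div_of_nonneg_left (by norm_num) hba hΓ)
    have h2 : Real.log (2 / (b * a)) = Real.log (1 / b) + Real.log 2 + Real.log (1 / a) := by
      rw [← Real.log_mul (by positivity) (by norm_num), ← Real.log_mul (by positivity)
        (by positivity)]
      congr 1
      field_simp
    have h3 : Real.log (1 / b) ≤ 1 / b - 1 := Real.log_le_sub_one_of_pos (by positivity)
    have h4 : Real.log 2 ≤ 2 - 1 := Real.log_le_sub_one_of_pos (by norm_num)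
    have h5 : Real.log (1 / a) ≤ Real.log (1 + 1 / a) :=
      Real.log_le_log (by positivity) (by linarith only [])
    have h6 : Real.log (1 + 1 / a) = 1 / (2 * b) - 1 := by
      have := one_add_log_eq ha
      rw [← hb] at this
      linarith only [this]
    have h7 : 1 / (2 * b) = 1 / b / 2 := by field_simp
    have h8 : 2 / b = 2 * (1 / b) := by field_simp
    have h9 : 0 < 1 / b := by positivity
    rw [h8]
    linarith only [h1, h2, h3, h4, h5, h6, h7, h9]

theorem mul_log_cube_le {x : ℝ} (hx : 0 < x) (hx1 : x ≤ 1) :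
    x * Real.log (2 / x) ^ 3 ≤ 216 * Real.sqrt (2 * x) := by
  have h2x : 0 < 2 / x := by positivity
  have hlog0 : 0 ≤ Real.log (2 / x) := by
    apply Real.log_nonneg
    rw [le_div_iff₀ hx]; linarith only [hx1]
  have h1 : Real.log (2 / x) ≤ (2 / x) ^ (1 / 6 : ℝ) / (1 / 6) :=
    Real.log_le_rpow_div h2x.le (by norm_num)
  have h2 : Real.log (2 / x) ^ 3 ≤ ((2 / x) ^ (1 / 6 : ℝ) / (1 / 6)) ^ 3 :=
    pow_le_pow_left₀ hlog0 h1 3
  have h3 : ((2 / x) ^ (1 / 6 : ℝ) / (1 / 6)) ^ 3 = 216 * Real.sqrt (2 / x) := by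
    rw [div_pow, ← Real.rpow_natCast ((2 / x) ^ (1 / 6 : ℝ)) 3, ← Real.rpow_mul h2x.le,
      Real.sqrt_eq_rpow]
    norm_num
    ring
  rw [h3] at h2
  calc x * Real.log (2 / x) ^ 3 ≤ x * (216 * Real.sqrt (2 / x)) :=
        mul_le_mul_of_nonneg_left h2 hx.le
    _ = 216 * (x * Real.sqrt (2 / x)) := by ring
    _ = 216 * Real.sqrt (2 * x) := by
        congr 1
        have : 2 * x = x ^ 2 * (2 / x) := by field_simp
        rw [this, Real.sqrt_mul (by positivity), Real.sqrt_sq hx.le]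

/-- the key estimate: `ν √(1/β)` is small when `a ≥ exp(-K/ν)` -/
theorem nu_mul_sqrt_le {ν a K : ℝ} (hν : 0 < ν) (hK : 0 < K) (ha : 0 < a) (ha1 : a ≤ 1)
    (hA : Real.exp (-(K / ν)) ≤ a) :
    ν * Real.sqrt (2 / beta a) ≤ 2 * Real.sqrt (2 * ν ^ 2 + K * ν) := by
  have hb := beta_pos ha
  have h1 : 2 / beta a = 4 * (1 + Real.log (1 + 1 / a)) := by
    rw [one_add_log_eq ha]; field_simp; norm_num
  have h2 : Real.log (1 + 1 / a) ≤ 1 + K / ν := by
    have h3 : 1 + 1 / a ≤ 2 / a := by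
      rw [le_div_iff₀ ha, add_mul, one_div, inv_mul_cancel₀ ha.ne']
      linarith only [ha1]
    have h4 : Real.log (1 + 1 / a) ≤ Real.log (2 / a) := Real.log_le_log (by positivity) h3
    have h5 : Real.log (2 / a) = Real.log 2 - Real.log a :=
      Real.log_div (by norm_num) ha.ne'
    have h6 : -(K / ν) ≤ Real.log a := by
      rw [Real.le_log_iff_exp_le ha]; exact hA
    have h7 : Real.log 2 ≤ 2 - 1 := Real.log_le_sub_one_of_pos (by norm_num)
    linarith only [h4, h5, h6, h7]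
  have h8 : ν ^ 2 * (1 + Real.log (1 + 1 / a)) ≤ 2 * ν ^ 2 + K * ν := by
    have h9 : ν ^ 2 * (1 + Real.log (1 + 1 / a)) ≤ ν ^ 2 * (2 + K / ν) :=
      mul_le_mul_of_nonneg_left (by linarith only [h2]) (by positivity)
    refine h9.trans (le_of_eq ?_)
    field_simp
  calc ν * Real.sqrt (2 / beta a) = Real.sqrt (ν ^ 2 * (2 / beta a)) := by
        rw [Real.sqrt_mul (by positivity), Real.sqrt_sq hν.le]
    _ ≤ Real.sqrt (4 * (2 * ν ^ 2 + K * ν)) := by
        apply Real.sqrt_le_sqrt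
        rw [h1]
        linarith only [h8]
    _ = 2 * Real.sqrt (2 * ν ^ 2 + K * ν) := by
        rw [Real.sqrt_mul (by norm_num), show (4 : ℝ) = 2 ^ 2 by norm_num,
          Real.sqrt_sq (by norm_num)]


theorem nu_exp (θ : ℝ) : nu (Circle.exp θ) = (1 - Real.cos θ) / 2 := by
  unfold nu
  have h : ‖((Circle.exp θ : Circle) : ℂ) - 1‖ ^ 2 = (Real.cos θ - 1) ^ 2 + Real.sin θ ^ 2 := by
    rw [Circle.coe_exp, ← Complex.normSq_eq_norm_sq, Complex.normSq_apply]
    simp only [Complex.sub_re, Complex.exp_ofReal_mul_I_re, Complex.one_re, Complex.sub_im, Complex.exp_ofReal_mul_I_im, Complex.one_im, sub_zero]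
    ring
  rw [h]
  nlinarith only [Real.sin_sq_add_cos_sq θ]

theorem nu_exp_hasDerivAt (θ : ℝ) :
    HasDerivAt (fun θ => nu (Circle.exp θ)) (Real.sin θ / 2) θ := by
  have h : (fun θ => nu (Circle.exp θ)) = fun θ => (1 - Real.cos θ) / 2 := funext nu_exp
  rw [h]
  have := ((Real.hasDerivAt_cos θ).const_sub 1).div_const 2
  simpa only [neg_neg] using this

theorem nu_exp_contDiff : ContDiff ℝ 1 (fun θ => nu (Circle.exp θ)) := by
  have h : (fun θ => nu (Circle.exp θ)) = fun θ => (1 - Real.cos θ) / 2 := funext nu_exp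
  rw [h]
  exact (contDiff_const.sub Real.contDiff_cos).div_const 2

theorem nu_nonneg' (ζ : Circle) : 0 ≤ nu ζ := by unfold nu; positivity

theorem nu_le_one' (ζ : Circle) : nu ζ ≤ 1 := by
  unfold nu
  have h : ‖(ζ : ℂ) - 1‖ ≤ 2 := by
    calc ‖(ζ : ℂ) - 1‖ ≤ ‖(ζ : ℂ)‖ + ‖(1 : ℂ)‖ := norm_sub_le _ _
      _ = 2 := by rw [Circle.norm_coe, norm_one]; norm_num
  nlinarith only [h, norm_nonneg ((ζ : ℂ) - 1)]

/-! ### the direction map -/

theorem db_norm_snd {q : ℝ × ℂ} (hq : q.2 ≠ 0) : DB (fun q : ℝ × ℂ => ‖q.2‖) q 1 := by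
  have h1 : DifferentiableAt ℝ (fun z : ℂ => ‖z‖) q.2 :=
    (contDiffAt_norm ℝ (n := 1) hq).differentiableAt (by norm_num)
  refine ⟨_, h1.hasFDerivAt.comp q hasFDerivAt_snd, ?_⟩
  refine (ContinuousLinearMap.opNorm_comp_le _ _).trans ?_
  have h2 : ‖fderiv ℝ (fun z : ℂ => ‖z‖) q.2‖ ≤ 1 := by
    have := norm_fderiv_le_of_lipschitz ℝ (f := fun z : ℂ => ‖z‖) (x₀ := q.2) (C := 1)
      lipschitzWith_one_norm
    simpa only [ge_iff_le, NNReal.coe_one] using this
  have h3 : ‖ContinuousLinearMap.snd ℝ ℝ ℂ‖ ≤ 1 := ContinuousLinearMap.norm_snd_le ℝ ℝ ℂ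
  calc _ ≤ 1 * 1 := mul_le_mul h2 h3 (norm_nonneg _) zero_le_one
    _ = 1 := one_mul 1

theorem dir_eq {z : ℂ} (hz : z ≠ 0) : (z / ‖z‖) ^ 2 = z * ((starRingEnd ℂ) z)⁻¹ := by
  have h1 : ((‖z‖ : ℝ) : ℂ) ^ 2 = z * (starRingEnd ℂ) z := (Complex.mul_conj' z).symm
  have h2 : (starRingEnd ℂ) z ≠ 0 := by simpa only [ne_eq, map_eq_zero] using hz
  rw [div_pow, h1]
  field_simp

theorem db_dir {q : ℝ × ℂ} (hq : q.2 ≠ 0) :
    DB (fun q : ℝ × ℂ => (q.2 / ‖q.2‖) ^ 2) q (2 / ‖q.2‖) := by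
  have hn : 0 < ‖q.2‖ := norm_pos_iff.2 hq
  have hc : (starRingEnd ℂ) q.2 ≠ 0 := by simpa only [ne_eq, map_eq_zero] using hq
  have hs : HasFDerivAt (fun q : ℝ × ℂ => q.2) (ContinuousLinearMap.snd ℝ ℝ ℂ) q := hasFDerivAt_snd
  have hconj : HasFDerivAt (fun q : ℝ × ℂ => (starRingEnd ℂ) q.2)
      ((Complex.conjCLE : ℂ →L[ℝ] ℂ).comp (ContinuousLinearMap.snd ℝ ℝ ℂ)) q :=
    (Complex.conjCLE : ℂ →L[ℝ] ℂ).hasFDerivAt.comp q hs
  have hinv : HasFDerivAt (fun q : ℝ × ℂ => ((starRingEnd ℂ) q.2)⁻¹)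
      ((((ContinuousLinearMap.toSpanSingleton ℂ (-((((starRingEnd ℂ) q.2) ^ 2)⁻¹)) :
        ℂ →L[ℂ] ℂ)).restrictScalars ℝ).comp
        ((Complex.conjCLE : ℂ →L[ℝ] ℂ).comp (ContinuousLinearMap.snd ℝ ℝ ℂ))) q := by
    have h1 := (hasDerivAt_inv hc).hasFDerivAt.restrictScalars ℝ
    exact h1.comp q hconj
  have hmul := hs.mul hinv
  have hev : (fun q : ℝ × ℂ => (q.2 / ‖q.2‖) ^ 2) =ᶠ[𝓝 q]
      fun q : ℝ × ℂ => q.2 * ((starRingEnd ℂ) q.2)⁻¹ := by
    have : ∀ᶠ p : ℝ × ℂ in 𝓝 q, p.2 ≠ 0 :=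
      continuous_snd.continuousAt.eventually_ne hq
    filter_upwards [this] with p hp
    exact dir_eq hp
  refine ⟨_, hmul.congr_of_eventuallyEq hev, ?_⟩
  have h3 : ‖ContinuousLinearMap.snd ℝ ℝ ℂ‖ ≤ 1 := ContinuousLinearMap.norm_snd_le ℝ ℝ ℂ
  refine ContinuousLinearMap.opNorm_le_bound _ (by positivity) ?_
  intro y
  have hy : ‖y.2‖ ≤ ‖y‖ := norm_snd_le y
  simp only [_root_.add_apply, _root_.smul_apply,
    ContinuousLinearMap.comp_apply, ContinuousLinearMap.coe_restrictScalars',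
    ContinuousLinearMap.toSpanSingleton_apply, ContinuousLinearMap.coe_snd',
    ContinuousLinearEquiv.coe_coe, Complex.conjCLE_apply]
  refine (norm_add_le _ _).trans ?_
  simp only [norm_neg, norm_inv, norm_pow, RCLike.norm_conj, smul_eq_mul, norm_mul]
  have e1 : ‖q.2‖ * (‖y.2‖ * (‖q.2‖ ^ 2)⁻¹) = ‖y.2‖ / ‖q.2‖ := by
    (clear * - hq; field_simp)
  have e2 : ‖q.2‖⁻¹ * ‖y.2‖ = ‖y.2‖ / ‖q.2‖ := by field_simp
  rw [e1, e2]
  have e3 : 2 / ‖q.2‖ * ‖y‖ = ‖y‖ / ‖q.2‖ + ‖y‖ / ‖q.2‖ := by field_simp; ring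
  rw [e3]
  (clear * - hy hq; gcongr)

end Vale.Agent.P103.RW
end
end

section

section

/-!
# P103: exceptional times, reduced to the facts of the local analysis
-/

namespace Vale.Agent.P103

open Filter Topology

section Sph

variable {V : Type} [NormedAddCommGroup V] [InnerProductSpace ℝ V]

theorem exc_st_ist (v : V) : st (ist v) = v := by
  have h : (1 + ‖v‖ ^ 2) ≠ 0 := by positivity
  unfold st ist
  rw [hp_mk, ht_mk, smul_smul]
  have h2 : (1 - (‖v‖ ^ 2 - 1) / (1 + ‖v‖ ^ 2))⁻¹ * (2 / (1 + ‖v‖ ^ 2)) = 1 := by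
    have h3 : 1 - (‖v‖ ^ 2 - 1) / (1 + ‖v‖ ^ 2) = 2 / (1 + ‖v‖ ^ 2) := by
      field_simp
      ring
    rw [h3]
    exact inv_mul_cancel₀ (by positivity)
  rw [h2, one_smul]

theorem exc_ist_ne_nor (v : V) : (ist v : Sph V) ≠ nor := by
  intro h
  have h1 : ht (ist v : Sph V) = ht (nor : Sph V) := by rw [h]
  unfold ist nor at h1
  rw [ht_mk, ht_mk] at h1
  have h : (1 + ‖v‖ ^ 2) ≠ 0 := by (clear * -; positivity)
  rw [div_eq_one_iff_eq h] at h1
  linarith only [h1]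

theorem exc_ist_continuous : Continuous (ist : V → Sph V) := by
  unfold ist mkSph
  apply Continuous.subtype_mk
  apply (WithLp.prod_continuous_toLp 2 V ℝ).comp
  apply Continuous.prodMk
  · apply Continuous.smul
    · apply Continuous.div continuous_const
      · fun_prop
      · intro x; positivity
    · exact continuous_id
  · apply Continuous.div
    · fun_prop
    · fun_prop
    · intro x; positivity

end Sph

theorem exc_gcut_eq {z : ℂ} (hz : ‖z‖ ≤ 1) : gcut z = 1 := by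
  unfold gcut
  apply Real.smoothTransition.one_of_one_le
  nlinarith only [hz, norm_nonneg z]

theorem exc_E2_eq_ist {z : ℂ} (hz : ‖z‖ ≤ 1) : E2 z = ist z := by
  have hg := exc_gcut_eq hz
  apply Sph_ext
  · unfold E2 ist
    rw [hp_mk, hp_mk, hg]
    norm_num
  · unfold E2 ist
    rw [ht_mk, ht_mk, hg]
    norm_num

theorem exc_ht_E2_nonneg {z : ℂ} (hz : 1 ≤ ‖z‖) : 0 ≤ ht (E2 z) := by
  unfold E2
  rw [ht_mk]
  apply div_nonneg
  · have h1 : gcut z ≤ 1 := Real.smoothTransition.le_one _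
    have h0 : 0 ≤ gcut z := Real.smoothTransition.nonneg _
    nlinarith only [hz, h1, h0]
  · exact (gcut_den_pos z).le

/-- if the next point is not `(nor, sou)`, the coordinate is small -/
theorem exc_norm_lt_of_ht {z : ℂ} (h : ht (E2 z) < -(3 / 4)) : ‖z‖ < 1 / 2 := by
  by_contra hcon
  push Not at hcon
  by_cases hz : 1 ≤ ‖z‖
  · have := exc_ht_E2_nonneg hz
    linarith only [h, this]
  · push Not at hz
    rw [exc_E2_eq_ist hz.le] at h
    unfold ist at h
    rw [ht_mk, div_lt_iff₀ (by positivity)] at h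
    nlinarith only [h, hcon]

namespace Par

variable (P : Par)

/-- the facts of the local analysis that are used for the exceptional times -/
structure ExcHyp : Prop where
  C : ∃ C : ℝ, 0 < C ∧
    (∀ (ζ : Circle) (z : ℂ) (v : P.V),
      (∃ b : ℝ, 0 < b ∧ ∃ u : ℂ, ‖u‖ = 1 ∧ P.F ζ z v = P.e (P.ω * ζ) b u) ∨
      ‖P.F ζ z v‖ ≤ C * P.A ζ) ∧
    (∀ (ζ : Circle) (z : ℂ),
      (∃ b : ℝ, 0 < b ∧ ∃ u : ℂ, ‖u‖ = 1 ∧ P.W ζ z = P.e (P.ω * ζ) b u) ∨
      ‖P.W ζ z‖ ≤ C * P.A ζ) ∧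
    (∀ (ζ : Circle) (z : ℂ) (v : P.V), ‖P.F ζ z v‖ ≤ C * (‖z‖ + ‖v‖))
  e_norm_le : ∀ (ζ : Circle) (a : ℝ), 0 < a → ∀ u : ℂ, ‖u‖ = 1 → ‖P.e ζ a u‖ ≤ 2 * a
  e_big : ∀ (ζ : Circle) (a : ℝ), 1 ≤ a → ∀ u : ℂ, ‖u‖ = 1 → 1 / 2 ≤ ‖P.e ζ a u 0‖
  F_inv : ∀ (ζ : Circle) (a : ℝ), 0 < a → ∀ u : ℂ, ‖u‖ = 1 →
    P.F ζ (P.e ζ a u 0) (P.hat (P.e ζ a u)) = P.e (P.ω * ζ) (P.Gam ζ a) (u ^ 2)
  Gam_pos : ∀ (ζ : Circle) (a : ℝ), 0 < a → 0 < P.Gam ζ a
  escape : ∀ η : ℝ, 0 < η → ∃ T : ℕ, ∀ (ζ : Circle) (a : ℕ → ℝ),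
    (∀ j, a (j + 1) = P.Gam (P.ω ^ j * ζ) (a j)) → η ≤ a 0 → ∃ j ≤ T, 1 ≤ a j
  small : ∀ C η : ℝ, 0 < η → ∃ T : ℕ, ∀ (ζ : Circle) (y : ℕ → ℝ) (n : ℕ), (∀ j, 0 ≤ y j) →
    (∀ j < n, y (j + 1) ≤ C * P.A (P.ω ^ j * ζ)) →
    (∀ j, 1 ≤ j → j < n → y (j + 1) ≤ C * y j) →
    T ≤ n → y n < η

theorem exc_coord_le (v : P.V) (j : ZMod P.p) : ‖v j‖ ≤ ‖v‖ := PiLp.norm_apply_le v j

theorem exc_hat_apply (v : P.V) (j : ZMod P.p) : P.hat v j = if j = 0 then 0 else v j := by
  unfold hat bas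
  by_cases hj : j = 0
  · subst hj
    simp only [PiLp.sub_apply, PiLp.smul_apply, PiLp.single_eq_same, smul_eq_mul, mul_one, sub_self, ↓reduceIte]
  · simp [hj]

theorem exc_hat_norm_le (v : P.V) : ‖P.hat v‖ ≤ ‖v‖ := by
  rw [EuclideanSpace.norm_eq, EuclideanSpace.norm_eq]
  apply Real.sqrt_le_sqrt
  apply Finset.sum_le_sum
  intro j _
  rw [P.exc_hat_apply]
  split_ifs
  · simp only [norm_zero, ne_eq, OfNat.ofNat_ne_zero, not_false_eq_true, zero_pow, norm_nonneg, pow_succ_nonneg]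
  · exact le_refl _

/-- the point of `S² × S^m` with local coordinate `Y` -/
noncomputable def sta (Y : P.V) : Sph ℂ × Sph P.V := (E2 (Y 0), ist (P.hat Y))

theorem exc_fib_out (ζ : Circle) (x : Sph ℂ) (w : Sph P.V) (h : ¬ ht x < -(3 / 4)) :
    P.fib ζ x w = (nor, sou) := by
  unfold fib
  rw [if_neg h]

theorem exc_fib_in (ζ : Circle) (x : Sph ℂ) (w : Sph P.V) (h : ht x < -(3 / 4)) :
    P.fib ζ x w = P.sta (P.G ζ x w) := by
  unfold fib sta
  rw [if_pos h]

theorem exc_fib_inf (ζ : Circle) : P.fib ζ nor sou = (nor, sou) := by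
  apply P.exc_fib_out
  unfold nor
  rw [ht_mk]
  norm_num

theorem exc_G_sta (ζ : Circle) {Y : P.V} (h : ‖Y 0‖ ≤ 1) :
    P.G ζ (P.sta Y).1 (P.sta Y).2 = P.F ζ (Y 0) (P.hat Y) := by
  have h1 : (P.sta Y).2 ≠ nor := exc_ist_ne_nor _
  have h2 : st (P.sta Y).1 = Y 0 := by
    change st (E2 (Y 0)) = _
    rw [exc_E2_eq_ist h, exc_st_ist]
  have h3 : st (P.sta Y).2 = P.hat Y := exc_st_ist _
  unfold G
  rw [if_neg h1, h2, h3]

/-- one step in the local coordinate -/
theorem exc_step (ζ : Circle) (Y : P.V) :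
    P.fib ζ (P.sta Y).1 (P.sta Y).2 = (nor, sou) ∨
      (‖Y 0‖ < 1 / 2 ∧ P.fib ζ (P.sta Y).1 (P.sta Y).2 = P.sta (P.F ζ (Y 0) (P.hat Y))) := by
  by_cases h : ht (P.sta Y).1 < -(3 / 4)
  · right
    have h1 : ‖Y 0‖ < 1 / 2 := exc_norm_lt_of_ht h
    refine ⟨h1, ?_⟩
    rw [P.exc_fib_in _ _ _ h, P.exc_G_sta ζ (by linarith only [h1])]
  · left
    exact P.exc_fib_out _ _ _ h

theorem exc_fM_fst (y : Circle × (Sph ℂ × Sph P.V)) (n : ℕ) :
    (P.fM^[n] y).1 = P.ω ^ n * y.1 := by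
  induction n with
  | zero => simp
  | succ n ih =>
    rw [Function.iterate_succ_apply']
    change P.ω * (P.fM^[n] y).1 = _
    rw [ih, pow_succ', mul_assoc]

theorem exc_fM_snd (y : Circle × (Sph ℂ × Sph P.V)) (n : ℕ) :
    (P.fM^[n + 1] y).2 = P.fib (P.ω ^ n * y.1) (P.fM^[n] y).2.1 (P.fM^[n] y).2.2 := by
  rw [Function.iterate_succ_apply', ← P.exc_fM_fst y n]
  rfl

theorem exc_inf (y : Circle × (Sph ℂ × Sph P.V)) {n : ℕ} (h : (P.fM^[n] y).2 = (nor, sou))
    (k : ℕ) : (P.fM^[n + k] y).2 = (nor, sou) := by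
  induction k with
  | zero => exact h
  | succ k ih =>
    rw [← add_assoc, P.exc_fM_snd, ih]
    exact P.exc_fib_inf _

/-- the small neighbourhood -/
def exU (η : ℝ) : Set (Sph ℂ × Sph P.V) :=
  {x | ∃ (z : ℂ) (v : P.V), ‖z‖ < η ∧ ‖v‖ < η ∧ x = (ist z, ist v)}

theorem exc_U_small {ε : ℝ} (hε : 0 < ε) : ∃ η : ℝ, 0 < η ∧ η ≤ 1 ∧
    ∀ a ∈ P.exU η, ∀ b ∈ P.exU η, dist a b ≤ ε := by
  have h1 : ∀ᶠ z : ℂ in 𝓝 0, dist (ist z : Sph ℂ) (ist 0) < ε / 2 := by
    have := (exc_ist_continuous (V := ℂ)).tendsto 0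
    exact this.eventually (Metric.ball_mem_nhds _ (half_pos hε))
  have h2 : ∀ᶠ v : P.V in 𝓝 0, dist (ist v : Sph P.V) (ist 0) < ε / 2 := by
    have := (exc_ist_continuous (V := P.V)).tendsto 0
    exact this.eventually (Metric.ball_mem_nhds _ (half_pos hε))
  obtain ⟨δ1, hδ1, h1⟩ := Metric.eventually_nhds_iff.mp h1
  obtain ⟨δ2, hδ2, h2⟩ := Metric.eventually_nhds_iff.mp h2
  refine ⟨min 1 (min δ1 δ2), by (clear * - hδ1 hδ2; positivity), min_le_left _ _, ?_⟩
  rintro a ⟨z, v, hz, hv, rfl⟩ b ⟨z', v', hz', hv', rfl⟩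
  have m1 : min 1 (min δ1 δ2) ≤ δ1 := (min_le_right _ _).trans (min_le_left _ _)
  have m2 : min 1 (min δ1 δ2) ≤ δ2 := (min_le_right _ _).trans (min_le_right _ _)
  rw [Prod.dist_eq]
  apply max_le
  · have a1 := @h1 z (by rw [dist_zero_right]; linarith only [hz, m1])
    have a2 := @h1 z' (by rw [dist_zero_right]; linarith only [hz', m1])
    have := dist_triangle_right (ist z : Sph ℂ) (ist z') (ist 0)
    change dist (ist z : Sph ℂ) (ist z') ≤ ε
    linarith only [a1, a2, this]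
  · have a1 := @h2 v (by rw [dist_zero_right]; linarith only [hv, m2])
    have a2 := @h2 v' (by rw [dist_zero_right]; linarith only [hv', m2])
    have := dist_triangle_right (ist v : Sph P.V) (ist v') (ist 0)
    change dist (ist v : Sph P.V) (ist v') ≤ ε
    linarith only [a1, a2, this]

theorem exc_sta_mem {η : ℝ} (hη : η ≤ 1) {Y : P.V} (h : ‖Y‖ < η) : P.sta Y ∈ P.exU η := by
  have h0 := P.exc_coord_le Y 0
  refine ⟨Y 0, P.hat Y, by linarith only [h, h0], (P.exc_hat_norm_le Y).trans_lt h, ?_⟩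
  unfold sta
  rw [exc_E2_eq_ist (by linarith)]

/-- the captured orbit -/
noncomputable def exA (ζ : Circle) (b : ℝ) : ℕ → ℝ
  | 0 => b
  | n + 1 => P.Gam (P.ω ^ n * ζ) (exA ζ b n)

theorem exA_pos (H : P.ExcHyp) (ζ : Circle) {b : ℝ} (hb : 0 < b) (n : ℕ) : 0 < P.exA ζ b n := by
  induction n with
  | zero => exact hb
  | succ n ih => exact H.Gam_pos _ _ ih

theorem exc_captured (H : P.ExcHyp) (ζ : Circle) {b : ℝ} (hb : 0 < b) {u : ℂ} (hu : ‖u‖ = 1)
    (n : ℕ) :
    (P.fM^[n] (ζ, P.sta (P.e ζ b u))).2 = (nor, sou) ∨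
    (P.fM^[n] (ζ, P.sta (P.e ζ b u))).2 =
      P.sta (P.e (P.ω ^ n * ζ) (P.exA ζ b n) (u ^ 2 ^ n)) := by
  induction n with
  | zero => right; simp only [Function.iterate_zero, id_eq, pow_zero, one_mul, exA, pow_one]
  | succ n ih =>
    rcases ih with ih | ih
    · left
      exact P.exc_inf _ ih 1
    · rw [P.exc_fM_snd, ih]
      have hpos := P.exA_pos H ζ hb n
      have hu2 : ‖u ^ 2 ^ n‖ = 1 := by rw [norm_pow, hu, one_pow]
      rcases P.exc_step (P.ω ^ n * ζ) (P.e (P.ω ^ n * ζ) (P.exA ζ b n) (u ^ 2 ^ n)) with h | h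
      · left; exact h
      · right
        change P.fib (P.ω ^ n * ζ) _ _ = _
        rw [h.2, H.F_inv _ _ hpos _ hu2, ← mul_assoc, ← pow_succ', ← pow_mul, ← pow_succ]
        rfl

/-- after the scale has reached `1` the orbit is at `(nor, sou)` -/
theorem exc_captured_big (H : P.ExcHyp) (ζ : Circle) {b : ℝ} (hb : 0 < b) {u : ℂ} (hu : ‖u‖ = 1)
    (n : ℕ) (h : 1 ≤ P.exA ζ b n) (k : ℕ) :
    (P.fM^[n + 1 + k] (ζ, P.sta (P.e ζ b u))).2 = (nor, sou) := by
  apply P.exc_inf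
  rcases P.exc_captured H ζ hb hu n with h1 | h1
  · exact P.exc_inf _ h1 1
  · rw [P.exc_fM_snd, h1]
    have hu2 : ‖u ^ 2 ^ n‖ = 1 := by rw [norm_pow, hu, one_pow]
    rcases P.exc_step (P.ω ^ n * ζ) (P.e (P.ω ^ n * ζ) (P.exA ζ b n) (u ^ 2 ^ n)) with h2 | h2
    · exact h2
    · have := H.e_big (P.ω ^ n * ζ) _ h _ hu2
      linarith only [h2, this]

theorem exc_captured_times (H : P.ExcHyp) {η : ℝ} (hη : 0 < η) (hη1 : η ≤ 1) :
    ∃ T : ℕ, ∀ (ζ : Circle) (b : ℝ) (u : ℂ), 0 < b → ‖u‖ = 1 → ∃ E : Finset ℕ, E.card ≤ T ∧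
      ∀ j, j ∉ E → (P.fM^[j] (ζ, P.sta (P.e ζ b u))).2 ∈ P.exU η ∨
        (P.fM^[j] (ζ, P.sta (P.e ζ b u))).2 = (nor, sou) := by
  obtain ⟨T, hT⟩ := H.escape (η / 2) (half_pos hη)
  refine ⟨T + 1, fun ζ b u hb hu => ?_⟩
  have key : ∀ j, P.exA ζ b j < η / 2 →
      (P.fM^[j] (ζ, P.sta (P.e ζ b u))).2 ∈ P.exU η ∨
        (P.fM^[j] (ζ, P.sta (P.e ζ b u))).2 = (nor, sou) := by
    intro j hj
    rcases P.exc_captured H ζ hb hu j with h | h
    · right; exact h
    · left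
      rw [h]
      apply P.exc_sta_mem hη1
      have hu2 : ‖u ^ 2 ^ j‖ = 1 := by rw [norm_pow, hu, one_pow]
      have := H.e_norm_le (P.ω ^ j * ζ) _ (P.exA_pos H ζ hb j) _ hu2
      linarith only [hj, this]
  by_cases hex : ∃ i, η / 2 ≤ P.exA ζ b i
  · classical
    let i := Nat.find hex
    have hi : η / 2 ≤ P.exA ζ b i := Nat.find_spec hex
    have hmin : ∀ j < i, P.exA ζ b j < η / 2 := fun j hj => not_le.mp (Nat.find_min hex hj)
    obtain ⟨k, hk, h1⟩ := hT (P.ω ^ i * ζ) (fun j => P.exA ζ b (i + j)) (by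
      intro j
      change P.exA ζ b (i + j + 1) = _
      rw [← mul_assoc, ← pow_add, add_comm j i]
      rfl) hi
    refine ⟨Finset.Icc i (i + T), by simp only [Nat.card_Icc, tsub_le_iff_right, Order.add_one_le_iff]; omega, ?_⟩
    intro j hj
    rcases lt_or_ge j i with hji | hji
    · exact key j (hmin j hji)
    · right
      have hj2 : i + T < j := by
        by_contra hcon
        exact hj (Finset.mem_Icc.mpr ⟨hji, not_lt.mp hcon⟩)
      obtain ⟨m, rfl⟩ : ∃ m, j = i + k + 1 + m := ⟨j - (i + k + 1), by omega⟩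
      exact P.exc_captured_big H ζ hb hu (i + k) h1 m
  · push Not at hex
    exact ⟨∅, by simp only [Finset.card_empty, le_add_iff_nonneg_left, zero_le], fun j _ => key j (hex j)⟩

theorem fM_exceptional_of (H : P.ExcHyp) {ε : ℝ} (hε : 0 < ε) :
    ∃ T : ℕ, ∃ U : Set (Sph ℂ × Sph P.V), (∀ a ∈ U, ∀ b ∈ U, dist a b ≤ ε) ∧
      ∀ (y : Circle × (Sph ℂ × Sph P.V)) (n : ℕ), ∃ E : Finset ℕ, E.card ≤ T ∧
        ∀ j < n, j ∉ E → (P.fM^[j] y).2 ∈ U ∨ (P.fM^[j] y).2 = (nor, sou) := by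
  obtain ⟨η, hη, hη1, hU⟩ := P.exc_U_small hε
  obtain ⟨C, hC, hF, hW, hFn⟩ := H.C
  obtain ⟨T1, hT1⟩ := H.small (2 * C) η hη
  obtain ⟨T2, hT2⟩ := P.exc_captured_times H hη hη1
  refine ⟨(T1 + 1) + T2, P.exU η, hU, fun y n => ?_⟩
  -- local coordinate of the next point
  let Y : ℕ → P.V := fun j => P.G (P.ω ^ j * y.1) (P.fM^[j] y).2.1 (P.fM^[j] y).2.2
  have hY : ∀ j, (P.fM^[j + 1] y).2 = (nor, sou) ∨ (P.fM^[j + 1] y).2 = P.sta (Y j) := by
    intro j
    rw [P.exc_fM_snd]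
    by_cases h : ht (P.fM^[j] y).2.1 < -(3 / 4)
    · right; exact P.exc_fib_in _ _ _ h
    · left; exact P.exc_fib_out _ _ _ h
  have hcap : ∀ j, (∃ b : ℝ, 0 < b ∧ ∃ u : ℂ, ‖u‖ = 1 ∧ Y j = P.e (P.ω ^ (j + 1) * y.1) b u) ∨
      ‖Y j‖ ≤ C * P.A (P.ω ^ j * y.1) := by
    intro j
    change (∃ b : ℝ, 0 < b ∧ ∃ u : ℂ, ‖u‖ = 1 ∧ P.G _ _ _ = _) ∨ ‖P.G _ _ _‖ ≤ _
    rw [pow_succ', mul_assoc]
    unfold G
    split_ifs
    · exact hW _ _
    · exact hF _ _ _
  have hnext : ∀ j, (P.fM^[j + 1] y).2 = P.sta (Y j) →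
      (P.fM^[j + 2] y).2 = (nor, sou) ∨ ‖Y (j + 1)‖ ≤ 2 * C * ‖Y j‖ := by
    intro j hj
    rw [P.exc_fM_snd, hj]
    by_cases h : ht (P.sta (Y j)).1 < -(3 / 4)
    · right
      have h1 : ‖Y j 0‖ < 1 / 2 := exc_norm_lt_of_ht h
      change ‖P.G _ (P.fM^[j + 1] y).2.1 (P.fM^[j + 1] y).2.2‖ ≤ _
      rw [hj, P.exc_G_sta _ (by linarith only [h1])]
      refine (hFn _ _ _).trans ?_
      have a1 := P.exc_coord_le (Y j) 0
      have a2 := P.exc_hat_norm_le (Y j)
      nlinarith only [hC, a1, a2]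
    · left; exact P.exc_fib_out _ _ _ h
  -- the first time of capture
  let Q : ℕ → Prop := fun m => (P.fM^[m + 1] y).2 = (nor, sou) ∨
    ∃ b : ℝ, 0 < b ∧ ∃ u : ℂ, ‖u‖ = 1 ∧ (P.fM^[m + 1] y).2 = P.sta (P.e (P.ω ^ (m + 1) * y.1) b u)
  have hpre : ∀ m, (∀ i < m, ¬ Q i) → T1 + 1 ≤ m → (P.fM^[m] y).2 ∈ P.exU η := by
    intro m hm hTm
    obtain ⟨k, rfl⟩ : ∃ k, m = k + 1 := ⟨m - 1, by omega⟩
    have hsta : ∀ i ≤ k, (P.fM^[i + 1] y).2 = P.sta (Y i) := by
      intro i hi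
      rcases hY i with h | h
      · exact absurd (Or.inl h) (hm i (by omega))
      · exact h
    have hsm : ∀ i ≤ k, ‖Y i‖ ≤ C * P.A (P.ω ^ i * y.1) := by
      intro i hi
      rcases hcap i with ⟨b, hb, u, hu, h⟩ | h
      · refine absurd (Or.inr ⟨b, hb, u, hu, ?_⟩) (hm i (by omega))
        rw [← h]
        exact hsta i hi
      · exact h
    have hA : ∀ i, 0 ≤ P.A (P.ω ^ i * y.1) := fun i => expNegInvGlue.nonneg _
    have hlt := hT1 y.1 (fun j => Nat.casesOn j 0 (fun i => ‖Y i‖)) (k + 1)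
      (by
        intro j
        cases j with
        | zero => exact le_refl _
        | succ j => exact norm_nonneg _)
      (by
        intro j hj
        have := hsm j (by omega)
        change ‖Y j‖ ≤ _
        have h2 := hA j
        nlinarith only [this, hC, h2])
      (by
        intro j h1 hj
        obtain ⟨i, rfl⟩ : ∃ i, j = i + 1 := ⟨j - 1, by omega⟩
        change ‖Y (i + 1)‖ ≤ 2 * C * ‖Y i‖
        rcases hnext i (hsta i (by omega)) with h | h
        · exact absurd (Or.inl h) (hm (i + 1) (by omega))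
        · exact h)
      (by omega)
    rw [hsta k le_rfl]
    exact P.exc_sta_mem hη1 hlt
  by_cases hex : ∃ m, Q m
  · classical
    let m := Nat.find hex
    have hm : Q m := Nat.find_spec hex
    have hmin : ∀ j < m, ¬ Q j := fun j hj => Nat.find_min hex hj
    rcases hm with hm | ⟨b, hb, u, hu, hm⟩
    · refine ⟨Finset.range (T1 + 1), by simp only [Finset.card_range, le_add_iff_nonneg_right, zero_le], ?_⟩
      intro j _ hj
      rw [Finset.mem_range, not_lt] at hj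
      rcases le_or_gt j m with hjm | hjm
      · left
        exact hpre j (fun i hi => hmin i (by omega)) hj
      · right
        obtain ⟨k, rfl⟩ : ∃ k, j = m + 1 + k := ⟨j - (m + 1), by omega⟩
        exact P.exc_inf y hm k
    · obtain ⟨E, hE, hE2⟩ := hT2 (P.ω ^ (m + 1) * y.1) b u hb hu
      refine ⟨Finset.range (T1 + 1) ∪ E.image (fun i => m + 1 + i), ?_, ?_⟩
      · refine (Finset.card_union_le _ _).trans ?_
        rw [Finset.card_range]
        have := Finset.card_image_le (s := E) (f := fun i => m + 1 + i)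
        omega
      · intro j _ hj
        rw [Finset.mem_union, not_or, Finset.mem_range, not_lt] at hj
        rcases le_or_gt j m with hjm | hjm
        · left
          exact hpre j (fun i hi => hmin i (by omega)) hj.1
        · obtain ⟨k, rfl⟩ : ∃ k, j = m + 1 + k := ⟨j - (m + 1), by omega⟩
          have hk : k ∉ E := fun hk => hj.2 (Finset.mem_image.mpr ⟨k, hk, rfl⟩)
          have := hE2 k hk
          have heq : P.fM^[m + 1 + k] y =
              P.fM^[k] (P.ω ^ (m + 1) * y.1, P.sta (P.e (P.ω ^ (m + 1) * y.1) b u)) := by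
            rw [add_comm (m + 1) k, Function.iterate_add_apply]
            congr 1
            exact Prod.ext (P.exc_fM_fst y (m + 1)) hm
          rw [heq]
          exact this
  · push Not at hex
    refine ⟨Finset.range (T1 + 1), by simp only [Finset.card_range, le_add_iff_nonneg_right, zero_le], ?_⟩
    intro j _ hj
    rw [Finset.mem_range, not_lt] at hj
    left
    exact hpre j (fun i _ => hex i) hj

end Par

end Vale.Agent.P103
end
end

section

section

/-!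
# P103: an abstract criterion for zero topological entropy
-/

namespace Vale.Agent.P103

open Filter Topology

theorem tendsto_log_poly_div (C D : ℕ) (hC : 1 ≤ C) :
    Tendsto (fun n : ℕ => Real.log ((C : ℝ) * ((n : ℝ) + 1) ^ D) / (n : ℝ)) atTop (𝓝 0) := by
  have h1 : Tendsto (fun n : ℕ => Real.log ((n : ℝ) + 1) / (n : ℝ)) atTop (𝓝 0) := by
    have h := (Real.tendsto_pow_log_div_mul_add_atTop 1 (-1) 1 one_ne_zero).comp
      ((tendsto_natCast_atTop_atTop (R := ℝ)).atTop_add (tendsto_const_nhds (x := (1 : ℝ))))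
    refine h.congr fun n => ?_
    simp only [Function.comp, pow_one, one_mul, add_neg_cancel_right]
  have h2 : Tendsto (fun n : ℕ => Real.log (C : ℝ) / (n : ℝ)) atTop (𝓝 0) :=
    tendsto_const_div_atTop_nhds_zero_nat _
  have h3 := h2.add (h1.const_mul (D : ℝ))
  simp only [mul_zero, add_zero] at h3
  refine h3.congr fun n => ?_
  have hCr : (C : ℝ) ≠ 0 := by
    have : (1 : ℝ) ≤ C := by exact_mod_cast hC
    positivity
  have hn : ((n : ℝ) + 1) ≠ 0 := by (clear * -; positivity)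
  rw [Real.log_mul hCr (pow_ne_zero _ hn), Real.log_pow]
  ring

/-- Polynomial growth of separated sets gives zero entropy. -/
theorem isTopEntropy_zero_of_poly {M : Type} [MetricSpace M] [Nonempty M] (f : M → M)
    (h : ∀ ε : ℝ, 0 < ε → ∃ C D : ℕ, ∀ (n : ℕ) (E : Finset M),
      (∀ x ∈ E, ∀ y ∈ E, x ≠ y → ε < dn f n x y) → E.card ≤ C * (n + 1) ^ D) :
    IsTopEntropy f 0 := by
  have key : ∀ ε : ℝ, 0 < ε → limsup (fun n : ℕ =>
      ENNReal.log (sepCard f n ε : ENNReal) / (n : EReal)) atTop = 0 := by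
    intro ε hε
    obtain ⟨C, D, hCD⟩ := h ε hε
    have hup : ∀ n : ℕ, ENNReal.log (sepCard f n ε : ENNReal) ≤
        ((Real.log (((C + 1 : ℕ) : ℝ) * ((n : ℝ) + 1) ^ D) : ℝ) : EReal) := by
      intro n
      have h1 : sepCard f n ε ≤ (((C + 1) * (n + 1) ^ D : ℕ) : ℕ∞) := by
        unfold sepCard
        refine iSup₂_le fun E hE => ?_
        have := hCD n E hE
        have h2 : E.card ≤ (C + 1) * (n + 1) ^ D :=
          this.trans (Nat.mul_le_mul_right _ (Nat.le_succ C))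
        exact_mod_cast h2
      have h2 : (sepCard f n ε : ENNReal) ≤
          ENNReal.ofReal (((C + 1 : ℕ) : ℝ) * ((n : ℝ) + 1) ^ D) := by
        have h3 : ENNReal.ofReal (((C + 1 : ℕ) : ℝ) * ((n : ℝ) + 1) ^ D)
            = (((C + 1) * (n + 1) ^ D : ℕ) : ENNReal) := by
          rw [← ENNReal.ofReal_natCast]
          congr 1
          push_cast
          ring
        rw [h3]
        calc ((sepCard f n ε : ℕ∞) : ENNReal)
            ≤ ((((C + 1) * (n + 1) ^ D : ℕ) : ℕ∞) : ENNReal) := by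
              exact ENat.toENNReal_le.mpr h1
          _ = _ := by simp only [Nat.cast_mul, Nat.cast_add, Nat.cast_one, Nat.cast_pow, ENat.toENNReal_mul, ENat.toENNReal_add, ENat.toENNReal_coe, ENat.toENNReal_one, ENat.toENNReal_pow]
      have hpos : 0 < ((C + 1 : ℕ) : ℝ) * ((n : ℝ) + 1) ^ D := by positivity
      rw [← ENNReal.log_ofReal_of_pos hpos]
      exact ENNReal.log_le_log h2
    have hlow : ∀ n : ℕ, 0 ≤ ENNReal.log (sepCard f n ε : ENNReal) := by
      intro n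
      rw [ENNReal.zero_le_log_iff]
      have h1 : (1 : ℕ∞) ≤ sepCard f n ε := by
        obtain ⟨x⟩ := ‹Nonempty M›
        unfold sepCard
        refine le_iSup₂_of_le ({x} : Finset M) ?_ ?_
        · intro a ha b hb hab
          rw [Finset.mem_singleton] at ha hb
          exact absurd (ha.trans hb.symm) hab
        · simp
      have h2 := ENat.toENNReal_le.mpr h1
      simpa only [ge_iff_le, ENat.toENNReal_one] using h2
    have hreal := tendsto_log_poly_div (C + 1) D (by omega)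
    have hE : Tendsto (fun n : ℕ =>
        ((Real.log (((C + 1 : ℕ) : ℝ) * ((n : ℝ) + 1) ^ D) / (n : ℝ) : ℝ) : EReal))
        atTop (𝓝 ((0 : ℝ) : EReal)) :=
      (continuous_coe_real_ereal.tendsto _).comp hreal
    have hT : Tendsto (fun n : ℕ => ENNReal.log (sepCard f n ε : ENNReal) / (n : EReal))
        atTop (𝓝 0) := by
      refine tendsto_of_tendsto_of_tendsto_of_le_of_le' tendsto_const_nhds
        (by simpa only [Nat.cast_add, Nat.cast_one, EReal.coe_zero] using hE) ?_ ?_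
      · filter_upwards with n
        exact EReal.div_nonneg (hlow n) (by exact_mod_cast (Nat.zero_le n))
      · filter_upwards [eventually_gt_atTop 0] with n hn
        have h1 := EReal.monotone_div_right_of_nonneg
          (b := (n : EReal)) (by exact_mod_cast (Nat.zero_le n)) (hup n)
        refine h1.trans (le_of_eq ?_)
        simp only
        rw [EReal.coe_div]
        simp only [Nat.cast_add, Nat.cast_one, EReal.coe_natCast]
    exact hT.limsup_eq
  unfold IsTopEntropy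
  refine tendsto_const_nhds.congr' ?_
  filter_upwards [self_mem_nhdsWithin] with ε hε
  exact (key ε hε).symm

/-- Coding lemma: for a skew product over an isometry of a compact space, with compact fibre, if
every orbit is, up to a uniformly bounded number of times, in a small set `U` or equal to the fixed
point `zinf`, then separated sets grow polynomially. -/
theorem poly_of_visits {Y Z : Type} [MetricSpace Y] [CompactSpace Y]
    [MetricSpace Z] [CompactSpace Z]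
    (g : Y → Y) (hg : Isometry g) (f : Y × Z → Y × Z) (hf : ∀ x, (f x).1 = g x.1) (q : Z)
    (hq : ∀ x : Y × Z, x.2 = q → (f x).2 = q) (ε : ℝ) (hε : 0 < ε) (T : ℕ) (U : Set Z)
    (hU : ∀ a ∈ U, ∀ b ∈ U, dist a b ≤ ε)
    (hT : ∀ (x : Y × Z) (B : Finset ℕ),
      (∀ j ∈ B, (f^[j] x).2 ∉ U ∧ (f^[j] x).2 ≠ q) → B.card ≤ T) :
    ∃ C D : ℕ, ∀ (n : ℕ) (E : Finset (Y × Z)),
      (∀ x ∈ E, ∀ y ∈ E, x ≠ y → ε < dn f n x y) → E.card ≤ C * (n + 1) ^ D := by
  classical
  obtain ⟨tY, -, htYfin, htY⟩ := finite_cover_balls_of_compact (isCompact_univ (X := Z))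
    (half_pos hε)
  obtain ⟨tC, -, htCfin, htC⟩ := finite_cover_balls_of_compact (isCompact_univ (X := Y))
    (half_pos hε)
  have hcy : ∀ y : Z, ∃ i : tY, dist y i < ε / 2 := by
    intro y
    have := htY (Set.mem_univ y)
    simp only [Set.mem_iUnion, Metric.mem_ball, exists_prop] at this
    obtain ⟨i, hi, h⟩ := this
    exact ⟨⟨i, hi⟩, h⟩
  have hcz : ∀ y : Y, ∃ i : tC, dist y i < ε / 2 := by
    intro y
    have := htC (Set.mem_univ y)
    simp only [Set.mem_iUnion, Metric.mem_ball, exists_prop] at this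
    obtain ⟨i, hi, h⟩ := this
    exact ⟨⟨i, hi⟩, h⟩
  choose cy hcy using hcy
  choose cz hcz using hcz
  haveI : Fintype tY := htYfin.fintype
  haveI : Fintype tC := htCfin.fintype
  set N := Fintype.card tY with hN
  set N0 := Fintype.card tC with hN0
  refine ⟨N0 * (N + 1) ^ T, T + 1, fun n E hE => ?_⟩
  -- first coordinate of orbits
  have hfst : ∀ (j : ℕ) (x : Y × Z), (f^[j] x).1 = g^[j] x.1 := by
    intro j
    induction j with
    | zero => intro x; simp
    | succ j ih =>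
      intro x
      rw [Function.iterate_succ_apply', hf, ih, Function.iterate_succ_apply']
  have hgi : ∀ (j : ℕ) (a b : Y), dist (g^[j] a) (g^[j] b) = dist a b := by
    intro j
    induction j with
    | zero => intro a b; rfl
    | succ j ih =>
      intro a b
      rw [Function.iterate_succ_apply', Function.iterate_succ_apply', hg.dist_eq, ih]
  have hqs : ∀ (x : Y × Z) (i : ℕ), (f^[i] x).2 = q → ∀ j, i ≤ j → (f^[j] x).2 = q := by
    intro x i hi j hij
    induction j, hij using Nat.le_induction with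
    | base => exact hi
    | succ j _ ih => rw [Function.iterate_succ_apply']; exact hq _ ih
  -- escape time
  have hex : ∀ x : Y × Z, ∃ j, j = n ∨ (f^[j] x).2 = q := fun x => ⟨n, Or.inl rfl⟩
  set τ : Y × Z → ℕ := fun x => Nat.find (hex x) with hτ
  have hτn : ∀ x, τ x < n + 1 := fun x =>
    Nat.lt_succ_of_le (Nat.find_min' (hex x) (Or.inl rfl))
  have hτq : ∀ (x : Y × Z) (j : ℕ), j < n → ((f^[j] x).2 = q ↔ τ x ≤ j) := by
    intro x j hj
    constructor
    · intro h; exact Nat.find_min' (hex x) (Or.inr h)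
    · intro h
      have hspec := Nat.find_spec (hex x)
      rcases hspec with h1 | h1
      · exfalso
        have : τ x = n := h1
        omega
      · exact hqs x _ h1 j h
  -- bad set
  set bad : Y × Z → Fin n → Prop := fun x j =>
    (f^[j] x).2 ∉ U ∧ (f^[j] x).2 ≠ q with hbad
  set B : Y × Z → Finset (Fin n × tY) := fun x =>
    (Finset.univ.filter (bad x)).image (fun j => (j, cy (f^[j] x).2)) with hB
  have hBcard : ∀ x, (B x).card ≤ T := by
    intro x
    refine Finset.card_image_le.trans ?_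
    have h1 : ((Finset.univ.filter (bad x)).map Fin.valEmbedding).card ≤ T := by
      apply hT x
      intro j hj
      rw [Finset.mem_map] at hj
      obtain ⟨i, hi, rfl⟩ := hj
      exact (Finset.mem_filter.mp hi).2
    rwa [Finset.card_map] at h1
  -- list coding of the bad set
  set φ : Y × Z → Fin T → Option (Fin n × tY) := fun x i => (B x).toList[(i : ℕ)]? with hφ
  have hφB : ∀ x y, φ x = φ y → B x ⊆ B y := by
    intro x y hxy b hb
    have hb' : b ∈ (B x).toList := Finset.mem_toList.mpr hb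
    obtain ⟨i, hi, hib⟩ := List.getElem_of_mem hb'
    have hiT : i < T := lt_of_lt_of_le hi (by rw [Finset.length_toList]; exact hBcard x)
    have h1 : φ x ⟨i, hiT⟩ = some b := by
      simp only [hφ]
      rw [List.getElem?_eq_getElem hi, hib]
    rw [hxy] at h1
    simp only [hφ] at h1
    have h2 := List.mem_of_getElem? h1
    exact Finset.mem_toList.mp h2
  -- the code
  set code : Y × Z → tC × (Fin (n + 1) × (Fin T → Option (Fin n × tY))) := fun x =>
    (cz x.1, (⟨τ x, hτn x⟩, φ x)) with hcode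
  have hinj : ∀ x ∈ E, ∀ y ∈ E, code x = code y → x = y := by
    intro x hx y hy hxy
    by_contra hne
    have hlt := hE x hx y hy hne
    have hle : dn f n x y ≤ ε := by
      unfold dn
      refine Real.iSup_le (fun j => ?_) hε.le
      have hc1 : cz x.1 = cz y.1 := congrArg Prod.fst hxy
      have hc2 : τ x = τ y := by
        have := congrArg (fun c => (c.2.1 : ℕ)) hxy
        exact this
      have hc3 : φ x = φ y := congrArg (fun c => c.2.2) hxy
      rw [Prod.dist_eq]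
      apply max_le
      · rw [hfst, hfst]
        have h1 : dist (g^[j] x.1) (g^[j] y.1) = dist x.1 y.1 := hgi j x.1 y.1
        rw [h1]
        have h2 := hcz x.1
        have h3 := hcz y.1
        rw [hc1] at h2
        have := dist_triangle_right x.1 y.1 (cz y.1)
        linarith only [h2, h3, this]
      · by_cases hq1 : τ x ≤ j
        · have h1 := (hτq x j j.2).mpr hq1
          have h2 := (hτq y j j.2).mpr (hc2 ▸ hq1)
          rw [h1, h2, dist_self]
          exact hε.le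
        · have h1 : (f^[j] x).2 ≠ q := fun h => hq1 ((hτq x j j.2).mp h)
          have h2 : (f^[j] y).2 ≠ q := fun h => hq1 (hc2 ▸ (hτq y j j.2).mp h)
          have hstep : ∀ a b : Y × Z, φ a = φ b → bad a j →
              bad b j ∧ cy (f^[j] a).2 = cy (f^[j] b).2 := by
            intro a b hab hba
            have hmem : ((j, cy (f^[j] a).2) : Fin n × tY) ∈ B a := by
              rw [hB]
              exact Finset.mem_image.mpr ⟨j, Finset.mem_filter.mpr ⟨Finset.mem_univ _, hba⟩, rfl⟩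
            have hmem2 := hφB a b hab hmem
            rw [hB] at hmem2
            obtain ⟨i, hi, hi2⟩ := Finset.mem_image.mp hmem2
            have hij : i = j := congrArg Prod.fst hi2
            subst hij
            exact ⟨(Finset.mem_filter.mp hi).2, (congrArg Prod.snd hi2).symm⟩
          by_cases hb : bad x j
          · obtain ⟨hb2, hcc⟩ := hstep x y hc3 hb
            have h3 := hcy (f^[j] x).2
            have h4 := hcy (f^[j] y).2
            rw [hcc] at h3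
            have := dist_triangle_right (f^[j] x).2 (f^[j] y).2 (cy (f^[j] y).2)
            linarith only [h3, h4, this]
          · have hb2 : ¬ bad y j := fun h => hb (hstep y x hc3.symm h).1
            have h3 : (f^[j] x).2 ∈ U := by
              by_contra h
              exact hb ⟨h, h1⟩
            have h4 : (f^[j] y).2 ∈ U := by
              by_contra h
              exact hb2 ⟨h, h2⟩
            exact hU _ h3 _ h4
    exact absurd hlt (not_lt.mpr hle)
  have hcard : E.card ≤ Fintype.card (tC × (Fin (n + 1) × (Fin T → Option (Fin n × tY)))) := by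
    rw [← Finset.card_univ]
    exact Finset.card_le_card_of_injOn code (fun x _ => Finset.mem_coe.mpr (Finset.mem_univ _))
      (fun x hx y hy h => hinj x hx y hy h)
  refine hcard.trans ?_
  rw [Fintype.card_prod, Fintype.card_prod, Fintype.card_fun, Fintype.card_option,
    Fintype.card_prod, Fintype.card_fin, Fintype.card_fin, Fintype.card_fin, ← hN, ← hN0]
  have h1 : n * N + 1 ≤ (N + 1) * (n + 1) := by nlinarith only []
  calc N0 * ((n + 1) * (n * N + 1) ^ T)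
      ≤ N0 * ((n + 1) * ((N + 1) * (n + 1)) ^ T) := by (clear * - h1; gcongr)
    _ = N0 * (N + 1) ^ T * (n + 1) ^ (T + 1) := by rw [mul_pow]; ring

/-- The zero entropy criterion. -/
theorem isTopEntropy_zero {Y Z : Type} [MetricSpace Y] [CompactSpace Y] [Nonempty Y]
    [MetricSpace Z] [CompactSpace Z]
    (g : Y → Y) (hg : Isometry g) (φ : Y → Z → Z) (zinf : Z) (hinf : ∀ y, φ y zinf = zinf)
    (f : Y × Z → Y × Z) (hf : ∀ p, f p = (g p.1, φ p.1 p.2))
    (H : ∀ ε : ℝ, 0 < ε → ∃ T : ℕ, ∃ U : Set Z, (∀ a ∈ U, ∀ b ∈ U, dist a b ≤ ε) ∧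
      ∀ (p : Y × Z) (n : ℕ), ∃ E : Finset ℕ, E.card ≤ T ∧
        ∀ j < n, j ∉ E → (f^[j] p).2 ∈ U ∨ (f^[j] p).2 = zinf) :
    IsTopEntropy f 0 := by
  have : Nonempty (Y × Z) := ⟨(Classical.arbitrary Y, zinf)⟩
  refine isTopEntropy_zero_of_poly f fun ε hε => ?_
  obtain ⟨T, U, hU, hT⟩ := H ε hε
  refine poly_of_visits g hg f (fun x => by rw [hf]) zinf (fun x hx => ?_) ε hε T U hU ?_
  · rw [hf]
    change φ x.1 x.2 = zinf
    rw [hx, hinf]
  · intro x B hB
    obtain ⟨E, hE, hE2⟩ := hT x (B.sup id + 1)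
    refine (Finset.card_le_card fun j hj => ?_).trans hE
    by_contra hjE
    have hjn : j < B.sup id + 1 := Nat.lt_succ_of_le (Finset.le_sup (f := id) hj)
    rcases hE2 j hjn hjE with h | h
    · exact (hB j hj).1 h
    · exact (hB j hj).2 h

end Vale.Agent.P103
end
end

section

section

namespace Vale.Agent.P103

theorem isometry_rot (ω : Circle) : Isometry (fun ζ : Circle => ω * ζ) := by
  apply Isometry.of_dist_eq
  intro x y
  change dist ((ω * x : Circle) : ℂ) ((ω * y : Circle) : ℂ) = dist (x : ℂ) (y : ℂ)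
  rw [dist_eq_norm, dist_eq_norm, Circle.coe_mul, Circle.coe_mul,
    ← mul_sub, norm_mul, Circle.norm_coe, one_mul]

theorem Par.fib_nor (P : Par) (ζ : Circle) (w : Sph P.V) : P.fib ζ nor w = (nor, sou) := by
  unfold Par.fib
  rw [if_neg]
  rw [show ht (nor : Sph ℂ) = 1 from rfl]
  norm_num

theorem not_log_two : ¬ (ENNReal.log 2 ≤ 0) := by
  rw [not_le]
  rw [← ENNReal.log_one]
  exact ENNReal.log_strictMono (by norm_num)

end Vale.Agent.P103
end
end
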