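import Vale.Agent.P103.MathlibUsed
import Vale.Agent.P103.Bdl.B1
import Vale.Agent.P103.Statement

set_option linter.all false

section

section

open scoped ComplexConjugate

namespace P103
namespace Hlg

noncomputable section

/-! ### variation of the argument -/

lemma isArg_unique {K : Type*} [TopologicalSpace K] [PreconnectedSpace K] {g : K → ℂ}
    {θ θ' : C(K, ℝ)} (h : IsArg g θ) (h' : IsArg g θ') (a b : K) :
    θ b - θ a = θ' b - θ' a := by
  have h1 : ∀ t, ∃ n : ℤ, θ t - θ' t = n * (2 * Real.pi) := by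
    intro t
    have h2 : Complex.exp (θ t * Complex.I) = Complex.exp (θ' t * Complex.I) := by
      rw [← h t, ← h' t]
    rw [Complex.exp_eq_exp_iff_exists_int] at h2
    obtain ⟨n, hn⟩ := h2
    refine ⟨n, ?_⟩
    have h3 : ((θ t : ℂ) - θ' t - n * (2 * Real.pi)) * Complex.I = 0 := by
      linear_combination hn
    have h4 : ((θ t : ℂ) - θ' t - n * (2 * Real.pi)) = 0 :=
      (mul_eq_zero.1 h3).resolve_right Complex.I_ne_zero
    have h5 : ((θ t - θ' t - n * (2 * Real.pi) : ℝ) : ℂ) = 0 := by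
      push_cast; exact h4
    have h6 := Complex.ofReal_eq_zero.1 h5
    linarith only [h6]
  have hcon : ∀ s t, θ s - θ' s = θ t - θ' t := by
    -- connectedness
    have hd : Continuous fun t => (θ t - θ' t) / (2 * Real.pi) := by (clear * -; fun_prop)
    have himg : ∀ t, (θ t - θ' t) / (2 * Real.pi) ∈ Set.range ((↑) : ℤ → ℝ) := by
      intro t
      obtain ⟨n, hn⟩ := h1 t
      refine ⟨n, ?_⟩
      rw [hn]
      have : (2 * Real.pi) ≠ 0 := by positivity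
      (clear * -; field_simp)
    intro s t
    by_contra hne
    have hpre : IsPreconnected (Set.range fun t => (θ t - θ' t) / (2 * Real.pi)) :=
      isPreconnected_range hd
    -- interval argument
    obtain ⟨m, hm⟩ := himg s
    obtain ⟨n, hn⟩ := himg t
    have hpi : (0 : ℝ) < 2 * Real.pi := by positivity
    have hmn : m ≠ n := by
      intro hmn
      apply hne
      have : (θ s - θ' s) / (2 * Real.pi) = (θ t - θ' t) / (2 * Real.pi) := by
        rw [← hm, ← hn, hmn]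
      field_simp at this
      exact this
    have key : ∀ m n : ℤ, m < n → (m : ℝ) ∈ (Set.range fun t => (θ t - θ' t) / (2 * Real.pi)) →
        (n : ℝ) ∈ (Set.range fun t => (θ t - θ' t) / (2 * Real.pi)) → False := by
      intro m n hlt h1m h1n
      have hmem : ((m : ℝ) + 1 / 2) ∈ (Set.range fun t => (θ t - θ' t) / (2 * Real.pi)) := by
        have hle : (m : ℝ) + 1 ≤ n := by exact_mod_cast hlt
        exact hpre.Icc_subset h1m h1n ⟨by linarith only [], by linarith only [hle]⟩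
      obtain ⟨u, hu⟩ := hmem
      obtain ⟨k, hk⟩ := himg u
      have h7 : (k : ℝ) = (m : ℝ) + 1 / 2 := by rw [hk]; exact hu
      have h8 : (2 * k : ℝ) = 2 * m + 1 := by linarith only [hu, hk]
      have h9 : 2 * k = 2 * m + 1 := by exact_mod_cast h8
      omega
    rcases lt_or_gt_of_ne hmn with h10 | h10
    · exact key m n h10 ⟨s, hm.symm⟩ ⟨t, hn.symm⟩
    · exact key n m h10 ⟨t, hn.symm⟩ ⟨s, hm.symm⟩
  have := hcon a b
  linarith only [this]

/-- vertices of the 1-simplex -/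
abbrev v0 : Dl 1 := stdSimplex.vertex 0
abbrev v1 : Dl 1 := stdSimplex.vertex 1

open Classical in
/-- total variation of the argument -/
def var (g : Dl 1 → ℂ) : ℝ :=
  if h : ∃ θ : C(Dl 1, ℝ), IsArg g θ then h.choose v1 - h.choose v0 else 0

lemma var_eq {g : Dl 1 → ℂ} {θ : C(Dl 1, ℝ)} (h : IsArg g θ) : var g = θ v1 - θ v0 := by
  have hex : ∃ θ : C(Dl 1, ℝ), IsArg g θ := ⟨θ, h⟩
  rw [var, dif_pos hex]
  exact isArg_unique hex.choose_spec h _ _

lemma var_mul {g g' : Dl 1 → ℂ} (hg : Continuous g) (hg' : Continuous g')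
    (h1 : ∀ t, ‖g t‖ = 1) (h1' : ∀ t, ‖g' t‖ = 1) :
    var (fun t => g t * g' t) = var g + var g' := by
  obtain ⟨θ, hθ⟩ := exists_isArg g hg h1
  obtain ⟨θ', hθ'⟩ := exists_isArg g' hg' h1'
  have h2 : IsArg (fun t => g t * g' t) (θ + θ') := by
    intro t
    simp only [ContinuousMap.add_apply]
    rw [hθ t, hθ' t, ← Complex.exp_add]
    push_cast; ring_nf
  rw [var_eq h2, var_eq hθ, var_eq hθ']
  simp only [ContinuousMap.add_apply]; ring

/-- face inclusion -/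
def fc (n : ℕ) (i : Fin (n + 2)) : C(Dl n, Dl (n + 1)) :=
  ⟨stdSimplex.map (Fin.succAbove i), stdSimplex.continuous_map _⟩

lemma var_bdry {g : Dl 2 → ℂ} (hg : Continuous g) (h1 : ∀ t, ‖g t‖ = 1) :
    ∑ i : Fin 3, (-1 : ℝ) ^ i.val * var (fun t => g (fc 1 i t)) = 0 := by
  obtain ⟨θ, hθ⟩ := exists_isArg g hg h1
  have h2 : ∀ i : Fin 3, var (fun t => g (fc 1 i t)) =
      θ (stdSimplex.vertex (i.succAbove 1)) - θ (stdSimplex.vertex (i.succAbove 0)) := by
    intro i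
    have h3 : IsArg (fun t => g (fc 1 i t)) (θ.comp (fc 1 i)) := fun t => hθ _
    rw [var_eq h3]
    simp only [Nat.reduceAdd, fc, ContinuousMap.comp_apply, ContinuousMap.coe_mk, stdSimplex.map_vertex, Fin.isValue]
  simp only [h2, Fin.sum_univ_three]
  have e1 : (0 : Fin 3).succAbove (1 : Fin 2) = 2 := by decide
  have e2 : (0 : Fin 3).succAbove (0 : Fin 2) = 1 := by decide
  have e3 : (1 : Fin 3).succAbove (1 : Fin 2) = 2 := by decide
  have e4 : (1 : Fin 3).succAbove (0 : Fin 2) = 0 := by decide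
  have e5 : (2 : Fin 3).succAbove (1 : Fin 2) = 1 := by decide
  have e6 : (2 : Fin 3).succAbove (0 : Fin 2) = 0 := by decide
  rw [e1, e2, e3, e4, e5, e6]
  norm_num

/-! ### ratios of lifts -/

/-- ratio of two points in the same Hopf fibre -/
def rt (p q : S3) : ℂ := conj q.1.1 * p.1.1 + conj q.1.2 * p.1.2

lemma rt_cont : Continuous fun x : S3 × S3 => rt x.1 x.2 := by
  unfold rt; fun_prop

lemma rt_mul {p q : S3} (h : hopf p = hopf q) : rt p q * q.1.1 = p.1.1 ∧ rt p q * q.1.2 = p.1.2 := by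
  have h0 : hp p.1 = hp q.1 := congrArg Subtype.val h
  have h1 : 2 * p.1.1 * conj p.1.2 = 2 * q.1.1 * conj q.1.2 := congrArg Prod.fst h0
  have h2 : ‖p.1.1‖ ^ 2 - ‖p.1.2‖ ^ 2 = ‖q.1.1‖ ^ 2 - ‖q.1.2‖ ^ 2 := congrArg Prod.snd h0
  have h3 : ‖p.1.1‖ ^ 2 + ‖p.1.2‖ ^ 2 = 1 := p.2
  have h4 : ‖q.1.1‖ ^ 2 + ‖q.1.2‖ ^ 2 = 1 := q.2
  have h5 : ‖p.1.1‖ ^ 2 = ‖q.1.1‖ ^ 2 := by linarith only [h2, h3, h4]
  have h6 : ‖p.1.2‖ ^ 2 = ‖q.1.2‖ ^ 2 := by linarith only [h2, h3, h4]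
  have h7 : p.1.1 * conj p.1.1 = q.1.1 * conj q.1.1 := by
    rw [Complex.mul_conj, Complex.mul_conj, Complex.normSq_eq_norm_sq,
      Complex.normSq_eq_norm_sq, h5]
  have h8 : p.1.2 * conj p.1.2 = q.1.2 * conj q.1.2 := by
    rw [Complex.mul_conj, Complex.mul_conj, Complex.normSq_eq_norm_sq,
      Complex.normSq_eq_norm_sq, h6]
  have h9 : p.1.1 * conj p.1.1 + p.1.2 * conj p.1.2 = 1 := by
    rw [Complex.mul_conj, Complex.mul_conj, Complex.normSq_eq_norm_sq,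
      Complex.normSq_eq_norm_sq]
    exact_mod_cast h3
  have h10 : p.1.1 * conj p.1.2 = q.1.1 * conj q.1.2 := by linear_combination h1 / 2
  have h11 : p.1.2 * conj p.1.1 = q.1.2 * conj q.1.1 := by
    have := congrArg (starRingEnd ℂ) h10
    simp only [map_mul, Complex.conj_conj] at this
    linear_combination this
  constructor
  · unfold rt
    linear_combination (-p.1.1) * h7 - p.1.2 * h10 + p.1.1 * h9
  · unfold rt
    linear_combination (-p.1.2) * h8 - p.1.1 * h11 + p.1.2 * h9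

lemma rt_norm {p q : S3} (h : hopf p = hopf q) : ‖rt p q‖ = 1 := by
  obtain ⟨h1, h2⟩ := rt_mul h
  have h3 : ‖p.1.1‖ ^ 2 + ‖p.1.2‖ ^ 2 = 1 := p.2
  have h4 : ‖q.1.1‖ ^ 2 + ‖q.1.2‖ ^ 2 = 1 := q.2
  rw [← h1, ← h2, norm_mul, norm_mul] at h3
  have h5 : ‖rt p q‖ ^ 2 = 1 := by
    linear_combination h3 - ‖rt p q‖ ^ 2 * h4
  have h6 : 0 ≤ ‖rt p q‖ := norm_nonneg _
  nlinarith only [h5, h6]

lemma rt_comp {p q r : S3} (h : hopf p = hopf q) (h' : hopf q = hopf r) :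
    rt p q * rt q r = rt p r := by
  obtain ⟨h1, h2⟩ := rt_mul h
  show rt p q * (conj r.1.1 * q.1.1 + conj r.1.2 * q.1.2) = conj r.1.1 * p.1.1 + conj r.1.2 * p.1.2
  linear_combination conj r.1.1 * h1 + conj r.1.2 * h2

/-- variation of ratio of two lifts -/
def vr (A B : C(Dl 1, S3)) : ℝ := var fun t => rt (A t) (B t)

lemma vr_comp {A B D : C(Dl 1, S3)} (h : hopf.comp A = hopf.comp B)
    (h' : hopf.comp B = hopf.comp D) : vr A D = vr A B + vr B D := by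
  have h1 : ∀ t, hopf (A t) = hopf (B t) := fun t => DFunLike.congr_fun h t
  have h2 : ∀ t, hopf (B t) = hopf (D t) := fun t => DFunLike.congr_fun h' t
  unfold vr
  rw [← var_mul]
  · congr 1
    funext t
    exact (rt_comp (h1 t) (h2 t)).symm
  · exact rt_cont.comp (A.continuous.prodMk B.continuous)
  · exact rt_cont.comp (B.continuous.prodMk D.continuous)
  · exact fun t => rt_norm (h1 t)
  · exact fun t => rt_norm (h2 t)

/-- chosen lift -/
def lft {n : ℕ} (s : C(Dl n, S2)) : C(Dl n, S3) := (exists_hopf_lift s).choose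

lemma lft_spec {n : ℕ} (s : C(Dl n, S2)) : hopf.comp (lft s) = s := (exists_hopf_lift s).choose_spec

/-- the Euler cochain on 2-simplices -/
def eul (s : C(Dl 2, S2)) : ℝ :=
  ∑ i : Fin 3, (-1 : ℝ) ^ i.val * vr ((lft s).comp (fc 1 i)) (lft (s.comp (fc 1 i)))

lemma eul_aux (L A : C(Dl 2, S3)) (h0 : ∀ t, hopf (L t) = hopf (A t))
    (M : Fin 3 → C(Dl 1, S3)) (hM : ∀ i t, hopf (M i t) = hopf (A (fc 1 i t))) :
    ∑ i : Fin 3, (-1 : ℝ) ^ i.val * vr (L.comp (fc 1 i)) (M i) =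
      ∑ i : Fin 3, (-1 : ℝ) ^ i.val * vr (A.comp (fc 1 i)) (M i) := by
  have hb := var_bdry (g := fun t => rt (L t) (A t))
    (rt_cont.comp (L.continuous.prodMk A.continuous)) (fun t => rt_norm (h0 t))
  have h1 : ∀ i : Fin 3, vr (L.comp (fc 1 i)) (M i) =
      var (fun t => rt (L (fc 1 i t)) (A (fc 1 i t))) + vr (A.comp (fc 1 i)) (M i) := by
    intro i
    refine vr_comp (B := A.comp (fc 1 i)) ?_ ?_
    · ext1 t; exact h0 _
    · ext1 t; exact (hM i t).symm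
  simp only [h1, mul_add, Finset.sum_add_distrib]
  rw [hb, zero_add]

/-- independence of the lift of the 2-simplex -/
lemma eul_eq (A : C(Dl 2, S3)) :
    eul (hopf.comp A) =
      ∑ i : Fin 3, (-1 : ℝ) ^ i.val * vr (A.comp (fc 1 i)) (lft ((hopf.comp A).comp (fc 1 i))) :=
  eul_aux (lft (hopf.comp A)) A (fun t => DFunLike.congr_fun (lft_spec (hopf.comp A)) t)
    (fun i => lft ((hopf.comp A).comp (fc 1 i)))
    (fun i t => DFunLike.congr_fun (lft_spec ((hopf.comp A).comp (fc 1 i))) t)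

/-- cocycle condition -/
lemma eul_cocycle (s : C(Dl 3, S2)) :
    ∑ j : Fin 4, (-1 : ℝ) ^ j.val * eul (s.comp (fc 2 j)) = 0 := by
  obtain ⟨A, hA⟩ := exists_hopf_lift s
  subst hA
  -- value on edges
  let V : (Fin 2 → Fin 4) → ℝ := fun f =>
    vr (A.comp ⟨stdSimplex.map f, stdSimplex.continuous_map _⟩)
      (lft ((hopf.comp A).comp ⟨stdSimplex.map f, stdSimplex.continuous_map _⟩))
  have hcomp : ∀ (j : Fin 4) (i : Fin 3), (fc 2 j).comp (fc 1 i) =
      (⟨stdSimplex.map (j.succAbove ∘ i.succAbove), stdSimplex.continuous_map _⟩ :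
        C(Dl 1, Dl 3)) := by
    intro j i
    ext1 t
    exact stdSimplex.map_comp_apply _ _ _
  have h1 : ∀ j : Fin 4, eul ((hopf.comp A).comp (fc 2 j)) =
      ∑ i : Fin 3, (-1 : ℝ) ^ i.val * V (j.succAbove ∘ i.succAbove) := by
    intro j
    have h2 := eul_eq (A.comp (fc 2 j))
    rw [ContinuousMap.comp_assoc, h2]
    refine Finset.sum_congr rfl fun i _ => ?_
    simp only [V]
    rw [← hcomp]
    rfl
  simp only [h1, Fin.sum_univ_four, Fin.sum_univ_three]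
  have e01 : ((1 : Fin 4).succAbove ∘ (0 : Fin 3).succAbove : Fin 2 → Fin 4) =
      (0 : Fin 4).succAbove ∘ (0 : Fin 3).succAbove := by decide
  have e02 : ((2 : Fin 4).succAbove ∘ (0 : Fin 3).succAbove : Fin 2 → Fin 4) =
      (0 : Fin 4).succAbove ∘ (1 : Fin 3).succAbove := by decide
  have e03 : ((3 : Fin 4).succAbove ∘ (0 : Fin 3).succAbove : Fin 2 → Fin 4) =
      (0 : Fin 4).succAbove ∘ (2 : Fin 3).succAbove := by decide
  have e12 : ((2 : Fin 4).succAbove ∘ (1 : Fin 3).succAbove : Fin 2 → Fin 4) =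
      (1 : Fin 4).succAbove ∘ (1 : Fin 3).succAbove := by decide
  have e13 : ((3 : Fin 4).succAbove ∘ (1 : Fin 3).succAbove : Fin 2 → Fin 4) =
      (1 : Fin 4).succAbove ∘ (2 : Fin 3).succAbove := by decide
  have e23 : ((3 : Fin 4).succAbove ∘ (2 : Fin 3).succAbove : Fin 2 → Fin 4) =
      (2 : Fin 4).succAbove ∘ (2 : Fin 3).succAbove := by decide
  rw [e01, e02, e03, e12, e13, e23]
  norm_num
  ring

end

end Hlg
end P103
end
end

section

section

open scoped ComplexConjugate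

namespace P103
namespace Hlg

noncomputable section

/-! ### coordinates of face maps -/

lemma map_apply' {X Y : Type*} [Fintype X] [Fintype Y] [DecidableEq Y] (f : X → Y)
    (s : stdSimplex ℝ X) (y : Y) : stdSimplex.map f s y = ∑ x with f x = y, s x := by
  rw [stdSimplex.map_coe, FunOnFinite.linearMap_apply_apply]

lemma fc_succAbove {n : ℕ} (i : Fin (n + 2)) (t : Dl n) (k : Fin (n + 1)) :
    fc n i t (i.succAbove k) = t k := by
  show stdSimplex.map (Fin.succAbove i) t (i.succAbove k) = t k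
  rw [map_apply']
  have : (Finset.univ.filter fun x => i.succAbove x = i.succAbove k) = {k} := by
    ext x; simp [Fin.succAbove_right_inj]
  rw [this, Finset.sum_singleton]

lemma fc_self {n : ℕ} (i : Fin (n + 2)) (t : Dl n) : fc n i t i = 0 := by
  show stdSimplex.map (Fin.succAbove i) t i = 0
  rw [map_apply']
  have : (Finset.univ.filter fun x => i.succAbove x = i) = ∅ := by
    ext x; simp [Fin.succAbove_ne]
  rw [this, Finset.sum_empty]

/-! ### explicit lifted simplices -/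

/-- angle -/
def ang {n : ℕ} (a : Fin n → ℝ) (t : Dl n) : ℝ := (∑ j, a j * t j.succ) / (1 - t 0)

/-- first coordinate -/
def cap1 {n : ℕ} (a : Fin n → ℝ) (t : Dl n) : ℂ :=
  (Real.sqrt (1 - t 0) : ℂ) * Complex.exp (ang a t * Complex.I)

lemma coord_cont {n : ℕ} (i : Fin (n + 1)) : Continuous fun t : Dl n => t i :=
  (continuous_apply i).comp continuous_subtype_val

lemma cap1_norm {n : ℕ} (a : Fin n → ℝ) (t : Dl n) : ‖cap1 a t‖ = Real.sqrt (1 - t 0) := by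
  rw [cap1, norm_mul, Complex.norm_exp_ofReal_mul_I, mul_one, Complex.norm_real,
    Real.norm_of_nonneg (Real.sqrt_nonneg _)]

lemma cap1_cont {n : ℕ} (a : Fin n → ℝ) : Continuous (cap1 a) := by
  rw [continuous_iff_continuousAt]
  intro t
  have hsq : Continuous fun t : Dl n => Real.sqrt (1 - t 0) :=
    Real.continuous_sqrt.comp (continuous_const.sub (coord_cont 0))
  by_cases h : t 0 = 1
  · have h0 : cap1 a t = 0 := by simp [cap1, h]
    rw [ContinuousAt, h0, tendsto_zero_iff_norm_tendsto_zero]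
    simp only [cap1_norm]
    have := hsq.tendsto t
    rw [h] at this
    simpa only [sub_self, Real.sqrt_zero] using this
  · have h1 : 1 - t 0 ≠ 0 := by
      intro h2; apply h; linarith only [h2]
    have hang : ContinuousAt (ang a) t := by
      unfold ang
      refine ContinuousAt.div ?_ ?_ h1
      · refine Continuous.continuousAt ?_
        exact continuous_finsetSum _ fun j _ => continuous_const.mul (coord_cont _)
      · exact (continuous_const.sub (coord_cont 0)).continuousAt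
    unfold cap1
    refine ContinuousAt.mul ?_ ?_
    · exact (Complex.continuous_ofReal.comp hsq).continuousAt
    · refine Complex.continuous_exp.continuousAt.comp ?_
      exact (Complex.continuous_ofReal.continuousAt.comp hang).mul continuousAt_const

/-- lifted simplex -/
def cap {n : ℕ} (a : Fin n → ℝ) : C(Dl n, S3) :=
  ⟨fun t => ⟨(cap1 a t, (Real.sqrt (t 0) : ℂ)), by
    show ‖cap1 a t‖ ^ 2 + ‖(Real.sqrt (t 0) : ℂ)‖ ^ 2 = 1
    rw [cap1_norm, Complex.norm_real, Real.norm_of_nonneg (Real.sqrt_nonneg _),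
      Real.sq_sqrt (by have := stdSimplex.le_one t 0; linarith),
      Real.sq_sqrt (stdSimplex.zero_le t 0)]
    ring⟩, by
    apply Continuous.subtype_mk
    refine (cap1_cont a).prodMk ?_
    exact Complex.continuous_ofReal.comp (Real.continuous_sqrt.comp (coord_cont 0))⟩

lemma cap_ext {n : ℕ} {a b : Fin n → ℝ} (h : ∀ t, cap1 a t = cap1 b t) : cap a = cap b := by
  ext1 t
  apply Subtype.ext
  exact Prod.ext (h t) rfl

/-- rotating all angles by 2π changes nothing -/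
lemma cap_shift {n : ℕ} (a : Fin n → ℝ) : cap (fun j => a j + 2 * Real.pi) = cap a := by
  apply cap_ext
  intro t
  by_cases h : t 0 = 1
  · simp [cap1, h]
  · have h1 : 1 - t 0 ≠ 0 := by
      intro h2; apply h; linarith only [h2]
    have hs : ∑ j : Fin n, t j.succ = 1 - t 0 := by
      have := stdSimplex.sum_eq_one t
      rw [Fin.sum_univ_succ] at this
      linarith
    have h2 : ang (fun j => a j + 2 * Real.pi) t = ang a t + 2 * Real.pi := by
      unfold ang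
      simp only [add_mul, Finset.sum_add_distrib]
      rw [← Finset.mul_sum, hs]
      field_simp
    unfold cap1
    rw [h2]
    congr 1
    push_cast
    rw [add_mul, Complex.exp_add, Complex.exp_two_pi_mul_I, mul_one]

/-- constant at the north pole, upstairs -/
def nor3 : S3 := ⟨(1, 0), by simp [S3]⟩

/-- faces with index `≥ 1` -/
lemma cap_face {n : ℕ} (a : Fin (n + 1) → ℝ) (k : Fin (n + 1)) :
    (cap a).comp (fc n k.succ) = cap (a ∘ k.succAbove) := by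
  ext1 t
  have h0 : fc n k.succ t 0 = t 0 := by
    have := fc_succAbove k.succ t 0
    rwa [Fin.succ_succAbove_zero] at this
  have h1 : ∑ j, a j * fc n k.succ t j.succ = ∑ j, (a ∘ k.succAbove) j * t j.succ := by
    rw [Fin.sum_univ_succAbove _ k, fc_self, mul_zero, zero_add]
    refine Finset.sum_congr rfl fun j _ => ?_
    have := fc_succAbove k.succ t j.succ
    rw [Fin.succ_succAbove_succ] at this
    rw [this]; rfl
  apply Subtype.ext
  show (cap1 a (fc n k.succ t), (Real.sqrt (fc n k.succ t 0) : ℂ)) =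
    (cap1 (a ∘ k.succAbove) t, (Real.sqrt (t 0) : ℂ))
  unfold cap1 ang
  rw [h0, h1]

lemma cap_face_zero {n : ℕ} (a : Fin (n + 1) → ℝ) (t : Dl n) :
    ((cap a) (fc n 0 t)).1 = (Complex.exp ((∑ j, a j * t j : ℝ) * Complex.I), 0) := by
  have h0 : fc n 0 t 0 = 0 := fc_self 0 t
  have h1 : ∑ j, a j * fc n 0 t j.succ = ∑ j, a j * t j := by
    refine Finset.sum_congr rfl fun j _ => ?_
    have := fc_succAbove 0 t j
    rw [Fin.succAbove_zero] at this
    rw [this]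
  show (cap1 a (fc n 0 t), (Real.sqrt (fc n 0 t 0) : ℂ)) = _
  unfold cap1 ang
  rw [h0, h1]
  simp only [sub_zero, Real.sqrt_one, Complex.ofReal_one, div_one, Complex.ofReal_sum, Complex.ofReal_mul, one_mul, Real.sqrt_zero, Complex.ofReal_zero]

lemma hopf_cap_face_zero {n : ℕ} (a : Fin (n + 1) → ℝ) :
    (hopf.comp (cap a)).comp (fc n 0) = ContinuousMap.const _ (hopf nor3) := by
  ext1 t
  apply Subtype.ext
  show hp ((cap a) (fc n 0 t)).1 = hp (1, 0)
  rw [cap_face_zero]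
  unfold hp
  rw [Complex.norm_exp_ofReal_mul_I]
  simp only [Complex.ofReal_sum, Complex.ofReal_mul, map_zero, mul_zero, one_pow, norm_zero, ne_eq, OfNat.ofNat_ne_zero, not_false_eq_true, zero_pow, sub_zero, mul_one, norm_one]

end

end Hlg
end P103
end
end

section

section

open scoped ComplexConjugate
open CategoryTheory Limits AlgebraicTopology Simplicial

namespace P103
namespace Hlg

noncomputable section

/-! ### value of the Euler cochain -/

/-- lower-dimensional data -/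
def Mn : C(Dl 1, S3) := lft (ContinuousMap.const (Dl 1) (hopf nor3))

lemma eul_kap : eul (ContinuousMap.const (Dl 2) (hopf nor3)) =
    vr (ContinuousMap.const (Dl 1) nor3) Mn := by
  have h := eul_eq (ContinuousMap.const (Dl 2) nor3)
  have h1 : hopf.comp (ContinuousMap.const (Dl 2) nor3) =
    ContinuousMap.const (Dl 2) (hopf nor3) := rfl
  rw [h1] at h
  rw [h, Fin.sum_univ_three]
  have h2 : ∀ i : Fin 3, vr ((ContinuousMap.const (Dl 2) nor3).comp (fc 1 i))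
      (lft ((ContinuousMap.const (Dl 2) (hopf nor3)).comp (fc 1 i))) =
      vr (ContinuousMap.const (Dl 1) nor3) Mn := fun i => rfl
  rw [h2, h2, h2]
  norm_num

/-- the loop `t ↦ exp (2π i t₁)` upstairs -/
lemma vr_loop : vr ((cap ![0, 2 * Real.pi]).comp (fc 1 0)) (ContinuousMap.const (Dl 1) nor3) =
    2 * Real.pi := by
  unfold vr
  let θ : C(Dl 1, ℝ) := ⟨fun t => 2 * Real.pi * t 1, by
    exact continuous_const.mul (coord_cont 1)⟩
  have h : IsArg (fun t => rt (((cap ![0, 2 * Real.pi]).comp (fc 1 0)) t)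
      ((ContinuousMap.const (Dl 1) nor3) t)) θ := by
    intro t
    have h1 : (((cap ![0, 2 * Real.pi]).comp (fc 1 0)) t).1 =
        (Complex.exp ((∑ j, (![0, 2 * Real.pi] : Fin 2 → ℝ) j * t j : ℝ) * Complex.I), 0) :=
      cap_face_zero _ t
    show rt (((cap ![0, 2 * Real.pi]).comp (fc 1 0)) t) nor3 = _
    unfold rt
    rw [h1]
    simp [nor3, θ, Fin.sum_univ_two]
  rw [var_eq h]
  simp only [Nat.reduceAdd, Fin.isValue, ContinuousMap.coe_mk, stdSimplex.vertex_coe, Pi.single_eq_same, mul_one, ne_eq, one_ne_zero, not_false_eq_true, Pi.single_eq_of_ne, mul_zero, sub_zero, θ]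

lemma eul_sig : eul (hopf.comp (cap ![0, 2 * Real.pi])) =
    2 * Real.pi + vr (ContinuousMap.const (Dl 1) nor3) Mn := by
  rw [eul_eq, Fin.sum_univ_three]
  have f1 : (cap ![0, 2 * Real.pi]).comp (fc 1 1) = cap ![0] := by
    have h := cap_face (n := 1) ![0, 2 * Real.pi] 0
    have h2 : (![0, 2 * Real.pi] ∘ (0 : Fin 2).succAbove : Fin 1 → ℝ) =
        fun j => (![0] : Fin 1 → ℝ) j + 2 * Real.pi := by
      funext j; fin_cases j; simp
    rw [h2, cap_shift] at h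
    exact h
  have f2 : (cap ![0, 2 * Real.pi]).comp (fc 1 2) = cap ![0] := by
    have h := cap_face (n := 1) ![0, 2 * Real.pi] 1
    have h2 : (![0, 2 * Real.pi] ∘ (1 : Fin 2).succAbove : Fin 1 → ℝ) = ![0] := by
      funext j; fin_cases j; simp
    rw [h2] at h
    exact h
  have f0 : hopf.comp ((cap ![0, 2 * Real.pi]).comp (fc 1 0)) =
      ContinuousMap.const _ (hopf nor3) := hopf_cap_face_zero _
  simp only [ContinuousMap.comp_assoc]
  rw [f0, f1, f2]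
  have h3 : vr ((cap ![0, 2 * Real.pi]).comp (fc 1 0))
      (lft (ContinuousMap.const (Dl 1) (hopf nor3))) = 
      vr ((cap ![0, 2 * Real.pi]).comp (fc 1 0)) (ContinuousMap.const (Dl 1) nor3) +
        vr (ContinuousMap.const (Dl 1) nor3) Mn := by
    refine vr_comp ?_ ?_
    · rw [f0]; rfl
    · show _ = hopf.comp (lft (ContinuousMap.const (Dl 1) (hopf nor3)))
      rw [lft_spec]; rfl
  rw [h3, vr_loop]
  norm_num

/-! ### the cycle and its class -/

abbrev S2t : TopCat.{0} := TopCat.of S2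

/-- the lune `σ(a,b)` -/
def sig (a b : ℝ) : C(Dl 2, S2) := hopf.comp (cap ![a, b])
/-- the constant simplex -/
def kap (n : ℕ) : C(Dl n, S2) := ContinuousMap.const (Dl n) (hopf nor3)
/-- the meridian -/
def mer (a : ℝ) : C(Dl 1, S2) := hopf.comp (cap ![a])
/-- 3-simplex -/
def Sig (a b c : ℝ) : C(Dl 3, S2) := hopf.comp (cap ![a, b, c])

lemma sig_f0 (a b : ℝ) : (sig a b).comp (face 1 0) = kap 1 := hopf_cap_face_zero _
lemma sig_f1 (a b : ℝ) : (sig a b).comp (face 1 1) = mer b := by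
  have h := cap_face (n := 1) ![a, b] 0
  have h2 : (![a, b] ∘ (0 : Fin 2).succAbove : Fin 1 → ℝ) = ![b] := by
    funext j; fin_cases j; simp
  rw [h2] at h
  unfold sig mer
  rw [← h]
  rfl
lemma sig_f2 (a b : ℝ) : (sig a b).comp (face 1 2) = mer a := by
  have h := cap_face (n := 1) ![a, b] 1
  have h2 : (![a, b] ∘ (1 : Fin 2).succAbove : Fin 1 → ℝ) = ![a] := by
    funext j; fin_cases j; simp
  rw [h2] at h
  unfold sig mer
  rw [← h]
  rfl
lemma Sig_f0 (a b c : ℝ) : (Sig a b c).comp (face 2 0) = kap 2 := hopf_cap_face_zero _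
lemma Sig_f1 (a b c : ℝ) : (Sig a b c).comp (face 2 1) = sig b c := by
  have h := cap_face (n := 2) ![a, b, c] 0
  have h2 : (![a, b, c] ∘ (0 : Fin 3).succAbove : Fin 2 → ℝ) = ![b, c] := by
    funext j; fin_cases j <;> simp
  rw [h2] at h
  unfold Sig sig
  rw [← h]
  rfl
lemma Sig_f2 (a b c : ℝ) : (Sig a b c).comp (face 2 2) = sig a c := by
  have h := cap_face (n := 2) ![a, b, c] 1
  have h2 : (![a, b, c] ∘ (1 : Fin 3).succAbove : Fin 2 → ℝ) = ![a, c] := by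
    funext j; fin_cases j
    · simp
    · have : (1 : Fin 3).succAbove (1 : Fin 2) = 2 := by decide
      simp [this]
  rw [h2] at h
  unfold Sig sig
  rw [← h]
  rfl
lemma Sig_f3 (a b c : ℝ) : (Sig a b c).comp (face 2 3) = sig a b := by
  have h := cap_face (n := 2) ![a, b, c] 2
  have h2 : (![a, b, c] ∘ (2 : Fin 3).succAbove : Fin 2 → ℝ) = ![a, b] := by
    funext j; fin_cases j
    · simp
    · have : (2 : Fin 3).succAbove (1 : Fin 2) = 1 := by decide
      simp [this]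
  rw [h2] at h
  unfold Sig sig
  rw [← h]
  rfl

lemma sig_shift (a b : ℝ) : sig (a + 2 * Real.pi) (b + 2 * Real.pi) = sig a b := by
  unfold sig
  rw [← cap_shift ![a, b]]
  congr 2
  funext j; fin_cases j <;> simp

lemma mer_shift (a : ℝ) : mer (a + 2 * Real.pi) = mer a := by
  unfold mer
  rw [← cap_shift ![a]]
  congr 2
  funext j; fin_cases j; simp

lemma sig_d (a b : ℝ) : smp (X := S2t) 2 (sig a b) ≫ (SC S2t).d 2 1 =
    smp (X := S2t) 1 (kap 1) - smp (X := S2t) 1 (mer b) + smp (X := S2t) 1 (mer a) := by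
  rw [smp_d, Fin.sum_univ_three]
  rw [sig_f0, sig_f1, sig_f2]
  simp only [Int.reduceNeg, Nat.reduceAdd, Fin.isValue, Fin.coe_ofNat_eq_mod, Nat.zero_mod, pow_zero, one_smul, Nat.one_mod, pow_one, neg_smul, Nat.mod_succ, even_two, Even.neg_pow, one_pow, add_left_inj]
  abel

lemma kap_d : smp (X := S2t) 2 (kap 2) ≫ (SC S2t).d 2 1 = smp (X := S2t) 1 (kap 1) := by
  rw [smp_d, Fin.sum_univ_three]
  have h : ∀ i : Fin 3, (kap 2).comp (face 1 i) = kap 1 := fun i => rfl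
  rw [h, h, h]
  simp only [Int.reduceNeg, Nat.reduceAdd, Fin.isValue, Fin.coe_ofNat_eq_mod, Nat.zero_mod, pow_zero, one_smul, Nat.one_mod, pow_one, neg_smul, add_neg_cancel, Nat.mod_succ, even_two, Even.neg_pow, one_pow, zero_add]

lemma Sig_d (a b c : ℝ) : smp (X := S2t) 3 (Sig a b c) ≫ (SC S2t).d 3 2 =
    smp (X := S2t) 2 (kap 2) - smp (X := S2t) 2 (sig b c) + smp (X := S2t) 2 (sig a c)
      - smp (X := S2t) 2 (sig a b) := by
  rw [smp_d, Fin.sum_univ_four]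
  rw [Sig_f0, Sig_f1, Sig_f2, Sig_f3]
  simp only [Int.reduceNeg, Nat.reduceAdd, Fin.isValue, Fin.coe_ofNat_eq_mod, Nat.zero_mod, pow_zero, one_smul, Nat.one_mod, pow_succ, mul_neg, mul_one, neg_smul, Nat.reduceMod, neg_neg, Nat.mod_succ]
  abel

/-- the fundamental cycle, winding `b` -/
def zc (b : ℝ) : RR ⟶ (SC S2t).X 2 := smp (X := S2t) 2 (sig 0 b) - smp (X := S2t) 2 (kap 2)

lemma zc_d (b : ℝ) (h : mer b = mer 0) : zc b ≫ (SC S2t).d 2 1 = 0 := by
  unfold zc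
  rw [Preadditive.sub_comp, sig_d, kap_d, h]
  abel

lemma mer1 : mer (2 * Real.pi) = mer 0 := by
  have := mer_shift 0
  rwa [zero_add] at this

lemma mer2 : mer (2 * (2 * Real.pi)) = mer 0 := by
  have := mer_shift (2 * Real.pi)
  rw [← mer1, ← this]
  congr 1; ring

/-- fundamental class -/
def fund : RR ⟶ (SC S2t).homology 2 := cls (zc (2 * Real.pi)) (zc_d _ mer1)

lemma fund_ne : fund ≠ 0 := by
  refine cls_ne_zero_of_fun _ _ eul ?_ ?_
  · intro s; exact eul_cocycle s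
  · intro φ hφ h0
    unfold zc at h0
    rw [Preadditive.sub_comp] at h0
    have h1 : smp (X := S2t) 2 (sig 0 (2 * Real.pi)) ≫ φ = eul (sig 0 (2 * Real.pi)) • 𝟙 RR :=
      hφ _
    have h2 : smp (X := S2t) 2 (kap 2) ≫ φ = eul (kap 2) • 𝟙 RR := hφ _
    rw [h1, h2, ← sub_smul] at h0
    have h3 : eul (sig 0 (2 * Real.pi)) = 2 * Real.pi + vr (ContinuousMap.const (Dl 1) nor3) Mn :=
      eul_sig
    have h4 : eul (kap 2) = vr (ContinuousMap.const (Dl 1) nor3) Mn := eul_kap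
    rw [h3, h4, add_sub_cancel_right] at h0
    have h5 := congrArg (fun g : RR ⟶ RR => g.hom (1 : ℝ)) h0
    simp only [ModuleCat.hom_smul, ModuleCat.hom_id, LinearMap.smul_apply, LinearMap.id_coe, id_eq, smul_eq_mul, mul_one, ModuleCat.hom_zero, LinearMap.zero_apply, mul_eq_zero, OfNat.ofNat_ne_zero, Real.pi_ne_zero, or_self] at h5

lemma fund_double : cls (zc (2 * (2 * Real.pi))) (zc_d _ mer2) = (2 : ℝ) • fund := by
  unfold fund
  refine cls_add_bdry 2 _ _ (smp (X := S2t) 3 (Sig 0 (2 * Real.pi) (2 * (2 * Real.pi)))) _ _ ?_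
  rw [Sig_d]
  have h : sig (2 * Real.pi) (2 * (2 * Real.pi)) = sig 0 (2 * Real.pi) := by
    have := sig_shift 0 (2 * Real.pi)
    rw [zero_add] at this
    rw [← this]
    congr 1; ring
  rw [h]
  unfold zc
  rw [two_smul]
  abel


/-! ### transfer to the model of `S²` used for the manifold -/

open Vale.Agent.P103 (Sph Dmap continuous_Dmap mkSph)

/-- `S2 → Sph ℂ` -/
def toSph : C(S2, Sph ℂ) :=
  ⟨fun x => mkSph x.1.1 x.1.2 x.2, by
    refine Continuous.subtype_mk ?_ _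
    exact (WithLp.prod_continuous_toLp 2 ℂ ℝ).comp
      ((continuous_fst.comp continuous_subtype_val).prodMk
        (continuous_snd.comp continuous_subtype_val))⟩

/-- `Sph ℂ → S2` -/
def ofSph : C(Sph ℂ, S2) :=
  ⟨fun x => ⟨(Vale.Agent.P103.hp x, Vale.Agent.P103.ht x), Vale.Agent.P103.hp_ht x⟩, by
    refine Continuous.subtype_mk ?_ _
    exact (WithLp.prod_continuous_ofLp 2 ℂ ℝ).comp continuous_subtype_val⟩

/-- the degree two map on `S2` -/
def D2 : C(S2, S2) := ofSph.comp ((⟨Dmap, continuous_Dmap⟩ : C(Sph ℂ, Sph ℂ)).comp toSph)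

lemma D2_val (x : S2) : (D2 x).1 = (x.1.1 ^ 2 / ‖x.1.1‖, x.1.2) := rfl

lemma D2_sig (a b : ℝ) : D2.comp (sig a b) = sig (2 * a) (2 * b) := by
  ext1 t
  apply Subtype.ext
  show (D2 (sig a b t)).1 = (sig (2 * a) (2 * b) t).1
  rw [D2_val]
  show ((hp ((cap ![a, b]) t).1).1 ^ 2 / ‖(hp ((cap ![a, b]) t).1).1‖, (hp ((cap ![a, b]) t).1).2)
    = hp ((cap ![2 * a, 2 * b]) t).1
  have h1 : ((cap ![a, b]) t).1 = (cap1 ![a, b] t, (Real.sqrt (t 0) : ℂ)) := rfl
  have h2 : ((cap ![2 * a, 2 * b]) t).1 = (cap1 ![2 * a, 2 * b] t, (Real.sqrt (t 0) : ℂ)) := rfl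
  have hang : ang ![2 * a, 2 * b] t = 2 * ang ![a, b] t := by
    unfold ang
    simp only [Nat.succ_eq_add_one, Nat.reduceAdd, Fin.sum_univ_two, Fin.isValue, Matrix.cons_val_zero, Fin.succ_zero_eq_one, Matrix.cons_val_one, Matrix.cons_val_fin_one, Fin.succ_one_eq_two]
    ring
  rw [h1, h2]
  unfold hp
  simp only [cap1_norm, Complex.conj_ofReal]
  refine Prod.ext ?_ rfl
  simp only [norm_mul, cap1_norm, Complex.norm_real, Real.norm_of_nonneg (Real.sqrt_nonneg _),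
    Complex.norm_ofNat]
  unfold cap1
  rw [hang]
  set u := Real.sqrt (1 - t 0)
  set v := Real.sqrt (t 0)
  by_cases hu : u = 0
  · simp only [hu, Complex.ofReal_zero, Nat.succ_eq_add_one, Nat.reduceAdd, zero_mul, mul_zero, ne_eq, OfNat.ofNat_ne_zero, not_false_eq_true, zero_pow, div_zero, Complex.ofReal_mul, Complex.ofReal_ofNat]
  by_cases hv : v = 0
  · simp only [Nat.succ_eq_add_one, Nat.reduceAdd, hv, Complex.ofReal_zero, mul_zero, ne_eq, OfNat.ofNat_ne_zero, not_false_eq_true, zero_pow, div_zero, Complex.ofReal_mul, Complex.ofReal_ofNat]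
  have hu' : (u : ℂ) ≠ 0 := by exact_mod_cast hu
  have hv' : (v : ℂ) ≠ 0 := by exact_mod_cast hv
  have hexp : Complex.exp (((2 * ang ![a, b] t : ℝ) : ℂ) * Complex.I) =
      Complex.exp ((ang ![a, b] t : ℂ) * Complex.I) ^ 2 := by
    rw [← Complex.exp_nat_mul]; push_cast; ring_nf
  rw [hexp]
  push_cast
  field_simp

lemma D2_kap : D2.comp (kap 2) = kap 2 := by
  ext1 t
  apply Subtype.ext
  show (D2 (hopf nor3)).1 = (hopf nor3).1
  rw [D2_val]
  show ((hp (1, 0)).1 ^ 2 / ‖(hp (1, 0)).1‖, (hp (1, 0)).2) = hp (1, 0)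
  simp only [hp, mul_one, map_zero, mul_zero, norm_one, one_pow, norm_zero, ne_eq, OfNat.ofNat_ne_zero, not_false_eq_true, zero_pow, sub_zero, Complex.ofReal_zero, div_zero]

/-- the functor -/
abbrev HH : TopCat.{0} ⥤ ModuleCat.{0} ℝ :=
  (singularHomologyFunctor (ModuleCat.{0} ℝ) 2).obj (ModuleCat.of ℝ ℝ)

lemma fund_D2 : fund ≫ HH.map (TopCat.ofHom D2) = (2 : ℝ) • fund := by
  rw [← fund_double]
  refine cls_map (TopCat.ofHom D2) _ _ _ _ ?_
  unfold zc
  rw [Preadditive.sub_comp, smp_map, smp_map]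
  have h1 : (TopCat.ofHom D2).hom.comp (sig 0 (2 * Real.pi)) = sig 0 (2 * (2 * Real.pi)) := by
    have := D2_sig 0 (2 * Real.pi)
    rw [mul_zero] at this
    exact this
  have h2 : (TopCat.ofHom D2).hom.comp (kap 2) = kap 2 := D2_kap
  rw [h1, h2]

/-- fundamental class, typed through the functor -/
def fund2 : RR ⟶ HH.obj S2t := fund

lemma fund2_ne : fund2 ≠ 0 := fund_ne

lemma fund2_D2 : fund2 ≫ HH.map (TopCat.ofHom D2) = (2 : ℝ) • fund2 := fund_D2

/-- **The eigenclass**: the degree two map multiplies a nonzero class of `H₂(S²;ℝ)` by two. -/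
theorem exists_class : ∃ c : HH.obj (TopCat.of (Sph ℂ)), c ≠ 0 ∧
    (HH.map (TopCat.ofHom (⟨Dmap, continuous_Dmap⟩ : C(Sph ℂ, Sph ℂ)))).hom c = (2 : ℝ) • c := by
  have h1 : (fund2 ≫ HH.map (TopCat.ofHom toSph)) ≫
      HH.map (TopCat.ofHom (⟨Dmap, continuous_Dmap⟩ : C(Sph ℂ, Sph ℂ))) =
      (2 : ℝ) • (fund2 ≫ HH.map (TopCat.ofHom toSph)) := by
    rw [Category.assoc, ← Functor.map_comp]
    have h2 : TopCat.ofHom toSph ≫ TopCat.ofHom (⟨Dmap, continuous_Dmap⟩ : C(Sph ℂ, Sph ℂ)) =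
        TopCat.ofHom D2 ≫ TopCat.ofHom toSph := rfl
    rw [h2, Functor.map_comp, ← Category.assoc, fund2_D2, Linear.smul_comp]
  have h3 : fund2 ≫ HH.map (TopCat.ofHom toSph) ≠ 0 := by
    intro h0
    have h4 : (fund2 ≫ HH.map (TopCat.ofHom toSph)) ≫ HH.map (TopCat.ofHom ofSph) = fund2 := by
      rw [Category.assoc, ← Functor.map_comp]
      have h5 : TopCat.ofHom toSph ≫ TopCat.ofHom ofSph = 𝟙 S2t := rfl
      rw [h5, CategoryTheory.Functor.map_id, Category.comp_id]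
    rw [h0, zero_comp] at h4
    exact fund2_ne h4.symm
  set g := fund2 ≫ HH.map (TopCat.ofHom toSph) with hg
  refine ⟨g.hom (1 : ℝ), ?_, ?_⟩
  · intro h0
    apply h3
    apply ModuleCat.hom_ext
    apply LinearMap.ext_ring
    rw [h0]; rfl
  · have := congrArg (fun f => ModuleCat.Hom.hom f (1 : ℝ)) h1
    exact this

end

end Hlg
end P103
end
end

section

section

/-!
# P103: regularity of the fibre map `F`
-/

namespace Vale.Agent.P103

open Filter Topology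

namespace RegFmod

section general

variable {X E : Type*} [NormedAddCommGroup X] [NormedSpace ℝ X]
  [NormedAddCommGroup E] [NormedSpace ℝ E]

/-- `C^1` criterion: `C^1` off `Z`, zero derivative on `Z`, and the derivative tends to `0` at `Z`. -/
theorem contDiff_one_of_flat {Z : Set X} {f : X → E}
    (h1 : ∀ x, x ∉ Z → ContDiffAt ℝ 1 f x)
    (h2 : ∀ z ∈ Z, HasFDerivAt f (0 : X →L[ℝ] E) z)
    (h3 : ∀ z ∈ Z, ∀ ε > 0, ∀ᶠ x in 𝓝 z, x ∉ Z → ‖fderiv ℝ f x‖ ≤ ε) : ContDiff ℝ 1 f := by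
  rw [contDiff_one_iff_fderiv]
  refine ⟨fun x => ?_, ?_⟩
  · by_cases hx : x ∈ Z
    · exact (h2 x hx).differentiableAt
    · exact (h1 x hx).differentiableAt (by norm_num)
  · rw [continuous_iff_continuousAt]
    intro x
    by_cases hx : x ∈ Z
    · have h0 : fderiv ℝ f x = 0 := (h2 x hx).fderiv
      rw [ContinuousAt, h0, Metric.tendsto_nhds]
      intro ε hε
      filter_upwards [h3 x hx (ε / 2) (by linarith only [hε])] with y hy
      rw [dist_zero_right]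
      by_cases hyZ : y ∈ Z
      · rw [(h2 y hyZ).fderiv, norm_zero]; exact hε
      · exact (hy hyZ).trans_lt (by linarith only [hε])
    · exact ((h1 x hx).fderiv_right (m := 0) (by norm_num)).continuousAt

/-- functions dominated by `m`, with bounded derivative off `Z` -/
structure Lip1 (Z : Set X) (m : X → ℝ) (h : X → E) : Prop where
  cd : ∀ x, x ∉ Z → ContDiffAt ℝ 1 h x
  bd : ∀ z ∈ Z, ∃ C : ℝ, 0 ≤ C ∧ ∀ᶠ x in 𝓝 z, ‖h x‖ ≤ C * m x
  dbd : ∀ z ∈ Z, ∃ C : ℝ, 0 ≤ C ∧ ∀ᶠ x in 𝓝 z, x ∉ Z → ‖fderiv ℝ h x‖ ≤ C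

/-- cut-off functions: bounded, with derivative `O(1/m)` -/
structure Cut (Z : Set X) (m : X → ℝ) (χ : X → ℝ) : Prop where
  cd : ∀ x, x ∉ Z → ContDiffAt ℝ 1 χ x
  bd : ∀ z ∈ Z, ∃ C : ℝ, 0 ≤ C ∧ ∀ᶠ x in 𝓝 z, |χ x| ≤ C
  dbd : ∀ z ∈ Z, ∃ C : ℝ, 0 ≤ C ∧ ∀ᶠ x in 𝓝 z, x ∉ Z → ‖fderiv ℝ χ x‖ * m x ≤ C

theorem norm_fderiv_smul_le {χ : X → ℝ} {h : X → E} {x : X} (h1 : DifferentiableAt ℝ χ x)
    (h2 : DifferentiableAt ℝ h x) :
    ‖fderiv ℝ (fun y => χ y • h y) x‖ ≤ |χ x| * ‖fderiv ℝ h x‖ + ‖fderiv ℝ χ x‖ * ‖h x‖ := by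
  rw [fderiv_fun_smul h1 h2]
  refine (norm_add_le _ _).trans ?_
  gcongr
  · rw [norm_smul, Real.norm_eq_abs]
  · exact (ContinuousLinearMap.norm_smulRight_apply _ _).le

theorem Cut.smul {Z : Set X} {m : X → ℝ} {χ : X → ℝ} {h : X → E}
    (h1 : Cut Z m χ) (h2 : Lip1 Z m h) : Lip1 Z m (fun x => χ x • h x) := by
  refine ⟨fun x hx => (h1.cd x hx).smul (h2.cd x hx), fun z hz => ?_, fun z hz => ?_⟩
  · obtain ⟨C1, hC1, h1b⟩ := h1.bd z hz
    obtain ⟨C2, hC2, h2b⟩ := h2.bd z hz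
    refine ⟨C1 * C2, by (clear * - hC1 hC2; positivity), ?_⟩
    filter_upwards [h1b, h2b] with x hx1 hx2
    rw [norm_smul, Real.norm_eq_abs, mul_assoc]
    exact mul_le_mul hx1 hx2 (norm_nonneg _) hC1
  · obtain ⟨C1, hC1, h1b⟩ := h1.bd z hz
    obtain ⟨C2, hC2, h2b⟩ := h2.bd z hz
    obtain ⟨C3, hC3, h1d⟩ := h1.dbd z hz
    obtain ⟨C4, hC4, h2d⟩ := h2.dbd z hz
    refine ⟨C1 * C4 + C3 * C2, by (clear * - hC1 hC4 hC3 hC2; positivity), ?_⟩
    filter_upwards [h1b, h2b, h1d, h2d] with x hx1 hx2 hx3 hx4 hxZ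
    refine (norm_fderiv_smul_le ((h1.cd x hxZ).differentiableAt (by norm_num))
      ((h2.cd x hxZ).differentiableAt (by norm_num))).trans ?_
    have e1 : |χ x| * ‖fderiv ℝ h x‖ ≤ C1 * C4 :=
      mul_le_mul hx1 (hx4 hxZ) (norm_nonneg _) hC1
    have e2 : ‖fderiv ℝ χ x‖ * ‖h x‖ ≤ C3 * C2 := by
      calc ‖fderiv ℝ χ x‖ * ‖h x‖ ≤ ‖fderiv ℝ χ x‖ * (C2 * m x) := by (clear * - hx2; gcongr)
        _ = (‖fderiv ℝ χ x‖ * m x) * C2 := by ring
        _ ≤ C3 * C2 := mul_le_mul_of_nonneg_right (hx3 hxZ) hC2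
    linarith only [e1, e2]

theorem Lip1.add {Z : Set X} {m : X → ℝ} {g h : X → E}
    (h1 : Lip1 Z m g) (h2 : Lip1 Z m h) : Lip1 Z m (fun x => g x + h x) := by
  refine ⟨fun x hx => (h1.cd x hx).add (h2.cd x hx), fun z hz => ?_, fun z hz => ?_⟩
  · obtain ⟨C1, hC1, h1b⟩ := h1.bd z hz
    obtain ⟨C2, hC2, h2b⟩ := h2.bd z hz
    refine ⟨C1 + C2, by (clear * - hC1 hC2; positivity), ?_⟩
    filter_upwards [h1b, h2b] with x hx1 hx2
    refine (norm_add_le _ _).trans ?_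
    rw [add_mul]; exact add_le_add hx1 hx2
  · obtain ⟨C1, hC1, h1b⟩ := h1.dbd z hz
    obtain ⟨C2, hC2, h2b⟩ := h2.dbd z hz
    refine ⟨C1 + C2, by positivity, ?_⟩
    filter_upwards [h1b, h2b] with x hx1 hx2 hxZ
    rw [fderiv_fun_add ((h1.cd x hxZ).differentiableAt (by norm_num))
      ((h2.cd x hxZ).differentiableAt (by norm_num))]
    exact (norm_add_le _ _).trans (add_le_add (hx1 hxZ) (hx2 hxZ))

/-- linear maps dominated by `m` -/
theorem Lip1.linear {Z : Set X} {m : X → ℝ} (L : X →L[ℝ] E) {C : ℝ} (hC : 0 ≤ C)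
    (h : ∀ x, ‖L x‖ ≤ C * m x) : Lip1 Z m (fun x => L x) := by
  refine ⟨fun x _ => L.contDiff.contDiffAt, fun z _ => ⟨C, hC, Eventually.of_forall h⟩,
    fun z _ => ⟨‖L‖, norm_nonneg _, Eventually.of_forall fun x _ => ?_⟩⟩
  rw [L.fderiv]

/-- product of a function vanishing on `Z` with a dominated function is `C^1`. -/
theorem Lip1.contDiff {Z : Set X} {m : X → ℝ} {h : X → E} (H : Lip1 Z m h)
    (hm : Continuous m) (hm0 : ∀ z ∈ Z, m z = 0)
    {ν : X → ℝ} (hν : ContDiff ℝ 1 ν) (hν0 : ∀ z ∈ Z, ν z = 0) :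
    ContDiff ℝ 1 (fun x => ν x • h x) := by
  have hh0 : ∀ z ∈ Z, Tendsto h (𝓝 z) (𝓝 0) := by
    intro z hz
    obtain ⟨C, hC, hb⟩ := H.bd z hz
    refine squeeze_zero_norm' hb ?_
    have : Tendsto (fun x => C * m x) (𝓝 z) (𝓝 (C * m z)) := (hm.tendsto z).const_mul C
    rwa [hm0 z hz, mul_zero] at this
  have hhz : ∀ z ∈ Z, h z = 0 := by
    intro z hz
    obtain ⟨C, hC, hb⟩ := H.bd z hz
    have := hb.self_of_nhds
    rw [hm0 z hz, mul_zero] at this
    exact norm_le_zero_iff.mp this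
  refine contDiff_one_of_flat (Z := Z) (fun x hx => (hν.contDiffAt).smul (H.cd x hx)) ?_ ?_
  · intro z hz
    rw [hasFDerivAt_iff_isLittleO_nhds_zero]
    simp only [hν0 z hz, zero_smul, sub_zero, _root_.zero_apply]
    have e1 : (fun y : X => ν (z + y)) =O[𝓝 0] fun y => y := by
      have := ((hν.differentiable (by norm_num)) z).hasFDerivAt
      rw [hasFDerivAt_iff_isLittleO_nhds_zero] at this
      simp only [hν0 z hz, sub_zero] at this
      have h2 : (fun y : X => (fderiv ℝ ν z) y) =O[𝓝 0] fun y => y :=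
        (fderiv ℝ ν z).isBigO_id _
      have h3 := this.isBigO.add h2
      simpa only [sub_add_cancel] using h3
    have e2 : (fun y : X => h (z + y)) =o[𝓝 0] fun _ => (1 : ℝ) := by
      rw [Asymptotics.isLittleO_one_iff]
      have : Tendsto (fun y : X => z + y) (𝓝 0) (𝓝 z) := by
        have : Tendsto (fun y : X => z + y) (𝓝 0) (𝓝 (z + 0)) := by
          exact (continuous_const.add continuous_id).tendsto 0
        rwa [add_zero] at this
      exact (hh0 z hz).comp this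
    have e3 := (e1.norm_left.norm_right).mul_isLittleO e2.norm_left
    rw [← Asymptotics.isLittleO_norm_left, ← Asymptotics.isLittleO_norm_right]
    simpa only [norm_smul, Real.norm_eq_abs, mul_one] using e3
  · intro z hz ε hε
    obtain ⟨C1, hC1, h1⟩ := H.dbd z hz
    have t1 : Tendsto (fun x => |ν x| * C1) (𝓝 z) (𝓝 0) := by
      have : Tendsto (fun x => |ν x| * C1) (𝓝 z) (𝓝 (|ν z| * C1)) :=
        ((hν.continuous.tendsto z).abs).mul_const C1
      rwa [hν0 z hz, abs_zero, zero_mul] at this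
    have t2 : Tendsto (fun x => ‖fderiv ℝ ν x‖ * ‖h x‖) (𝓝 z) (𝓝 0) := by
      have c := (hν.continuous_fderiv (by norm_num)).tendsto z
      have : Tendsto (fun x => ‖fderiv ℝ ν x‖ * ‖h x‖) (𝓝 z) (𝓝 (‖fderiv ℝ ν z‖ * ‖(0 : E)‖)) :=
        c.norm.mul (hh0 z hz).norm
      rwa [norm_zero, mul_zero] at this
    filter_upwards [h1, t1.eventually (gt_mem_nhds (half_pos hε)),
      t2.eventually (gt_mem_nhds (half_pos hε))] with x hx1 hx2 hx3 hxZ
    refine (norm_fderiv_smul_le ((hν.differentiable (by norm_num)) x)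
      ((H.cd x hxZ).differentiableAt (by norm_num))).trans ?_
    have e1 : |ν x| * ‖fderiv ℝ h x‖ ≤ |ν x| * C1 := by
      gcongr
      exact hx1 hxZ
    linarith only [hx2, hx3, e1]


theorem frac_norm {N B m : X → ℝ} {x : X} (hN : DifferentiableAt ℝ N x)
    (hB : DifferentiableAt ℝ B x) (hNm : N x = m x ^ 2) (hm : 0 ≤ m x) {C : ℝ} (hC' : 0 ≤ C)
    (hdN : ‖fderiv ℝ N x‖ ≤ C * m x) (hZ : N x + B x ^ 2 ≠ 0) :
    ‖fderiv ℝ (fun x => N x / (N x + B x ^ 2)) x‖ * m x ≤ C + 2 * ‖fderiv ℝ B x‖ := by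
  set M := N x + B x ^ 2 with hM
  have hMd : HasFDerivAt (fun x => N x + B x ^ 2)
      (fderiv ℝ N x + (2 * B x) • fderiv ℝ B x) x := by
    have h1 := hB.hasFDerivAt.pow 2
    have h2 := hN.hasFDerivAt.add h1
    refine h2.congr_fderiv ?_
    ext v
    simp only [Nat.add_one_sub_one, pow_one, nsmul_eq_mul, Nat.cast_ofNat, add_apply, smul_apply, smul_eq_mul]
  have hinv := (hasDerivAt_inv hZ).comp_hasFDerivAt x hMd
  have hmul := hN.hasFDerivAt.mul hinv
  have hfd : fderiv ℝ (fun x => N x / (N x + B x ^ 2)) x =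
      (B x ^ 2 / M ^ 2) • fderiv ℝ N x - (2 * N x * B x / M ^ 2) • fderiv ℝ B x := by
    have h3 : HasFDerivAt (fun x => N x / (N x + B x ^ 2)) _ x := hmul
    rw [h3.fderiv]
    ext v
    simp only [Function.comp, _root_.add_apply, _root_.smul_apply, _root_.sub_apply, smul_eq_mul]
    rw [← hM]
    have hM0 : M ≠ 0 := hZ
    field_simp
    rw [hM]
    ring
  have hN0 : 0 ≤ N x := by rw [hNm]; (clear * -; positivity)
  have hMpos : 0 < M := lt_of_le_of_ne (by (clear * - hN0 hZ; positivity)) (Ne.symm hZ)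
  have hC : 0 ≤ C * m x := (norm_nonneg _).trans hdN
  rw [hfd]
  have h1 : ‖(B x ^ 2 / M ^ 2) • fderiv ℝ N x - (2 * N x * B x / M ^ 2) • fderiv ℝ B x‖ ≤
      B x ^ 2 / M ^ 2 * (C * m x) + 2 * N x * |B x| / M ^ 2 * ‖fderiv ℝ B x‖ := by
    refine (norm_sub_le _ _).trans ?_
    rw [norm_smul, norm_smul, Real.norm_eq_abs, Real.norm_eq_abs,
      abs_of_nonneg (by (clear * - hN0 hZ; positivity) : 0 ≤ B x ^ 2 / M ^ 2), abs_div, abs_mul, abs_mul,
      abs_of_nonneg hN0, abs_of_pos (by norm_num : (0 : ℝ) < 2),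
      abs_of_pos (by (clear * - hN0 hZ; positivity) : (0 : ℝ) < M ^ 2)]
    (clear * - hdN hN0 hZ; gcongr)
  have hCm : C * m x ^ 2 * B x ^ 2 / M ^ 2 ≤ C := by
    rw [div_le_iff₀ (by (clear * - hN0 hZ; positivity)), ← hNm]
    have : N x * B x ^ 2 ≤ M ^ 2 := by
      rw [hM]
      nlinarith only [hNm]
    calc C * N x * B x ^ 2 = C * (N x * B x ^ 2) := by ring
      _ ≤ C * M ^ 2 := mul_le_mul_of_nonneg_left this hC'
  have hBm : 2 * N x * |B x| / M ^ 2 * m x ≤ 2 := by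
    rw [div_mul_eq_mul_div, div_le_iff₀ (by (clear * - hN0 hZ; positivity))]
    have h2 : m x * |B x| ≤ M := by
      rw [hM, hNm, ← sq_abs (B x)]
      nlinarith only []
    have h3 : N x ≤ M := by rw [hM]; nlinarith only []
    calc 2 * N x * |B x| * m x = 2 * (N x * (m x * |B x|)) := by ring
      _ ≤ 2 * (M * M) := by (clear * - h3 h2 hm hN0 hZ; gcongr)
      _ = 2 * M ^ 2 := by ring
  calc ‖(B x ^ 2 / M ^ 2) • fderiv ℝ N x - (2 * N x * B x / M ^ 2) • fderiv ℝ B x‖ * m x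
      ≤ (B x ^ 2 / M ^ 2 * (C * m x) + 2 * N x * |B x| / M ^ 2 * ‖fderiv ℝ B x‖) * m x :=
        mul_le_mul_of_nonneg_right h1 hm
    _ = C * m x ^ 2 * B x ^ 2 / M ^ 2 + (2 * N x * |B x| / M ^ 2 * m x) * ‖fderiv ℝ B x‖ := by ring
    _ ≤ C + 2 * ‖fderiv ℝ B x‖ := by (clear * - hCm hBm; gcongr)

theorem Cut.frac {Z : Set X} {m N B : X → ℝ} (hN : ContDiff ℝ 1 N) (hB : ContDiff ℝ 1 B)
    (hNm : ∀ x, N x = m x ^ 2) (hm : ∀ x, 0 ≤ m x) {C : ℝ} (hC : 0 ≤ C)
    (hdN : ∀ x, ‖fderiv ℝ N x‖ ≤ C * m x) (hZ : ∀ x, x ∉ Z → N x + B x ^ 2 ≠ 0)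
    {c : ℝ → ℝ} (hc : ContDiff ℝ 1 c) : Cut Z m (fun x => c (N x / (N x + B x ^ 2))) := by
  have hs01 : ∀ x, N x / (N x + B x ^ 2) ∈ Set.Icc (0 : ℝ) 1 := by
    intro x
    have hN0 : 0 ≤ N x := by rw [hNm]; (clear * -; positivity)
    refine ⟨by (clear * - hN0; positivity), ?_⟩
    apply div_le_one_of_le₀ _ (by positivity)
    nlinarith only []
  have hsd : ∀ x, x ∉ Z → ContDiffAt ℝ 1 (fun x => N x / (N x + B x ^ 2)) x := fun x hx =>
    (hN.contDiffAt).div ((hN.contDiffAt).add (hB.contDiffAt.pow 2)) (hZ x hx)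
  refine ⟨fun x hx => (hc.contDiffAt).comp x (hsd x hx), fun z hz => ?_, fun z hz => ?_⟩
  · obtain ⟨M, hM⟩ := isCompact_Icc.exists_bound_of_continuousOn
      (s := Set.Icc (0 : ℝ) 1) (f := c) hc.continuous.continuousOn
    refine ⟨|M|, abs_nonneg _, Eventually.of_forall fun x => ?_⟩
    exact (hM _ (hs01 x)).trans (le_abs_self M)
  · obtain ⟨M, hM⟩ := isCompact_Icc.exists_bound_of_continuousOn
      (s := Set.Icc (0 : ℝ) 1) (f := deriv c) (hc.continuous_deriv (by norm_num)).continuousOn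
    have hM0 : 0 ≤ M := (norm_nonneg _).trans (hM 0 (by simp only [Set.mem_Icc, Std.le_refl, zero_le_one, and_self]))
    have hBc : ∀ᶠ x in 𝓝 z, ‖fderiv ℝ B x‖ < ‖fderiv ℝ B z‖ + 1 :=
      ((hB.continuous_fderiv (by norm_num)).tendsto z).norm.eventually
        (gt_mem_nhds (by linarith only []))
    refine ⟨M * (C + 2 * (‖fderiv ℝ B z‖ + 1)), by (clear * - hM0 hC; positivity), ?_⟩
    filter_upwards [hBc] with x hx hxZ
    have h1 := frac_norm ((hN.differentiable (by norm_num)) x) ((hB.differentiable (by norm_num)) x)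
      (hNm x) (hm x) hC (hdN x) (hZ x hxZ)
    have h2 : fderiv ℝ (fun x => c (N x / (N x + B x ^ 2))) x =
        (deriv c (N x / (N x + B x ^ 2))) • fderiv ℝ (fun x => N x / (N x + B x ^ 2)) x := by
      have h3 := ((hc.differentiable (by norm_num)) (N x / (N x + B x ^ 2))).hasDerivAt
      have h4 := ((hsd x hxZ).differentiableAt (by norm_num)).hasFDerivAt
      exact (h3.comp_hasFDerivAt x h4).fderiv
    rw [h2, norm_smul, mul_assoc]
    refine mul_le_mul (hM _ (hs01 x)) (h1.trans ?_) (mul_nonneg (norm_nonneg _) (hm x)) hM0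
    linarith only [hx]

end general

end RegFmod

namespace Par

variable (P : Par)

open RegFmod

theorem K_pos_aux : 0 < P.K := by
  have h1 := P.nt.h_pos
  have hΛ : 64 ≤ P.Λ := by
    have h2 : 1 ≤ Real.exp (16 / P.h) := Real.one_le_exp (by positivity)
    have := P.Λ_ge
    linarith only [h2, this]
  have hlog : 0 < Real.log P.Λ := Real.log_pos (by linarith)
  have hH := P.nt.one_le
  have : 0 < 10 * P.H * Real.log P.Λ := by positivity
  exact this.trans_le P.K_ge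

theorem nuR_contDiff : ContDiff ℝ 1 (fun θ : ℝ => nu (Circle.exp θ)) := by
  unfold nu
  have h : ContDiff ℝ 1 (fun θ : ℝ => ((Circle.exp θ : Circle) : ℂ) - 1) := by
    simp only [Circle.coe_exp]
    exact ((Complex.ofRealCLM.contDiff.mul contDiff_const).cexp).sub contDiff_const
  exact (h.norm_sq ℝ).div_const 4

theorem rf_AR_contDiff : ContDiff ℝ 1 (fun θ : ℝ => P.A (Circle.exp θ)) := by
  unfold A
  exact (expNegInvGlue.contDiff (n := 1)).comp (nuR_contDiff.div_const P.K)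

theorem cutA_contDiff : ContDiff ℝ 1 cutA := by
  unfold cutA
  exact (Real.smoothTransition.contDiff (n := 1)).comp
    (contDiff_const.sub (contDiff_const.mul contDiff_id))

theorem cutB_contDiff : ContDiff ℝ 1 cutB := by
  unfold cutB
  exact (Real.smoothTransition.contDiff (n := 1)).comp
    ((contDiff_const.sub (contDiff_const.mul contDiff_id)).div_const 7)

/-- the part of `F` with the linear map -/
noncomputable def F1 (ζ : Circle) (z : ℂ) (v : P.V) : P.V :=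
  ((P.chi2 ζ (‖z‖ ^ 2 + ‖v‖ ^ 2) * (2 * P.Λ * nu ζ) : ℝ) : ℂ) •
      P.U (P.hat v + ((P.chi1 ζ (‖z‖ ^ 2 + ‖v‖ ^ 2) : ℂ) * z) • P.bas 0)

theorem F_eq_F1_add (ζ : Circle) (z : ℂ) (v : P.V) : P.F ζ z v = P.F1 ζ z v + P.W ζ z := rfl

/-- the domain -/
abbrev X : Type := ℝ × ℂ × P.V

noncomputable def NN (q : P.X) : ℝ := ‖q.2.1‖ ^ 2 + ‖q.2.2‖ ^ 2

noncomputable def hatL : P.V →L[ℂ] P.V :=
  ContinuousLinearMap.id ℂ P.V - (EuclideanSpace.proj (0 : ZMod P.p)).smulRight (P.bas 0)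

noncomputable def L1 : P.X →L[ℝ] P.V :=
  ((P.U.toContinuousLinearEquiv.toContinuousLinearMap.comp P.hatL).restrictScalars ℝ).comp
    ((ContinuousLinearMap.snd ℝ ℂ P.V).comp (ContinuousLinearMap.snd ℝ ℝ (ℂ × P.V)))

theorem L1_apply (q : P.X) : P.L1 q = P.U (P.hat q.2.2) := rfl

noncomputable def L2 : P.X →L[ℝ] P.V :=
  ((P.U.toContinuousLinearEquiv.toContinuousLinearMap.comp
    ((ContinuousLinearMap.id ℂ ℂ).smulRight (P.bas 0))).restrictScalars ℝ).comp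
    ((ContinuousLinearMap.fst ℝ ℂ P.V).comp (ContinuousLinearMap.snd ℝ ℝ (ℂ × P.V)))

theorem L2_apply (q : P.X) : P.L2 q = P.U (q.2.1 • P.bas 0) := rfl

theorem F1_eq (q : P.X) : P.F1 (Circle.exp q.1) q.2.1 q.2.2 =
    nu (Circle.exp q.1) • ((2 * P.Λ) • (P.chi2 (Circle.exp q.1) (P.NN q) •
      (P.L1 q + P.chi1 (Circle.exp q.1) (P.NN q) • P.L2 q))) := by
  unfold F1
  rw [L1_apply, L2_apply]
  change ((P.chi2 (Circle.exp q.1) (P.NN q) * (2 * P.Λ * nu (Circle.exp q.1)) : ℝ) : ℂ) •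
      P.U (P.hat q.2.2 + ((P.chi1 (Circle.exp q.1) (P.NN q) : ℂ) * q.2.1) • P.bas 0) = _
  rw [Complex.coe_smul, smul_smul, smul_smul, map_add,
    mul_smul (P.chi1 (Circle.exp q.1) (P.NN q) : ℂ) q.2.1 (P.bas 0), map_smul P.U, Complex.coe_smul]
  congr 1
  ring

theorem NN_contDiff : ContDiff ℝ 1 P.NN := by
  unfold NN
  exact (contDiff_snd.fst.norm_sq ℝ).add (contDiff_snd.snd.norm_sq ℝ)

theorem NN_nonneg (q : P.X) : 0 ≤ P.NN q := by unfold NN; positivity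

theorem norm_le_sqrt_left (q : P.X) : ‖q.2.1‖ ≤ Real.sqrt (P.NN q) := by
  apply Real.le_sqrt_of_sq_le
  unfold NN; nlinarith only []

theorem norm_le_sqrt_right (q : P.X) : ‖q.2.2‖ ≤ Real.sqrt (P.NN q) := by
  apply Real.le_sqrt_of_sq_le
  unfold NN; nlinarith only []

theorem NN_fderiv (q : P.X) : ‖fderiv ℝ P.NN q‖ ≤ 4 * Real.sqrt (P.NN q) := by
  have h1 : HasFDerivAt (fun q : P.X => q.2.1)
      ((ContinuousLinearMap.fst ℝ ℂ P.V).comp (ContinuousLinearMap.snd ℝ ℝ (ℂ × P.V))) q :=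
    ((ContinuousLinearMap.fst ℝ ℂ P.V).comp (ContinuousLinearMap.snd ℝ ℝ (ℂ × P.V))).hasFDerivAt
  have h2 : HasFDerivAt (fun q : P.X => q.2.2)
      ((ContinuousLinearMap.snd ℝ ℂ P.V).comp (ContinuousLinearMap.snd ℝ ℝ (ℂ × P.V))) q :=
    ((ContinuousLinearMap.snd ℝ ℂ P.V).comp (ContinuousLinearMap.snd ℝ ℝ (ℂ × P.V))).hasFDerivAt
  have h3 := h1.norm_sq.add h2.norm_sq
  have h4 : fderiv ℝ P.NN q = _ := h3.fderiv
  rw [h4]
  have e1 := P.norm_le_sqrt_left q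
  have e2 := P.norm_le_sqrt_right q
  refine ContinuousLinearMap.opNorm_le_bound _ (by (clear * -; positivity)) fun x => ?_
  have hx1 : ‖x.2.1‖ ≤ ‖x‖ := (norm_fst_le x.2).trans (norm_snd_le x)
  have hx2 : ‖x.2.2‖ ≤ ‖x‖ := (norm_snd_le x.2).trans (norm_snd_le x)
  have b1 := abs_real_inner_le_norm q.2.1 x.2.1
  have b2 := abs_real_inner_le_norm q.2.2 x.2.2
  have c1 : ‖q.2.1‖ * ‖x.2.1‖ ≤ Real.sqrt (P.NN q) * ‖x‖ :=
    mul_le_mul e1 hx1 (norm_nonneg _) (Real.sqrt_nonneg _)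
  have c2 : ‖q.2.2‖ * ‖x.2.2‖ ≤ Real.sqrt (P.NN q) * ‖x‖ :=
    mul_le_mul e2 hx2 (norm_nonneg _) (Real.sqrt_nonneg _)
  change ‖(2 • inner ℝ q.2.1 x.2.1 + 2 • inner ℝ q.2.2 x.2.2 : ℝ)‖ ≤ _
  rw [Real.norm_eq_abs]
  refine (abs_add_le _ _).trans ?_
  simp only [nsmul_eq_mul, abs_mul, Nat.cast_ofNat, abs_of_pos (by norm_num : (0 : ℝ) < 2)]
  linarith only [b1, b2, c1, c2]

/-- the singular set -/
def ZZ : Set P.X := {q | P.A (Circle.exp q.1) = 0 ∧ P.NN q = 0}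

theorem cut1 : Cut P.ZZ (fun q => Real.sqrt (P.NN q))
    (fun q => P.chi1 (Circle.exp q.1) (P.NN q)) := by
  have h := Cut.frac (Z := P.ZZ) (m := fun q => Real.sqrt (P.NN q)) (N := P.NN)
    (B := fun q => P.A (Circle.exp q.1) ^ 2) P.NN_contDiff
    ((P.rf_AR_contDiff.comp contDiff_fst).pow 2)
    (fun q => (Real.sq_sqrt (P.NN_nonneg q)).symm) (fun q => Real.sqrt_nonneg _)
    (by norm_num : (0 : ℝ) ≤ 4) P.NN_fderiv ?_ cutA_contDiff
  · have e : (fun q : P.X => P.chi1 (Circle.exp q.1) (P.NN q)) =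
        fun q => cutA (P.NN q / (P.NN q + (P.A (Circle.exp q.1) ^ 2) ^ 2)) := by
      funext q
      unfold chi1
      rw [← pow_mul]
    rw [e]; exact h
  · intro q hq h0
    apply hq
    have h1 := P.NN_nonneg q
    have h2 : 0 ≤ (P.A (Circle.exp q.1) ^ 2) ^ 2 := by (clear * -; positivity)
    have h3 : (P.A (Circle.exp q.1) ^ 2) ^ 2 = 0 := by linarith only [h2, h0, h1]
    refine ⟨?_, by linarith only [h1, h0, h2]⟩
    simpa using h3

theorem cut2 : Cut P.ZZ (fun q => Real.sqrt (P.NN q))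
    (fun q => P.chi2 (Circle.exp q.1) (P.NN q)) := by
  refine Cut.frac (Z := P.ZZ) (m := fun q => Real.sqrt (P.NN q)) (N := P.NN)
    (B := fun q => P.A (Circle.exp q.1)) P.NN_contDiff
    (P.rf_AR_contDiff.comp contDiff_fst)
    (fun q => (Real.sq_sqrt (P.NN_nonneg q)).symm) (fun q => Real.sqrt_nonneg _)
    (by norm_num : (0 : ℝ) ≤ 4) P.NN_fderiv ?_ cutB_contDiff
  · intro q hq h0
    apply hq
    have h1 := P.NN_nonneg q
    have h2 : 0 ≤ P.A (Circle.exp q.1) ^ 2 := by (clear * -; positivity)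
    have h3 : P.A (Circle.exp q.1) ^ 2 = 0 := by linarith
    refine ⟨?_, by linarith⟩
    simpa only [ne_eq, OfNat.ofNat_ne_zero, not_false_eq_true, pow_eq_zero_iff] using h3

theorem lip_L1 : Lip1 P.ZZ (fun q => Real.sqrt (P.NN q)) (fun q => P.L1 q) := by
  refine Lip1.linear P.L1 (C := ‖P.U.toContinuousLinearEquiv.toContinuousLinearMap.comp P.hatL‖)
    (norm_nonneg _) fun q => ?_
  refine (ContinuousLinearMap.le_opNorm
    (P.U.toContinuousLinearEquiv.toContinuousLinearMap.comp P.hatL) q.2.2).trans ?_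
  exact mul_le_mul_of_nonneg_left (P.norm_le_sqrt_right q) (norm_nonneg _)

theorem lip_L2 : Lip1 P.ZZ (fun q => Real.sqrt (P.NN q)) (fun q => P.L2 q) := by
  refine Lip1.linear P.L2 (C := ‖P.bas 0‖) (norm_nonneg _) fun q => ?_
  rw [L2_apply, LinearIsometryEquiv.norm_map, norm_smul, mul_comm]
  exact mul_le_mul_of_nonneg_left (P.norm_le_sqrt_left q) (norm_nonneg _)

theorem nu_eq_zero_of_A {ζ : Circle} (h : P.A ζ = 0) : nu ζ = 0 := by
  have hK := P.K_pos_aux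
  unfold A at h
  have h1 : nu ζ / P.K ≤ 0 := by
    by_contra hc
    push Not at hc
    exact (expNegInvGlue.pos_of_pos hc).ne' h
  have h2 : 0 ≤ nu ζ := by unfold nu; (clear * -; positivity)
  have h3 : nu ζ ≤ 0 := by
    by_contra hc
    push Not at hc
    have : 0 < nu ζ / P.K := div_pos hc hK
    linarith only [h1, this]
  linarith only [h2, h3]

theorem F1_contDiff :
    ContDiff ℝ 1 (fun q : ℝ × ℂ × P.V => P.F1 (Circle.exp q.1) q.2.1 q.2.2) := by
  have e : (fun q : ℝ × ℂ × P.V => P.F1 (Circle.exp q.1) q.2.1 q.2.2) = fun q : P.X =>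
      nu (Circle.exp q.1) • ((2 * P.Λ) • (P.chi2 (Circle.exp q.1) (P.NN q) •
      (P.L1 q + P.chi1 (Circle.exp q.1) (P.NN q) • P.L2 q))) := by
    funext q
    exact P.F1_eq q
  rw [e]
  have hc : Cut P.ZZ (fun q => Real.sqrt (P.NN q)) (fun _ : P.X => 2 * P.Λ) :=
    ⟨fun x _ => contDiffAt_const, fun z _ => ⟨_, abs_nonneg _, Eventually.of_forall fun x => le_rfl⟩,
      fun z _ => ⟨0, le_rfl, Eventually.of_forall fun x _ => by simp only [fderiv_fun_const, Pi.zero_apply, norm_zero, zero_mul, Std.le_refl]⟩⟩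
  have h := hc.smul (P.cut2.smul (P.lip_L1.add (P.cut1.smul P.lip_L2)))
  refine h.contDiff (Real.continuous_sqrt.comp P.NN_contDiff.continuous) ?_
    (nuR_contDiff.comp contDiff_fst) ?_
  · intro z hz
    rw [hz.2, Real.sqrt_zero]
  · intro z hz
    exact P.nu_eq_zero_of_A hz.1

/-- `F` is `C^1` as soon as `W` is. -/
theorem F_contDiff_of (hW : ContDiff ℝ 1 (fun q : ℝ × ℂ => P.W (Circle.exp q.1) q.2)) :
    ContDiff ℝ 1 (fun q : ℝ × ℂ × P.V => P.F (Circle.exp q.1) q.2.1 q.2.2) := by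
  have h1 : ContDiff ℝ 1 (fun q : ℝ × ℂ × P.V => ((q.1, q.2.1) : ℝ × ℂ)) :=
    contDiff_fst.prodMk (contDiff_fst.comp contDiff_snd)
  have h2 : ContDiff ℝ 1 (fun q : ℝ × ℂ × P.V => P.W (Circle.exp q.1) q.2.1) :=
    ContDiff.comp (g := fun q : ℝ × ℂ => P.W (Circle.exp q.1) q.2)
      (f := fun q : ℝ × ℂ × P.V => ((q.1, q.2.1) : ℝ × ℂ)) hW h1
  have h3 := P.F1_contDiff.add h2
  have e : (fun q : ℝ × ℂ × P.V => P.F (Circle.exp q.1) q.2.1 q.2.2) =
      fun q => P.F1 (Circle.exp q.1) q.2.1 q.2.2 + P.W (Circle.exp q.1) q.2.1 := by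
    funext q
    exact P.F_eq_F1_add _ _ _
  rw [e]
  exact h3

end Par

end Vale.Agent.P103
end
end

section

section

/-!
# P103: separation of the alive indices, and a large coefficient
-/

namespace Vale.Agent.P103

open scoped BigOperators Topology
open Finset

namespace Par

variable (P : Par)

/-- (SP) separation -/
theorem separation {ζ : Circle} {a : ℝ} {t : ℕ} (h1 : P.A ζ ^ 2 ≤ a) (ha : 0 < a)
    (h2 : a < 2 * P.A ζ) (ht : 1 ≤ t)
    (h3 : ∀ s < t, a * P.q ζ s < 2 * P.A (P.ω ^ s * ζ))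
    (h4 : P.A (P.ω ^ t * ζ) < a * P.q ζ t) : ¬ P.p ∣ t := by
  have hA : 0 < P.A ζ := by linarith only [ha, h2]
  have hν : 0 < nu ζ := P.nu_pos_of_A hA
  have hν1 : nu ζ ≤ 1 := nu_le_one ζ
  have hH := P.one_le_H
  have hK := P.K_ge_200
  have hKL := P.K_ge
  have hL := P.log_Λ_ge
  have hAe := P.A_eq_exp hν
  -- notation
  obtain ⟨y, hy⟩ : ∃ y, y = P.H / nu ζ := ⟨_, rfl⟩
  obtain ⟨x, hx⟩ : ∃ x, x = P.K / nu ζ := ⟨_, rfl⟩
  have hy1 : 1 ≤ y := by rw [hy, le_div_iff₀ hν]; linarith only [hν1, hH]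
  have hxy : 200 * y ≤ x := by
    rw [hx, hy, ← mul_div_assoc]
    exact div_le_div_of_nonneg_right hK hν.le
  have hxL : 10 * (y * Real.log P.Λ) ≤ x := by
    rw [hx, hy, div_mul_eq_mul_div, ← mul_div_assoc]
    exact div_le_div_of_nonneg_right (by linarith only [hKL]) hν.le
  rw [← hx] at hAe
  have he1 : (2 : ℝ) ≤ Real.exp 1 := by have := Real.add_one_le_exp (1 : ℝ); linarith only [this]
  obtain ⟨s, s1, s2, s3, s4⟩ := P.exists_first' ζ (v := nu ζ / 3) (by positivity) (by linarith only [hν1])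
  have e1 : P.H / (nu ζ / 3) = 3 * y := by rw [hy]; (clear * - hν hH; field_simp)
  have e2 : P.K / (nu ζ / 3) = 3 * x := by rw [hx]; (clear * - hν; field_simp)
  rw [e1] at s4
  have hts : t ≤ s := by
    by_contra hc
    have hc' : s < t := not_le.1 hc
    have g1 := h3 s hc'
    have g2 : P.A (P.ω ^ s * ζ) ≤ Real.exp (-(3 * x)) := by
      have := P.A_le_exp (v := nu ζ / 3) (by positivity) s2
      rwa [e2] at this
    have g3 : Real.exp (-x) ^ 2 * Real.exp (-(3 * y)) ≤ a * P.q ζ s := by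
      rw [hAe] at h1
      exact mul_le_mul h1 s4 (Real.exp_pos _).le ha.le
    have g4 : Real.exp (-x) ^ 2 * Real.exp (-(3 * y)) < Real.exp (1 + -(3 * x)) := by
      rw [Real.exp_add]
      have := Real.exp_pos (-(3 * x))
      nlinarith only [g1, g2, g3, he1, this]
    rw [← Real.exp_nat_mul, ← Real.exp_add, Real.exp_lt_exp] at g4
    push_cast at g4
    linarith only [hy1, hxy, g4]
  have hts' : (t : ℝ) ≤ s := by exact_mod_cast hts
  -- the square roots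
  obtain ⟨σ, hσ⟩ : ∃ σ, σ = Real.sqrt (nu ζ) := ⟨_, rfl⟩
  have hσ0 : 0 < σ := by rw [hσ]; exact Real.sqrt_pos.2 hν
  have hσ2 : σ * σ = nu ζ := by rw [hσ]; exact Real.mul_self_sqrt hν.le
  have hσ1 : σ ≤ 1 := by rw [hσ]; exact Real.sqrt_le_one.2 hν1
  have h32 : Real.sqrt 3 ^ 2 = 3 := Real.sq_sqrt (by norm_num)
  have h30 : 0 < Real.sqrt 3 := Real.sqrt_pos.2 (by norm_num)
  have h3u : Real.sqrt 3 ≤ 1.7321 := by
    rw [Real.sqrt_le_left (by norm_num)]; norm_num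
  have h2u : Real.sqrt 2 ≤ 1.4143 := by
    rw [Real.sqrt_le_left (by norm_num)]; norm_num
  have hv3 : Real.sqrt (nu ζ / 3) = σ / Real.sqrt 3 := by
    rw [Real.sqrt_div hν.le, hσ]
  have ht1 : (t : ℝ) * (2 * σ) ≤ 1.7321 * P.H := by
    have g1 : (t : ℝ) * (2 * (σ / Real.sqrt 3)) ≤ P.H := by
      rw [← hv3]
      exact (mul_le_mul_of_nonneg_right hts' (by positivity)).trans s1
    have g2 : (t : ℝ) * (2 * σ) = (t : ℝ) * (2 * (σ / Real.sqrt 3)) * Real.sqrt 3 := by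
      (clear * - hσ0 ht; field_simp)
    rw [g2]
    calc (t : ℝ) * (2 * (σ / Real.sqrt 3)) * Real.sqrt 3 ≤ P.H * Real.sqrt 3 :=
          mul_le_mul_of_nonneg_right g1 h30.le
      _ ≤ 1.7321 * P.H := by rw [mul_comm]; exact mul_le_mul_of_nonneg_right h3u (by linarith only [hH])
  have hty : (t : ℝ) ≤ 0.87 * y := by
    rw [hy, ← mul_div_assoc, le_div_iff₀ hν, ← hσ2]
    have : (t : ℝ) * (σ * σ) ≤ t * σ := by
      have : (t : ℝ) * σ * σ ≤ t * σ * 1 := mul_le_mul_of_nonneg_left hσ1 (by (clear * - ht hσ0; positivity))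
      linarith only [this]
    linarith only [hH, ht1, this]
  -- `ν_t ≤ 2 ν`
  have hνt : nu (P.ω ^ t * ζ) ≤ 2 * nu ζ := by
    by_contra hc
    have g0 := P.exp_lt_A (v := 2 * nu ζ) (by positivity) (not_le.1 hc)
    have e3 : P.K / (2 * nu ζ) = x / 2 := by rw [hx]; (clear * - hν; field_simp)
    rw [e3] at g0
    have g1 : P.q ζ t ≤ Real.exp (t * Real.log P.Λ) := by
      rw [Real.exp_nat_mul, Real.exp_log P.Λ_pos]; exact P.q_le ζ t
    have g2 : a * P.q ζ t ≤ Real.exp 1 * Real.exp (-x) * Real.exp (t * Real.log P.Λ) := by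
      refine mul_le_mul ?_ g1 (P.q_nonneg _ _) (by positivity)
      rw [hAe] at h2
      have := Real.exp_pos (-x)
      nlinarith only [h2, he1, h1]
    have g3 : Real.exp (-(x / 2)) < Real.exp 1 * Real.exp (-x) * Real.exp (t * Real.log P.Λ) := by
      linarith only [h4, g0, g2]
    rw [← Real.exp_add, ← Real.exp_add, Real.exp_lt_exp] at g3
    have g4 : (t : ℝ) * Real.log P.Λ ≤ 0.87 * (y * Real.log P.Λ) := by
      rw [← mul_assoc]; exact mul_le_mul_of_nonneg_right hty (by linarith only [hL])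
    have g5 : 20 ≤ y * Real.log P.Λ := by nlinarith only [hy1, hxy, g3, g4]
    linarith only [hy1, hxy, hxL, g3, g4]
  -- the distance
  have hd : ‖((P.ω ^ t : Circle) : ℂ) - 1‖ ≤ 2 * σ * 2.4143 := by
    have g1 : ((P.ω ^ t : Circle) : ℂ) - 1 =
        ((((P.ω ^ t * ζ : Circle) : ℂ) - 1) - ((ζ : ℂ) - 1)) * ((ζ⁻¹ : Circle) : ℂ) := by
      have : (ζ : ℂ) * ((ζ⁻¹ : Circle) : ℂ) = 1 := by
        rw [← Circle.coe_mul, mul_inv_cancel, Circle.coe_one]
      rw [Circle.coe_mul]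
      linear_combination (-(((P.ω ^ t : Circle) : ℂ)) + 1) * this
    rw [g1, norm_mul, Circle.norm_coe, mul_one]
    have g2 : ‖((P.ω ^ t * ζ : Circle) : ℂ) - 1‖ ≤ 2 * (Real.sqrt 2 * σ) := by
      have := (nu_le_iff (by positivity)).1 hνt
      rwa [Real.sqrt_mul (by norm_num), ← hσ] at this
    have g3 : ‖(ζ : ℂ) - 1‖ = 2 * σ := by rw [norm_eq_sqrt_nu, hσ]
    calc _ ≤ ‖((P.ω ^ t * ζ : Circle) : ℂ) - 1‖ + ‖(ζ : ℂ) - 1‖ := norm_sub_le _ _
      _ ≤ 2 * (Real.sqrt 2 * σ) + 2 * σ := by rw [g3]; linarith only [g2]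
      _ ≤ 2 * σ * 2.4143 := by
          have g5 : Real.sqrt 2 * σ ≤ 1.4143 * σ := mul_le_mul_of_nonneg_right h2u hσ0.le
          linarith only [g5]
  intro hp
  have g1 := P.nt.sep t ht hp
  have g2 : (t : ℝ) * ‖((P.ω ^ t : Circle) : ℂ) - 1‖ ≤ (t : ℝ) * (2 * σ) * 2.4143 := by
    rw [mul_assoc]
    exact mul_le_mul_of_nonneg_left hd (Nat.cast_nonneg t)
  linarith only [hH, ht1, g1, g2]

/-- what it means that a coefficient is nonzero -/
theorem alive {ζ : Circle} {a : ℝ} {t : ℕ} (ha : 0 < a) (h : P.coef ζ a t ≠ 0) :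
    (∀ s < t, a * P.q ζ s < 2 * P.A (P.ω ^ s * ζ)) ∧ (∀ s < t, 0 < P.A (P.ω ^ s * ζ)) ∧
      0 < a * P.q ζ t ∧ P.A (P.ω ^ t * ζ) < a * P.q ζ t := by
  have hPr : P.Pr ζ a t ≠ 0 := by
    intro h0; apply h; unfold coef; rw [h0]; simp
  have hS : S (P.r ζ a t) ≠ 0 := by
    intro h0; apply h; unfold coef; rw [h0]; simp
  have h1 : ∀ s < t, 1 / 2 < P.r ζ a s := fun s hs => P.half_lt_r_of_Pr hPr hs
  have h2 : ∀ s < t, 0 < P.A (P.ω ^ s * ζ) := by
    intro s hs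
    have g := h1 s hs
    rcases (P.A_nonneg (P.ω ^ s * ζ)).eq_or_lt with h0 | h0
    · unfold r at g; rw [← h0, zero_div] at g; norm_num at g
    · exact h0
  have hq : ∀ s ≤ t, 0 < P.q ζ s := fun s hs =>
    P.q_pos fun j hj => P.nu_pos_of_A (h2 j (lt_of_lt_of_le hj hs))
  refine ⟨fun s hs => ?_, h2, mul_pos ha (hq t le_rfl), ?_⟩
  · have g := h1 s hs
    have hpos : 0 < a * P.q ζ s := mul_pos ha (hq s hs.le)
    unfold r at g
    rw [lt_div_iff₀ hpos] at g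
    linarith only [g]
  · have hpos : 0 < a * P.q ζ t := mul_pos ha (hq t le_rfl)
    have g : P.r ζ a t < 1 := by
      by_contra hc; exact hS (S_of_one_le (not_lt.1 hc))
    unfold r at g
    rwa [div_lt_one hpos] at g

/-- alive index `t ≥ 1`: separated from `0` when `A² ≤ a < 2A` -/
theorem coef_eq_zero_of_dvd {ζ : Circle} {a : ℝ} {t : ℕ} (h1 : P.A ζ ^ 2 ≤ a) (ha : 0 < a)
    (h2 : a < 2 * P.A ζ) (ht : 1 ≤ t) (hp : P.p ∣ t) : P.coef ζ a t = 0 := by
  by_contra h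
  obtain ⟨g1, _, _, g4⟩ := P.alive ha h
  exact P.separation h1 ha h2 ht g1 g4 hp

/-- two alive indices are different mod `p` -/
theorem coef_mul_coef {ζ : Circle} {a : ℝ} {t t' : ℕ} (ha : 0 < a) (h : t < t')
    (hp : P.p ∣ t' - t) (h1 : P.coef ζ a t ≠ 0) : P.coef ζ a t' = 0 := by
  by_contra h'
  obtain ⟨_, _, b3, b4⟩ := P.alive ha h1
  obtain ⟨g1, g2, _, g4⟩ := P.alive ha h'
  have hA := P.A_nonneg (P.ω ^ t * ζ)
  have hA1 := P.A_le_one (P.ω ^ t * ζ)
  refine P.separation (ζ := P.ω ^ t * ζ) (a := a * P.q ζ t) (t := t' - t) ?_ b3 (g1 t h)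
    (by omega) (fun s hs => ?_) ?_ hp
  · nlinarith only [hA1, b4, hA]
  · have := g1 (t + s) (by omega)
    have e2 : P.ω ^ (t + s) * ζ = P.ω ^ s * (P.ω ^ t * ζ) := by
      rw [← mul_assoc, ← pow_add, add_comm]
    rwa [q_add, ← mul_assoc a, e2] at this
  · have e : t + (t' - t) = t' := by omega
    have e1 : P.q ζ t' = P.q ζ t * P.q (P.ω ^ t * ζ) (t' - t) := by rw [← q_add, e]
    have e2 : P.ω ^ (t' - t) * (P.ω ^ t * ζ) = P.ω ^ t' * ζ := by
      rw [← mul_assoc, ← pow_add]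
      congr 2; omega
    rw [e2, mul_assoc a, ← e1]
    exact g4

/-- some coefficient is not too small (used for (LB)) -/
theorem exists_large_coef {ζ : Circle} {a : ℝ} (hA : 0 < P.A ζ) (h1 : P.A ζ ≤ a) :
    ∃ t : ℕ, 3 * P.A ζ ^ 2 ≤ P.coef ζ a t := by
  have ha : 0 < a := lt_of_lt_of_le hA h1
  have hν : 0 < nu ζ := P.nu_pos_of_A hA
  have hν1 : nu ζ ≤ 1 := nu_le_one ζ
  have hH := P.one_le_H
  have hK := P.K_ge_200
  have hAe := P.A_eq_exp hν
  obtain ⟨y, hy⟩ : ∃ y, y = P.H / nu ζ := ⟨_, rfl⟩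
  obtain ⟨x, hx⟩ : ∃ x, x = P.K / nu ζ := ⟨_, rfl⟩
  have hy1 : 1 ≤ y := by rw [hy, le_div_iff₀ hν]; linarith only [hν1, hH]
  have hxy : 200 * y ≤ x := by
    rw [hx, hy, ← mul_div_assoc]
    exact div_le_div_of_nonneg_right hK hν.le
  rw [← hx] at hAe
  have he1 : (2 : ℝ) ≤ Real.exp 1 := by have := Real.add_one_le_exp (1 : ℝ); linarith only [this]
  obtain ⟨s, s1, s2, s3, s4⟩ := P.exists_first' ζ (v := nu ζ / 3) (by positivity) (by linarith only [hν1])
  have e1 : P.H / (nu ζ / 3) = 3 * y := by rw [hy]; field_simp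
  have e2 : P.K / (nu ζ / 3) = 3 * x := by rw [hx]; field_simp
  rw [e1] at s4
  -- stop at `s`
  have hstop : kk (P.r ζ a s) = 1 := by
    apply kk_of_le
    have g2 : P.A (P.ω ^ s * ζ) ≤ Real.exp (-(3 * x)) := by
      have := P.A_le_exp (v := nu ζ / 3) (by positivity) s2
      rwa [e2] at this
    have g3 : Real.exp (-x) * Real.exp (-(3 * y)) ≤ a * P.q ζ s := by
      rw [← hAe]; exact mul_le_mul h1 s4 (Real.exp_pos _).le ha.le
    have hpos : 0 < a * P.q ζ s := lt_of_lt_of_le (by positivity) g3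
    unfold r
    rw [div_le_iff₀ hpos]
    have g4 : Real.exp 1 * Real.exp (-(3 * x)) ≤ Real.exp (-x) * Real.exp (-(3 * y)) := by
      rw [← Real.exp_add, ← Real.exp_add, Real.exp_le_exp]; linarith only [hy1, hxy]
    have := Real.exp_pos (-(3 * x))
    nlinarith only [g2, g3, g4, he1, this]
  have hPs : P.Pr ζ a (s + 1) = 0 := P.Pr_eq_zero_of hstop (Nat.lt_succ_self s)
  have hsum := P.sum_Pr_kk ζ a (s + 1)
  rw [hPs, sub_zero] at hsum
  -- pick a large term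
  have hex : ∃ t ∈ Finset.range (s + 1), 1 / ((s : ℝ) + 1) ≤ P.Pr ζ a t * kk (P.r ζ a t) := by
    by_contra hc
    push Not at hc
    have : ∑ t ∈ Finset.range (s + 1), P.Pr ζ a t * kk (P.r ζ a t) <
        ∑ _t ∈ Finset.range (s + 1), 1 / ((s : ℝ) + 1) :=
      Finset.sum_lt_sum_of_nonempty ⟨0, by simp only [mem_range, lt_add_iff_pos_left, Order.lt_add_one_iff, zero_le]⟩ hc
    rw [hsum, Finset.sum_const, Finset.card_range, nsmul_eq_mul] at this
    push_cast at this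
    rw [mul_one_div_cancel (by (clear * -; positivity))] at this
    exact lt_irrefl _ this
  obtain ⟨t, ht, htl⟩ := hex
  have hts : t ≤ s := Nat.lt_succ_iff.1 (Finset.mem_range.1 ht)
  refine ⟨t, ?_⟩
  -- bound for `4^s`
  have hsy : (s : ℝ) ≤ 0.87 * y := by
    obtain ⟨σ, hσ⟩ : ∃ σ, σ = Real.sqrt (nu ζ) := ⟨_, rfl⟩
    have hσ0 : 0 < σ := by rw [hσ]; exact Real.sqrt_pos.2 hν
    have hσ2 : σ * σ = nu ζ := by rw [hσ]; exact Real.mul_self_sqrt hν.le
    have hσ1 : σ ≤ 1 := by rw [hσ]; exact Real.sqrt_le_one.2 hν1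
    have h30 : 0 < Real.sqrt 3 := Real.sqrt_pos.2 (by norm_num)
    have h3u : Real.sqrt 3 ≤ 1.7321 := by
      rw [Real.sqrt_le_left (by norm_num)]; norm_num
    have hv3 : Real.sqrt (nu ζ / 3) = σ / Real.sqrt 3 := by
      rw [Real.sqrt_div hν.le, hσ]
    rw [hv3] at s1
    have g2 : (s : ℝ) * (2 * σ) = (s : ℝ) * (2 * (σ / Real.sqrt 3)) * Real.sqrt 3 := by
      (clear * - hσ0; field_simp)
    have ht1 : (s : ℝ) * (2 * σ) ≤ 1.7321 * P.H := by
      rw [g2]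
      calc (s : ℝ) * (2 * (σ / Real.sqrt 3)) * Real.sqrt 3 ≤ P.H * Real.sqrt 3 :=
            mul_le_mul_of_nonneg_right s1 h30.le
        _ ≤ 1.7321 * P.H := by
            rw [mul_comm]; exact mul_le_mul_of_nonneg_right h3u (by linarith only [hH])
    rw [hy, ← mul_div_assoc, le_div_iff₀ hν, ← hσ2]
    have : (s : ℝ) * (σ * σ) ≤ s * σ := by
      have : (s : ℝ) * σ * σ ≤ s * σ * 1 := mul_le_mul_of_nonneg_left hσ1 (by (clear * - hσ0; positivity))
      linarith only [this]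
    linarith only [hH, ht1, this]
  have h4s : (4 : ℝ) ^ s ≤ Real.exp (2 * y) := by
    have g1 : (4 : ℝ) ≤ Real.exp 2 := by
      have : Real.exp 2 = Real.exp 1 * Real.exp 1 := by rw [← Real.exp_add]; norm_num
      rw [this]; nlinarith only [he1]
    calc (4 : ℝ) ^ s ≤ Real.exp 2 ^ s := pow_le_pow_left₀ (by norm_num) g1 s
      _ = Real.exp (s * 2) := (Real.exp_nat_mul 2 s).symm
      _ ≤ Real.exp (2 * y) := Real.exp_le_exp.2 (by linarith only [hsy])
  have hsp : (s : ℝ) + 1 ≤ 2 ^ s := by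
    have := @Nat.lt_two_pow_self s
    exact_mod_cast this
  have h2t : (2 : ℝ) ^ t ≤ 2 ^ s := pow_le_pow_right₀ (by norm_num) hts
  have hden : 4 * ((s : ℝ) + 1) * 2 ^ t ≤ 4 * 4 ^ s := by
    have : (4 : ℝ) ^ s = 2 ^ s * 2 ^ s := by rw [← mul_pow]; norm_num
    rw [this, mul_assoc]
    exact mul_le_mul_of_nonneg_left (mul_le_mul hsp h2t (by positivity) (by positivity))
      (by norm_num)
  have hsmall : 3 * P.A ζ * (4 * ((s : ℝ) + 1) * 2 ^ t) ≤ 1 := by
    have g1 : 3 * P.A ζ * (4 * ((s : ℝ) + 1) * 2 ^ t) ≤ 3 * P.A ζ * (4 * Real.exp (2 * y)) :=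
      mul_le_mul_of_nonneg_left (by linarith only [h4s, hden]) (by positivity)
    have g2 : P.A ζ * Real.exp (2 * y) = Real.exp (-x + 2 * y) := by rw [hAe, Real.exp_add]
    have g3 : Real.exp (-x + 2 * y) ≤ Real.exp (-4) := Real.exp_le_exp.2 (by linarith only [hy1, hxy])
    have g4 : Real.exp (-4) ≤ 1 / 16 := by
      have e4 : Real.exp 4 = Real.exp 1 * Real.exp 1 * (Real.exp 1 * Real.exp 1) := by
        rw [← Real.exp_add, ← Real.exp_add]; norm_num
      have : (16 : ℝ) ≤ Real.exp 4 := by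
        rw [e4]; (clear * - he1; nlinarith [mul_le_mul he1 he1 (by norm_num) (by linarith)])
      rw [Real.exp_neg, ← one_div]
      exact one_div_le_one_div_of_le (by norm_num) this
    nlinarith only [g1, g2, g3, g4]
  -- conclusion
  have hk := kk_le_S (P.r ζ a t)
  have hP := P.Pr_nonneg ζ a t
  have g1 : 1 / ((s : ℝ) + 1) ≤ 4 * (P.Pr ζ a t * S (P.r ζ a t)) := by
    calc 1 / ((s : ℝ) + 1) ≤ P.Pr ζ a t * kk (P.r ζ a t) := htl
      _ ≤ P.Pr ζ a t * (4 * S (P.r ζ a t)) := mul_le_mul_of_nonneg_left hk hP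
      _ = 4 * (P.Pr ζ a t * S (P.r ζ a t)) := by ring
  have g2 : 1 / (4 * ((s : ℝ) + 1)) ≤ P.Pr ζ a t * S (P.r ζ a t) := by
    have : 1 / (4 * ((s : ℝ) + 1)) = (1 / ((s : ℝ) + 1)) / 4 := by (clear * -; field_simp)
    rw [this]; linarith only [g1]
  unfold coef
  rw [le_div_iff₀ (by positivity)]
  calc 3 * P.A ζ ^ 2 * 2 ^ t
      = (3 * P.A ζ * (4 * ((s : ℝ) + 1) * 2 ^ t)) * (1 / (4 * ((s : ℝ) + 1))) * P.A ζ := by
        (clear * - hA; field_simp)
    _ ≤ 1 * (1 / (4 * ((s : ℝ) + 1))) * P.A ζ := by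
        refine mul_le_mul_of_nonneg_right (mul_le_mul_of_nonneg_right hsmall (by (clear * -; positivity))) hA.le
    _ ≤ (P.Pr ζ a t * S (P.r ζ a t)) * a := by
        rw [one_mul]
        exact mul_le_mul g2 h1 hA.le (le_trans (by (clear * -; positivity)) g2)

end Par

end Vale.Agent.P103
end
end

section

section

/-!
# P103: regularity of the disc family `e`
-/

namespace Vale.Agent.P103

open Filter Topology

namespace Par

variable (P : Par)

theorem regE_coef_nonneg (ζ : Circle) {a : ℝ} (ha : 0 ≤ a) (t : ℕ) : 0 ≤ P.coef ζ a t := by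
  unfold coef
  have h1 := P.Pr_nonneg ζ a t
  have h2 := S_nonneg (P.r ζ a t)
  positivity

theorem regE_coef_le (ζ : Circle) {a : ℝ} (ha : 0 ≤ a) (t : ℕ) : P.coef ζ a t ≤ a / 2 ^ t := by
  unfold coef
  have h1 := P.Pr_nonneg ζ a t
  have h2 := P.Pr_le_one ζ a t
  have h3 := S_nonneg (P.r ζ a t)
  have h4 := S_le_one (P.r_nonneg ζ ha t)
  have h5 : P.Pr ζ a t * S (P.r ζ a t) ≤ 1 := mul_le_one₀ h2 h3 h4
  have h6 : P.Pr ζ a t * S (P.r ζ a t) * a ≤ a := mul_le_of_le_one_left ha h5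
  (clear * - h6; gcongr)

/-- `e` in the angle variable -/
noncomputable def eR (q : ℝ × ℝ × ℂ) : P.V := P.e (Circle.exp q.1) q.2.1 q.2.2

/-- the `t`-th term of `e` in the angle variable -/
noncomputable def eT (t : ℕ) (q : ℝ × ℝ × ℂ) : P.V :=
  ((P.coef (Circle.exp q.1) q.2.1 t : ℂ) * q.2.2 ^ (2 ^ t)) • P.bas (-(t : ZMod P.p))

theorem regE_norm_bas (j : ZMod P.p) : ‖P.bas j‖ = 1 := by
  unfold bas
  simp

theorem eR_eq_sum (q : ℝ × ℝ × ℂ) (T : ℕ)
    (h : ∀ t, T ≤ t → P.coef (Circle.exp q.1) q.2.1 t = 0) :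
    P.eR q = ∑ t ∈ Finset.range T, P.eT t q := by
  unfold eR e eT
  apply tsum_eq_sum
  intro t ht
  rw [Finset.mem_range, not_lt] at ht
  rw [h t ht]
  simp only [Complex.ofReal_zero, zero_mul, zero_smul]

section termwise

variable {W : Type*} [NormedAddCommGroup W] [NormedSpace ℝ W] [NormedSpace ℂ W]
  [IsScalarTower ℝ ℂ W]

theorem regE_term_contDiffAt {c : ℝ × ℝ → ℝ} {θ a : ℝ}
    (hc : ContDiffAt ℝ 1 c (θ, a)) (u : ℂ) (n : ℕ) (b : W) :
    ContDiffAt ℝ 1 (fun q : ℝ × ℝ × ℂ => ((c (q.1, q.2.1) : ℂ) * q.2.2 ^ n) • b) (θ, a, u) := by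
  have h1 : ContDiffAt ℝ 1 (fun q : ℝ × ℝ × ℂ => (q.1, q.2.1)) (θ, a, u) :=
    (contDiff_fst.prodMk (contDiff_fst.comp contDiff_snd)).contDiffAt
  have h2 : ContDiffAt ℝ 1 (fun q : ℝ × ℝ × ℂ => c (q.1, q.2.1)) (θ, a, u) :=
    ContDiffAt.comp (g := c) (θ, a, u) hc h1
  have h3 : ContDiffAt ℝ 1
      (fun q : ℝ × ℝ × ℂ => ((c (q.1, q.2.1) : ℝ) : ℂ)) (θ, a, u) :=
    (Complex.ofRealCLM.contDiff.contDiffAt).comp (θ, a, u) h2
  have h4 : ContDiffAt ℝ 1 (fun q : ℝ × ℝ × ℂ => q.2.2 ^ n) (θ, a, u) :=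
    ((contDiff_snd.comp contDiff_snd).pow n).contDiffAt
  exact (h3.mul h4).smul contDiffAt_const

theorem regE_term_fderiv_a {c : ℝ × ℝ → ℝ} {θ a : ℝ}
    (hc : ContDiffAt ℝ 1 c (θ, a)) (u : ℂ) (n : ℕ) (b : W) :
    fderiv ℝ (fun q : ℝ × ℝ × ℂ => ((c (q.1, q.2.1) : ℂ) * q.2.2 ^ n) • b) (θ, a, u) (0, 1, 0) =
      (((deriv (fun a => c (θ, a)) a : ℝ) : ℂ) * u ^ n) • b := by
  have h1 : HasDerivAt (fun s : ℝ => (θ, s, u)) (0, 1, 0) a :=
    (hasDerivAt_const a θ).prodMk ((hasDerivAt_id a).prodMk (hasDerivAt_const a u))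
  have hd : DifferentiableAt ℝ
      (fun q : ℝ × ℝ × ℂ => ((c (q.1, q.2.1) : ℂ) * q.2.2 ^ n) • b) (θ, a, u) :=
    (regE_term_contDiffAt hc u n b).differentiableAt one_ne_zero
  have h2 := HasFDerivAt.comp_hasDerivAt a hd.hasFDerivAt h1
  have h3 : HasDerivAt (fun s : ℝ => (θ, s)) (0, 1) a :=
    (hasDerivAt_const a θ).prodMk (hasDerivAt_id a)
  have h4 := HasFDerivAt.comp_hasDerivAt a
      (hc.differentiableAt one_ne_zero).hasFDerivAt h3
  have h5 := h4.differentiableAt.hasDerivAt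
  have h6 := ((h5.ofReal_comp).mul_const (u ^ n)).smul_const b
  exact h2.unique h6

theorem regE_term_fderiv_θ {c : ℝ × ℝ → ℝ} {θ a : ℝ}
    (hc : ContDiffAt ℝ 1 c (θ, a)) (u : ℂ) (n : ℕ) (b : W) :
    fderiv ℝ (fun q : ℝ × ℝ × ℂ => ((c (q.1, q.2.1) : ℂ) * q.2.2 ^ n) • b) (θ, a, u) (1, 0, 0) =
      (((deriv (fun θ => c (θ, a)) θ : ℝ) : ℂ) * u ^ n) • b := by
  have h1 : HasDerivAt (fun s : ℝ => (s, a, u)) (1, 0, 0) θ :=
    (hasDerivAt_id θ).prodMk ((hasDerivAt_const θ a).prodMk (hasDerivAt_const θ u))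
  have hd : DifferentiableAt ℝ
      (fun q : ℝ × ℝ × ℂ => ((c (q.1, q.2.1) : ℂ) * q.2.2 ^ n) • b) (θ, a, u) :=
    (regE_term_contDiffAt hc u n b).differentiableAt one_ne_zero
  have h2 := HasFDerivAt.comp_hasDerivAt θ hd.hasFDerivAt h1
  have h3 : HasDerivAt (fun s : ℝ => (s, a)) (1, 0) θ :=
    (hasDerivAt_id θ).prodMk (hasDerivAt_const θ a)
  have h4 := HasFDerivAt.comp_hasDerivAt θ
      (hc.differentiableAt one_ne_zero).hasFDerivAt h3
  have h5 := h4.differentiableAt.hasDerivAt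
  have h6 := ((h5.ofReal_comp).mul_const (u ^ n)).smul_const b
  exact h2.unique h6

theorem regE_term_fderiv_u {c : ℝ × ℝ → ℝ} {θ a : ℝ}
    (hc : ContDiffAt ℝ 1 c (θ, a)) (u w : ℂ) (n : ℕ) (b : W) :
    fderiv ℝ (fun q : ℝ × ℝ × ℂ => ((c (q.1, q.2.1) : ℂ) * q.2.2 ^ n) • b) (θ, a, u) (0, 0, w) =
      ((c (θ, a) : ℂ) * (n * u ^ (n - 1) * w)) • b := by
  have h0 : HasDerivAt (fun s : ℝ => u + s • w) w 0 := by
    have := ((hasDerivAt_id (0 : ℝ)).smul_const w).const_add u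
    simpa using this
  have h1 : HasDerivAt (fun s : ℝ => (θ, a, u + s • w)) (0, 0, w) 0 :=
    (hasDerivAt_const 0 θ).prodMk ((hasDerivAt_const 0 a).prodMk h0)
  have hd : DifferentiableAt ℝ
      (fun q : ℝ × ℝ × ℂ => ((c (q.1, q.2.1) : ℂ) * q.2.2 ^ n) • b) (θ, a, u + (0 : ℝ) • w) := by
    rw [zero_smul, add_zero]
    exact (regE_term_contDiffAt hc u n b).differentiableAt one_ne_zero
  have h2 := HasFDerivAt.comp_hasDerivAt 0 hd.hasFDerivAt h1
  rw [zero_smul, add_zero] at h2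
  have h5 := h0.pow n
  rw [zero_smul, add_zero] at h5
  have h6 := (h5.const_mul ((c (θ, a) : ℝ) : ℂ)).smul_const b
  exact h2.unique h6

end termwise

theorem eT_contDiffAt (θ : ℝ) {a : ℝ} (ha : 0 < a) (u : ℂ) (t : ℕ) :
    ContDiffAt ℝ 1 (P.eT t) (θ, a, u) :=
  regE_term_contDiffAt (P.coef_contDiffAt θ ha t) u (2 ^ t) (P.bas (-(t : ZMod P.p)))

theorem eR_eventually_eq (θ : ℝ) {a : ℝ} (ha : 0 < a) (u : ℂ) :
    ∃ T : ℕ, P.eR =ᶠ[𝓝 (θ, a, u)] (fun q => ∑ t ∈ Finset.range T, P.eT t q) := by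
  obtain ⟨T, hT⟩ := P.coef_eventually_zero θ ha
  refine ⟨T, ?_⟩
  have hc : ContinuousAt (fun q : ℝ × ℝ × ℂ => (q.1, q.2.1)) (θ, a, u) := by fun_prop
  filter_upwards [hc.eventually hT] with q hq
  exact P.eR_eq_sum q T hq

theorem eR_contDiffAt (θ : ℝ) {a : ℝ} (ha : 0 < a) (u : ℂ) :
    ContDiffAt ℝ 1 P.eR (θ, a, u) := by
  obtain ⟨T, hT⟩ := P.eR_eventually_eq θ ha u
  refine ContDiffAt.congr_of_eventuallyEq ?_ hT
  exact ContDiffAt.sum fun t _ => P.eT_contDiffAt θ ha u t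

theorem eT_fderiv_a (θ : ℝ) {a : ℝ} (ha : 0 < a) (u : ℂ) (t : ℕ) :
    fderiv ℝ (P.eT t) (θ, a, u) (0, 1, 0) =
      (((deriv (fun a => P.coef (Circle.exp θ) a t) a : ℝ) : ℂ) * u ^ (2 ^ t)) •
        P.bas (-(t : ZMod P.p)) :=
  regE_term_fderiv_a (P.coef_contDiffAt θ ha t) u (2 ^ t) (P.bas (-(t : ZMod P.p)))

theorem eT_fderiv_θ (θ : ℝ) {a : ℝ} (ha : 0 < a) (u : ℂ) (t : ℕ) :
    fderiv ℝ (P.eT t) (θ, a, u) (1, 0, 0) =
      (((deriv (fun θ => P.coef (Circle.exp θ) a t) θ : ℝ) : ℂ) * u ^ (2 ^ t)) •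
        P.bas (-(t : ZMod P.p)) :=
  regE_term_fderiv_θ (P.coef_contDiffAt θ ha t) u (2 ^ t) (P.bas (-(t : ZMod P.p)))

theorem eT_fderiv_u (θ : ℝ) {a : ℝ} (ha : 0 < a) (u w : ℂ) (t : ℕ) :
    fderiv ℝ (P.eT t) (θ, a, u) (0, 0, w) =
      ((P.coef (Circle.exp θ) a t : ℂ) * ((2 ^ t : ℕ) * u ^ (2 ^ t - 1) * w)) •
        P.bas (-(t : ZMod P.p)) :=
  regE_term_fderiv_u (P.coef_contDiffAt θ ha t) u w (2 ^ t) (P.bas (-(t : ZMod P.p)))

theorem regE_sum_succ (T : ℕ) :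
    ∑ t ∈ Finset.range T, ((t : ℝ) + 1) / 2 ^ t = 4 - 2 * (T + 2) / 2 ^ T := by
  induction T with
  | zero => norm_num
  | succ T ih =>
    rw [Finset.sum_range_succ, ih, pow_succ]
    push_cast
    field_simp
    ring

theorem regE_sum_inv (T : ℕ) :
    ∑ t ∈ Finset.range T, (1 : ℝ) / 2 ^ t = 2 - 2 / 2 ^ T := by
  induction T with
  | zero => norm_num
  | succ T ih =>
    rw [Finset.sum_range_succ, ih, pow_succ]
    field_simp
    ring

theorem eR_fderiv (θ : ℝ) {a : ℝ} (ha : 0 < a) (u : ℂ) :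
    ∃ T : ℕ, ∀ d, fderiv ℝ P.eR (θ, a, u) d =
      ∑ t ∈ Finset.range T, fderiv ℝ (P.eT t) (θ, a, u) d := by
  obtain ⟨T, hT⟩ := P.eR_eventually_eq θ ha u
  refine ⟨T, fun d => ?_⟩
  rw [hT.fderiv_eq, fderiv_fun_sum, sum_apply]
  intro t _
  exact (P.eT_contDiffAt θ ha u t).differentiableAt one_ne_zero

theorem eR_bounds : ∃ C : ℝ, 0 < C ∧ ∀ (θ a : ℝ) (u : ℂ), 0 < a → a ≤ 1 → ‖u‖ = 1 →
    ‖fderiv ℝ P.eR (θ, a, u) (0, 1, 0)‖ ≤ C ∧
    (∀ w : ℂ, ‖fderiv ℝ P.eR (θ, a, u) (0, 0, w)‖ ≤ C * a * Real.sqrt (Real.log (2 / a)) * ‖w‖) ∧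
    ‖fderiv ℝ P.eR (θ, a, u) (1, 0, 0)‖ ≤ C * a * Real.log (2 / a) ^ 3 := by
  obtain ⟨C0, hC0, h0⟩ := P.exists_coef_zero
  obtain ⟨C1, h1⟩ := P.coef_da_bound
  obtain ⟨C2, h2⟩ := P.coef_dθ_bound
  refine ⟨4 * |C1| + 2 * |C2| + (C0 + 2), by (clear * - hC0; positivity), ?_⟩
  intro θ a u ha ha1 hu
  obtain ⟨T, hT⟩ := P.eR_fderiv θ ha u
  have hL : (1 : ℝ) / 4 ≤ Real.log (2 / a) := by
    have e1 : Real.log 2 ≤ Real.log (2 / a) := by
      apply Real.log_le_log (by norm_num)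
      rw [le_div_iff₀ ha]
      linarith only [ha1]
    have e2 := Real.log_two_gt_d9
    linarith only [e1, e2]
  have hL0 : 0 < Real.log (2 / a) := by linarith
  have hsq : (1 : ℝ) / 2 ≤ Real.sqrt (Real.log (2 / a)) := by
    apply Real.le_sqrt_of_sq_le
    linarith
  refine ⟨?_, ?_, ?_⟩
  · rw [hT]
    calc ‖∑ t ∈ Finset.range T, fderiv ℝ (P.eT t) (θ, a, u) (0, 1, 0)‖
        ≤ ∑ t ∈ Finset.range T, ‖fderiv ℝ (P.eT t) (θ, a, u) (0, 1, 0)‖ := norm_sum_le _ _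
      _ ≤ ∑ t ∈ Finset.range T, |C1| * (((t : ℝ) + 1) / 2 ^ t) := by
          apply Finset.sum_le_sum
          intro t _
          rw [P.eT_fderiv_a θ ha u t, norm_smul, P.regE_norm_bas, norm_mul, norm_pow, hu, one_pow,
            mul_one, mul_one, Complex.norm_real, Real.norm_eq_abs]
          refine (h1 θ a t ha).trans ?_
          rw [mul_div_assoc]
          exact mul_le_mul_of_nonneg_right (le_abs_self C1) (by (clear * -; positivity))
      _ = |C1| * (4 - 2 * (T + 2) / 2 ^ T) := by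
          rw [← Finset.mul_sum, regE_sum_succ]
      _ ≤ |C1| * 4 := by
          apply mul_le_mul_of_nonneg_left _ (abs_nonneg _)
          have : (0 : ℝ) ≤ 2 * (T + 2) / 2 ^ T := by positivity
          linarith only [this]
      _ ≤ 4 * |C1| + 2 * |C2| + (C0 + 2) := by
          have := abs_nonneg C2
          linarith only [hC0, this]
  · intro w
    rw [hT]
    set M : ℕ := ⌊C0 * Real.sqrt (Real.log (2 / a))⌋₊ + 1 with hM
    have hMle : (M : ℝ) ≤ (C0 + 2) * Real.sqrt (Real.log (2 / a)) := by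
      have e1 : (⌊C0 * Real.sqrt (Real.log (2 / a))⌋₊ : ℝ) ≤ C0 * Real.sqrt (Real.log (2 / a)) :=
        Nat.floor_le (by positivity)
      rw [hM]
      push_cast
      linarith only [hsq, e1]
    have hMt : ∀ t : ℕ, M ≤ t → P.coef (Circle.exp θ) a t = 0 := by
      intro t ht
      apply h0 _ _ _ ha ha1
      exact (Nat.floor_lt (by positivity)).mp (by omega)
    calc ‖∑ t ∈ Finset.range T, fderiv ℝ (P.eT t) (θ, a, u) (0, 0, w)‖
        ≤ ∑ t ∈ Finset.range T, ‖fderiv ℝ (P.eT t) (θ, a, u) (0, 0, w)‖ := norm_sum_le _ _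
      _ ≤ ∑ t ∈ Finset.range T, (if t ∈ Finset.range M then a * ‖w‖ else 0) := by
          apply Finset.sum_le_sum
          intro t _
          rw [P.eT_fderiv_u θ ha u w t, norm_smul, P.regE_norm_bas, norm_mul, norm_mul, norm_mul,
            norm_pow, hu, one_pow,
            mul_one, mul_one, Complex.norm_real, Real.norm_eq_abs, Complex.norm_natCast]
          by_cases ht : t ∈ Finset.range M
          · rw [if_pos ht, abs_of_nonneg (P.regE_coef_nonneg _ ha.le t)]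
            have e1 := P.regE_coef_le (Circle.exp θ) ha.le t
            have e2 : (0 : ℝ) < 2 ^ t := by positivity
            rw [le_div_iff₀ e2] at e1
            push_cast
            calc P.coef (Circle.exp θ) a t * (2 ^ t * ‖w‖)
                = (P.coef (Circle.exp θ) a t * 2 ^ t) * ‖w‖ := by ring
              _ ≤ a * ‖w‖ := mul_le_mul_of_nonneg_right e1 (norm_nonneg _)
          · rw [if_neg ht, hMt t (by rwa [Finset.mem_range, not_lt] at ht)]
            simp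
      _ ≤ ∑ t ∈ Finset.range (max T M), (if t ∈ Finset.range M then a * ‖w‖ else 0) := by
          apply Finset.sum_le_sum_of_subset_of_nonneg
          · intro t ht
            rw [Finset.mem_range] at ht ⊢
            exact lt_of_lt_of_le ht (le_max_left _ _)
          · intro t _ _
            split_ifs
            · (clear * - ha; positivity)
            · exact le_rfl
      _ = M * (a * ‖w‖) := by
          rw [Finset.sum_ite_mem, Finset.inter_eq_right.mpr]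
          · rw [Finset.sum_const, Finset.card_range, nsmul_eq_mul]
          · intro t ht
            rw [Finset.mem_range] at ht ⊢
            exact lt_of_lt_of_le ht (le_max_right _ _)
      _ ≤ ((C0 + 2) * Real.sqrt (Real.log (2 / a))) * (a * ‖w‖) :=
          mul_le_mul_of_nonneg_right hMle (by (clear * - ha; positivity))
      _ = (C0 + 2) * (a * Real.sqrt (Real.log (2 / a)) * ‖w‖) := by ring
      _ ≤ (4 * |C1| + 2 * |C2| + (C0 + 2)) * (a * Real.sqrt (Real.log (2 / a)) * ‖w‖) := by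
          apply mul_le_mul_of_nonneg_right _ (by (clear * - ha hL; positivity))
          have := abs_nonneg C1
          have := abs_nonneg C2
          linarith
      _ = (4 * |C1| + 2 * |C2| + (C0 + 2)) * a * Real.sqrt (Real.log (2 / a)) * ‖w‖ := by ring
  · rw [hT]
    have hL3 : 0 ≤ Real.log (2 / a) ^ 3 := by positivity
    calc ‖∑ t ∈ Finset.range T, fderiv ℝ (P.eT t) (θ, a, u) (1, 0, 0)‖
        ≤ ∑ t ∈ Finset.range T, ‖fderiv ℝ (P.eT t) (θ, a, u) (1, 0, 0)‖ := norm_sum_le _ _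
      _ ≤ ∑ t ∈ Finset.range T, (|C2| * (a * Real.log (2 / a) ^ 3)) * (1 / 2 ^ t) := by
          apply Finset.sum_le_sum
          intro t _
          rw [P.eT_fderiv_θ θ ha u t, norm_smul, P.regE_norm_bas, norm_mul, norm_pow, hu, one_pow,
            mul_one, mul_one, Complex.norm_real, Real.norm_eq_abs]
          refine (h2 θ a t ha ha1).trans ?_
          rw [mul_assoc C2, mul_one_div]
          gcongr
          exact le_abs_self C2
      _ = (|C2| * (a * Real.log (2 / a) ^ 3)) * (2 - 2 / 2 ^ T) := by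
          rw [← Finset.mul_sum, regE_sum_inv]
      _ ≤ (|C2| * (a * Real.log (2 / a) ^ 3)) * 2 := by
          apply mul_le_mul_of_nonneg_left _ (by (clear * - ha hL; positivity))
          have : (0 : ℝ) ≤ 2 / 2 ^ T := by positivity
          linarith only [this]
      _ = (2 * |C2|) * (a * Real.log (2 / a) ^ 3) := by ring
      _ ≤ (4 * |C1| + 2 * |C2| + (C0 + 2)) * (a * Real.log (2 / a) ^ 3) := by
          apply mul_le_mul_of_nonneg_right _ (by positivity)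
          have := abs_nonneg C1
          linarith only [hC0, this]
      _ = (4 * |C1| + 2 * |C2| + (C0 + 2)) * a * Real.log (2 / a) ^ 3 := by ring

end Par

end Vale.Agent.P103
end
end

section

section

/-!
# P103, T2b: the series `e`, recursion, invariance
-/

namespace Vale.Agent.P103

open Filter Topology

theorem cb_cutA_one {s : ℝ} (h : s ≤ 4 / 5) : cutA s = 1 := by
  unfold cutA
  apply Real.smoothTransition.one_of_one_le
  linarith only [h]

theorem cb_cutA_zero {s : ℝ} (h : 9 / 10 ≤ s) : cutA s = 0 := by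
  unfold cutA
  apply Real.smoothTransition.zero_of_nonpos
  linarith only [h]

theorem cb_cutB_one {s : ℝ} (h : s ≤ 9 / 10) : cutB s = 1 := by
  unfold cutB
  apply Real.smoothTransition.one_of_one_le
  linarith only [h]

namespace Par

variable (P : Par)

/-! ### coefficients -/

theorem coef_nonneg (ζ : Circle) {a : ℝ} (ha : 0 ≤ a) (t : ℕ) : 0 ≤ P.coef ζ a t := by
  unfold coef
  have h1 := P.Pr_nonneg ζ a t
  have h2 := S_nonneg (P.r ζ a t)
  positivity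

theorem coef_le (ζ : Circle) {a : ℝ} (ha : 0 ≤ a) (t : ℕ) : P.coef ζ a t ≤ a / 2 ^ t := by
  unfold coef
  apply div_le_div_of_nonneg_right _ (by positivity)
  have h1 := P.Pr_le_one ζ a t
  have h1' := P.Pr_nonneg ζ a t
  have h2 := S_le_one (P.r_nonneg ζ ha t)
  have h2' := S_nonneg (P.r ζ a t)
  have : P.Pr ζ a t * S (P.r ζ a t) ≤ 1 := by nlinarith only [h2, h1, h2']
  nlinarith only [ha, this]

/-- if `a ≥ 2A` (in particular if `A = 0`) all the later coefficients vanish -/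
theorem cb_coef_succ_zero {ζ : Circle} {a : ℝ} (ha : 0 < a) (h : 2 * P.A ζ ≤ a) (t : ℕ) :
    P.coef ζ a (t + 1) = 0 := by
  apply P.coef_eq_zero_of (s := 0) _ (Nat.succ_pos t)
  rw [P.r_zero]
  apply kk_of_le
  rw [div_le_iff₀ ha]; linarith only [h]

theorem cb_bas_norm (j : ZMod P.p) : ‖P.bas j‖ = 1 := by
  unfold bas
  simp

theorem cb_term_norm (ζ : Circle) {a : ℝ} (ha : 0 ≤ a) {u : ℂ} (hu : ‖u‖ = 1) (t : ℕ) :
    ‖((P.coef ζ a t : ℂ) * u ^ (2 ^ t)) • P.bas (-(t : ZMod P.p))‖ = P.coef ζ a t := by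
  rw [norm_smul, P.cb_bas_norm, norm_mul, norm_pow, hu, one_pow, mul_one, mul_one,
    Complex.norm_real, Real.norm_eq_abs, abs_of_nonneg (P.coef_nonneg ζ ha t)]

theorem cb_geom (a : ℝ) : HasSum (fun t : ℕ => a / 2 ^ t) (2 * a) := by
  have h := hasSum_geometric_two.mul_left a
  have e : (fun t : ℕ => a / 2 ^ t) = fun i : ℕ => a * (1 / 2) ^ i := by
    ext t
    rw [one_div, inv_pow]; rfl
  rw [e, mul_comm 2 a]
  exact h

theorem cb_summable_coef (ζ : Circle) {a : ℝ} (ha : 0 ≤ a) : Summable (P.coef ζ a) :=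
  Summable.of_nonneg_of_le (P.coef_nonneg ζ ha) (P.coef_le ζ ha) (cb_geom a).summable

theorem cb_summable (ζ : Circle) {a : ℝ} (ha : 0 ≤ a) {u : ℂ} (hu : ‖u‖ = 1) :
    Summable fun t : ℕ => ((P.coef ζ a t : ℂ) * u ^ (2 ^ t)) • P.bas (-(t : ZMod P.p)) := by
  apply Summable.of_norm
  simp_rw [P.cb_term_norm ζ ha hu]
  exact P.cb_summable_coef ζ ha

theorem e_norm_le (ζ : Circle) {a : ℝ} (ha : 0 ≤ a) {u : ℂ} (hu : ‖u‖ = 1) :
    ‖P.e ζ a u‖ ≤ 2 * a := by
  unfold e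
  apply tsum_of_norm_bounded (cb_geom a)
  intro t
  rw [P.cb_term_norm ζ ha hu]
  exact P.coef_le ζ ha t

theorem cb_U_bas (j : ZMod P.p) : P.U (P.bas j) = P.bas (j + 1) := by
  unfold U bas
  rw [LinearIsometryEquiv.piLpCongrLeft_single]
  rfl

theorem cb_Usymm_bas (j : ZMod P.p) : P.U.symm (P.bas j) = P.bas (j - 1) := by
  rw [LinearIsometryEquiv.symm_apply_eq, P.cb_U_bas, sub_add_cancel]

theorem e_rec {ζ : Circle} (hν : 0 < nu ζ) {a : ℝ} (ha : 0 < a) {u : ℂ} (hu : ‖u‖ = 1) :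
    P.e ζ a u = (((S (P.r ζ a 0) * a : ℝ) : ℂ) * u) • P.bas 0 +
      (((1 - kk (P.r ζ a 0)) * (2 * P.Λ * nu ζ)⁻¹ : ℝ) : ℂ) •
        P.U.symm (P.e (P.ω * ζ) (P.Λ * nu ζ * a) (u ^ 2)) := by
  have hu2 : ‖u ^ 2‖ = 1 := by rw [norm_pow, hu, one_pow]
  have ha2 : 0 ≤ P.Λ * nu ζ * a := by
    have := P.Λ_pos
    positivity
  have hs := P.cb_summable ζ ha.le hu
  have hs2 := P.cb_summable (P.ω * ζ) ha2 hu2
  unfold e
  rw [hs.tsum_eq_zero_add]
  congr 1
  · rw [P.coef_zero]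
    simp
  · rw [← LinearIsometryEquiv.coe_toContinuousLinearEquiv]
    rw [ContinuousLinearEquiv.map_tsum]
    rw [← tsum_const_smul'']
    apply tsum_congr
    intro t
    rw [P.coef_succ' ζ hν]
    simp only [LinearIsometryEquiv.coe_toContinuousLinearEquiv, map_smul, P.cb_Usymm_bas, smul_smul]
    congr 1
    · push_cast
      rw [← pow_mul, pow_succ' 2 t]
      ring
    · congr 1
      push_cast
      ring

theorem e_big {ζ : Circle} {a : ℝ} (ha : 0 < a) (h : 2 * P.A ζ ≤ a) {u : ℂ} (_hu : ‖u‖ = 1) :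
    P.e ζ a u = (((S (P.A ζ / a) * a : ℝ) : ℂ) * u) • P.bas 0 := by
  unfold e
  rw [tsum_eq_single 0]
  · rw [P.coef_zero, P.r_zero]; simp
  · intro t ht
    obtain ⟨s, rfl⟩ := Nat.exists_eq_succ_of_ne_zero ht
    rw [P.cb_coef_succ_zero ha h]
    simp only [Complex.ofReal_zero, Nat.succ_eq_add_one, zero_mul, Nat.cast_add, Nat.cast_one, neg_add_rev, zero_smul]

theorem cb_bas_apply (i j : ZMod P.p) : P.bas i j = if j = i then 1 else 0 := by
  unfold bas
  simp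

/-- coordinates of `e` -/
theorem cb_e_apply (ζ : Circle) {a : ℝ} (ha : 0 ≤ a) {u : ℂ} (hu : ‖u‖ = 1) (j : ZMod P.p) :
    P.e ζ a u j = ∑' t : ℕ, ((P.coef ζ a t : ℂ) * u ^ (2 ^ t)) *
      (if j = -(t : ZMod P.p) then 1 else 0) := by
  have hs := P.cb_summable ζ ha hu
  have h := (EuclideanSpace.proj j : P.V →L[ℂ] ℂ).map_tsum hs
  have h2 : P.e ζ a u j = (EuclideanSpace.proj j : P.V →L[ℂ] ℂ) (P.e ζ a u) := rfl
  rw [h2]
  unfold e
  rw [h]
  apply tsum_congr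
  intro t
  simp [cb_bas_apply]

/-- the `0`-th coordinate in the separated case -/
theorem cb_e_zero_coord {ζ : Circle} {a : ℝ} (h1 : P.A ζ ^ 2 ≤ a) (ha : 0 < a)
    (h2 : a < 2 * P.A ζ) {u : ℂ} (hu : ‖u‖ = 1) :
    P.e ζ a u 0 = ((S (P.A ζ / a) * a : ℝ) : ℂ) * u := by
  rw [P.cb_e_apply ζ ha.le hu, tsum_eq_single 0]
  · rw [P.coef_zero, P.r_zero]
    simp
  · intro t ht
    by_cases hp : (0 : ZMod P.p) = -(t : ZMod P.p)
    · have hp' : P.p ∣ t := by
        rw [← ZMod.natCast_eq_zero_iff]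
        rw [eq_comm, neg_eq_zero] at hp
        exact hp
      rw [P.coef_eq_zero_of_dvd h1 ha h2 (Nat.one_le_iff_ne_zero.mpr ht) hp']
      simp only [Complex.ofReal_zero, zero_mul, zero_eq_neg, mul_ite, mul_one, mul_zero, ite_self]
    · simp [hp]

/-- a coordinate of `e` with an alive index -/
theorem cb_e_alive {ζ : Circle} {a : ℝ} (ha : 0 < a) {u : ℂ} (hu : ‖u‖ = 1) {t : ℕ}
    (ht : P.coef ζ a t ≠ 0) :
    P.e ζ a u (-(t : ZMod P.p)) = (P.coef ζ a t : ℂ) * u ^ (2 ^ t) := by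
  rw [P.cb_e_apply ζ ha.le hu, tsum_eq_single t]
  · simp
  · intro s hs
    by_cases hp : -(t : ZMod P.p) = -(s : ZMod P.p)
    · have hp2 : (t : ZMod P.p) = (s : ZMod P.p) := neg_injective hp
      rw [ZMod.natCast_eq_natCast_iff] at hp2
      have h0 : P.coef ζ a s = 0 := by
        rcases lt_or_gt_of_ne hs with h | h
        · -- s < t
          by_contra hne
          have hd : P.p ∣ t - s := (Nat.modEq_iff_dvd' h.le).mp hp2.symm
          exact ht (P.coef_mul_coef ha h hd hne)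
        · have hd : P.p ∣ s - t := (Nat.modEq_iff_dvd' h.le).mp hp2
          exact P.coef_mul_coef ha h hd ht
      rw [h0]
      simp only [Complex.ofReal_zero, zero_mul, neg_inj, mul_ite, mul_one, mul_zero, ite_self]
    · simp [hp]

/-- (LB) -/
theorem cb_e_lower {ζ : Circle} {a : ℝ} (hA : 0 < P.A ζ) (h1 : P.A ζ ≤ a) {u : ℂ}
    (hu : ‖u‖ = 1) : 3 * P.A ζ ^ 2 ≤ ‖P.e ζ a u‖ := by
  have ha : 0 < a := lt_of_lt_of_le hA h1
  obtain ⟨t, ht⟩ := P.exists_large_coef hA h1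
  have hpos : 0 < P.coef ζ a t := lt_of_lt_of_le (by positivity) ht
  have h := P.cb_e_alive ha hu hpos.ne'
  have h2 : ‖P.e ζ a u (-(t : ZMod P.p))‖ ≤ ‖P.e ζ a u‖ := PiLp.norm_apply_le _ _
  rw [h, norm_mul, norm_pow, hu, one_pow, mul_one, Complex.norm_real, Real.norm_eq_abs,
    abs_of_pos hpos] at h2
  linarith only [ht, h2]

theorem cb_hat_apply_zero (v : P.V) : P.hat v 0 = 0 := by
  unfold hat
  simp [cb_bas_apply]

theorem cb_hat_hat (v : P.V) : P.hat (P.hat v) = P.hat v := by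
  have h : P.hat (P.hat v) = P.hat v - P.hat v 0 • P.bas 0 := rfl
  rw [h, P.cb_hat_apply_zero]
  simp

theorem cb_hat_add (v : P.V) : P.hat v + v 0 • P.bas 0 = v := by
  unfold hat
  simp

/-- Pythagoras -/
theorem cb_pyth (v : P.V) (c : ℂ) : ‖P.hat v + c • P.bas 0‖ ^ 2 = ‖P.hat v‖ ^ 2 + ‖c‖ ^ 2 := by
  have h0 : inner ℂ (P.hat v) (c • P.bas 0) = 0 := by
    rw [inner_smul_right]
    have : inner ℂ (P.hat v) (P.bas 0) = (starRingEnd ℂ) (P.hat v 0) := by
      unfold bas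
      rw [EuclideanSpace.inner_single_right]
      simp
    rw [this, P.cb_hat_apply_zero]
    simp
  have h := norm_add_sq_eq_norm_sq_add_norm_sq_of_inner_eq_zero (𝕜 := ℂ) (P.hat v)
    (c • P.bas 0) h0
  rw [norm_smul, P.cb_bas_norm, mul_one] at h
  linarith

theorem cb_hat_norm_sq (v : P.V) : ‖v‖ ^ 2 = ‖P.hat v‖ ^ 2 + ‖v 0‖ ^ 2 := by
  rw [← P.cb_pyth v (v 0), P.cb_hat_add]

/-! ### cut-offs -/

theorem cb_chi1_one {ζ : Circle} {N : ℝ} (hN : 0 ≤ N) (h : N ≤ 4 * P.A ζ ^ 4) :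
    P.chi1 ζ N = 1 := by
  unfold chi1
  apply cb_cutA_one
  rcases hN.lt_or_eq with h0 | h0
  · have hd : 0 < N + P.A ζ ^ 4 := by positivity
    rw [div_le_iff₀ hd]
    linarith only [h]
  · rw [← h0]; norm_num

theorem cb_chi1_zero {ζ : Circle} {N : ℝ} (hN : 0 < N) (h : 9 * P.A ζ ^ 4 ≤ N) :
    P.chi1 ζ N = 0 := by
  unfold chi1
  apply cb_cutA_zero
  have hd : 0 < N + P.A ζ ^ 4 := by positivity
  rw [le_div_iff₀ hd]
  linarith only [h]

theorem cb_chi2_one {ζ : Circle} {N : ℝ} (hN : 0 ≤ N) (h : N ≤ 9 * P.A ζ ^ 2) :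
    P.chi2 ζ N = 1 := by
  unfold chi2
  apply cb_cutB_one
  rcases hN.lt_or_eq with h0 | h0
  · have hd : 0 < N + P.A ζ ^ 2 := by positivity
    rw [div_le_iff₀ hd]
    linarith only [h]
  · rw [← h0]; norm_num

/-! ### `Γ` -/

theorem Gam_pos (ζ : Circle) {a : ℝ} (ha : 0 < a) : 0 < P.Gam ζ a := by
  unfold Gam
  have h2 := mx_pos (beta_pos ha) (nu_nonneg ζ)
  have h3 := P.Λ_pos
  positivity

/-- `Γ = Λ ν a` when `a < 2A` -/
theorem cb_Gam_eq {ζ : Circle} {a : ℝ} (ha : 0 < a) (h : a < 2 * P.A ζ) :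
    P.Gam ζ a = P.Λ * nu ζ * a := by
  have hA : 0 < P.A ζ := by linarith only [ha, h]
  have hν := P.nu_pos_of_A hA
  have hK : 1 ≤ P.K := by
    have h1 := P.K_ge_200
    have h2 := P.one_le_H
    linarith only [h1, h2]
  unfold Gam
  rw [mx_eq_of_le (beta_pos ha)]
  unfold beta
  rw [P.A_eq_exp hν] at h
  have h1 : Real.exp (P.K / nu ζ) / 2 ≤ 1 + 1 / a := by
    have h2 : 1 / (2 * Real.exp (-(P.K / nu ζ))) ≤ 1 / a := one_div_le_one_div_of_le ha h.le
    have h3 : 1 / (2 * Real.exp (-(P.K / nu ζ))) = Real.exp (P.K / nu ζ) / 2 := by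
      rw [Real.exp_neg]; field_simp
    rw [h3] at h2
    linarith only [h2]
  have h4 : P.K / nu ζ - Real.log 2 ≤ Real.log (1 + 1 / a) := by
    have h5 : Real.log (Real.exp (P.K / nu ζ) / 2) ≤ Real.log (1 + 1 / a) :=
      Real.log_le_log (by positivity) h1
    rw [Real.log_div (Real.exp_pos _).ne' (by norm_num), Real.log_exp] at h5
    exact h5
  have h6 : Real.log 2 ≤ 1 := by
    have := Real.log_two_lt_d9; linarith only [this]
  have h7 : P.K / nu ζ ≤ 1 + Real.log (1 + 1 / a) := by linarith only [h4, h6]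
  have h8 : 1 / nu ζ ≤ P.K / nu ζ := div_le_div_of_nonneg_right hK hν.le
  have h9 : 0 < 1 / nu ζ := by (clear * - hν; positivity)
  have e1 : 2 * (1 / (2 * (1 + Real.log (1 + 1 / a)))) = 1 / (1 + Real.log (1 + 1 / a)) := by
    field_simp
  rw [e1]
  calc 1 / (1 + Real.log (1 + 1 / a)) ≤ 1 / (1 / nu ζ) :=
        one_div_le_one_div_of_le h9 (h8.trans h7)
    _ = nu ζ := by field_simp

/-! ### the wrapping map `W` on the disc -/

/-- `W` vanishes for `|z| ≤ 2A²` if `A > 0` -/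
theorem cb_W_small {ζ : Circle} (hA : 0 < P.A ζ) {z : ℂ} (hz : ‖z‖ ≤ P.A ζ / 3) :
    P.W ζ z = 0 := by
  unfold W
  rw [kk_of_ge]
  · simp
  · have h := norm_nonneg z
    rw [div_le_div_iff₀ (by norm_num) (by linarith only [hA, h])]
    linarith only [hz]

/-- `W` at a point of the disc -/
theorem cb_W_eq (ζ : Circle) {a : ℝ} (ha : 0 < a) (h : P.A ζ < a) {u : ℂ} (hu : ‖u‖ = 1) :
    P.W ζ (((S (P.A ζ / a) * a : ℝ) : ℂ) * u) =
      (kk (P.A ζ / a) : ℂ) • P.e (P.ω * ζ) (P.Gam ζ a) (u ^ 2) := by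
  have hA := P.A_nonneg ζ
  have h1 : P.A ζ / a < 1 := by rw [div_lt_one ha]; exact h
  have hSpos : 0 < S (P.A ζ / a) := S_pos h1
  have hpos : 0 < S (P.A ζ / a) * a := by positivity
  have hn : ‖((S (P.A ζ / a) * a : ℝ) : ℂ) * u‖ = S (P.A ζ / a) * a := by
    rw [norm_mul, hu, mul_one, Complex.norm_real, Real.norm_eq_abs, abs_of_pos hpos]
  rcases le_or_gt (P.A ζ / a) (3 / 4) with h3 | h3
  · unfold W
    rw [hn]
    have h3 : P.A ζ + S (P.A ζ / a) * a = a := by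
      rw [S_of_le h3]
      field_simp
      ring
    rw [h3]
    have h4 : ((S (P.A ζ / a) * a : ℝ) : ℂ) * u / ((S (P.A ζ / a) * a : ℝ) : ℂ) = u := by
      rw [mul_comm, mul_div_assoc, div_self, mul_one]
      exact_mod_cast hpos.ne'
    rw [h4]
  · have hApos : 0 < P.A ζ := by
      rcases hA.lt_or_eq with h0 | h0
      · exact h0
      · rw [← h0] at h3; norm_num at h3
    rw [kk_of_ge h3.le]
    rw [P.cb_W_small hApos]
    · simp
    · rw [hn]
      have h5 := S_le h1.le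
      have h6 : S (P.A ζ / a) * a ≤ (1 - P.A ζ / a) * a := mul_le_mul_of_nonneg_right h5 ha.le
      have h7 : (1 - P.A ζ / a) * a = a - P.A ζ := by (clear * - ha; field_simp)
      rw [lt_div_iff₀ ha] at h3
      linarith only [h3, h6, h7]

/-! ### invariance -/

theorem cb_F_eq (ζ : Circle) (z : ℂ) (v : P.V) {N : ℝ} (hN : ‖z‖ ^ 2 + ‖v‖ ^ 2 = N) :
    P.F ζ z v = ((P.chi2 ζ N * (2 * P.Λ * nu ζ) : ℝ) : ℂ) •
      P.U (P.hat v + ((P.chi1 ζ N : ℂ) * z) • P.bas 0) + P.W ζ z := by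
  unfold F
  rw [hN]

theorem F_inv (ζ : Circle) {a : ℝ} (ha : 0 < a) {u : ℂ} (hu : ‖u‖ = 1) :
    P.F ζ (P.e ζ a u 0) (P.hat (P.e ζ a u)) = P.e (P.ω * ζ) (P.Gam ζ a) (u ^ 2) := by
  have hA := P.A_nonneg ζ
  have hA1 := P.A_le_small ζ
  have hΛ := P.Λ_pos
  have hN : ‖P.e ζ a u 0‖ ^ 2 + ‖P.hat (P.e ζ a u)‖ ^ 2 = ‖P.e ζ a u‖ ^ 2 := by
    rw [P.cb_hat_norm_sq (P.e ζ a u)]; ring
  have hU := P.e_norm_le ζ ha.le hu
  rw [P.cb_F_eq ζ _ _ hN, P.cb_hat_hat]
  rcases le_or_gt (2 * P.A ζ) a with hbig | hlt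
  · -- `a ≥ 2A`
    have he := P.e_big ha hbig hu
    have hr : P.A ζ / a ≤ 1 / 2 := by rw [div_le_iff₀ ha]; linarith only [hbig]
    have hr0 : 0 ≤ P.A ζ / a := div_nonneg hA ha.le
    have hS : S (P.A ζ / a) = 1 - P.A ζ / a := S_of_le (by linarith only [hr])
    have hSge : 1 / 2 ≤ S (P.A ζ / a) := by rw [hS]; linarith only [hr]
    have hn : ‖P.e ζ a u‖ = S (P.A ζ / a) * a := by
      rw [he, norm_smul, P.cb_bas_norm, mul_one, norm_mul, hu, mul_one, Complex.norm_real,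
        Real.norm_eq_abs, abs_of_nonneg (by positivity)]
    have hnlow : a / 2 ≤ ‖P.e ζ a u‖ := by rw [hn]; nlinarith only [ha, hr, hS]
    have hNpos : 0 < ‖P.e ζ a u‖ ^ 2 := by
      have : 0 < ‖P.e ζ a u‖ := by linarith only [ha, hnlow]
      (clear * - this; positivity)
    have hchi : P.chi1 ζ (‖P.e ζ a u‖ ^ 2) = 0 := by
      apply P.cb_chi1_zero hNpos
      have h1 : 3 * P.A ζ ^ 2 ≤ ‖P.e ζ a u‖ := by nlinarith only [hbig, hnlow, hA, hA1]
      have h2 : (3 * P.A ζ ^ 2) ^ 2 ≤ ‖P.e ζ a u‖ ^ 2 := pow_le_pow_left₀ (by (clear * -; positivity)) h1 2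
      calc 9 * P.A ζ ^ 4 = (3 * P.A ζ ^ 2) ^ 2 := by ring
        _ ≤ _ := h2
    have hhat : P.hat (P.e ζ a u) = 0 := by
      rw [he]
      unfold hat
      simp [cb_bas_apply]
    have hz : P.e ζ a u 0 = ((S (P.A ζ / a) * a : ℝ) : ℂ) * u := by
      rw [he]; simp [cb_bas_apply]
    rw [hchi, hhat, hz, P.cb_W_eq ζ ha (by linarith only [ha, hbig]) hu, kk_of_le hr]
    simp only [Complex.ofReal_mul, Complex.ofReal_ofNat, Complex.ofReal_zero, zero_mul, zero_smul, add_zero, map_zero, smul_zero, Complex.ofReal_one, one_smul, zero_add]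
  · -- `a < 2A`
    have hApos : 0 < P.A ζ := by linarith only [ha, hlt]
    have hν := P.nu_pos_of_A hApos
    have hGam := P.cb_Gam_eq ha hlt
    have hrec := P.e_rec hν ha hu
    rw [P.r_zero] at hrec
    rw [hGam]
    set E' := P.e (P.ω * ζ) (P.Λ * nu ζ * a) (u ^ 2) with hE'
    have hE'norm : ‖E'‖ ≤ 2 * (P.Λ * nu ζ * a) :=
      P.e_norm_le _ (by (clear * - hΛ hν ha; positivity)) (by rw [norm_pow, hu, one_pow])
    have hc : (2 * P.Λ * nu ζ) ≠ 0 := by positivity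
    have hUU : P.U (((((2 * P.Λ * nu ζ)⁻¹ : ℝ)) : ℂ) • P.U.symm E') =
        ((((2 * P.Λ * nu ζ)⁻¹ : ℝ)) : ℂ) • E' := by
      rw [map_smul, LinearIsometryEquiv.apply_symm_apply]
    rcases le_or_gt a (P.A ζ ^ 2) with hs | hs
    · -- `a ≤ A²`
      have hr : 1 ≤ P.A ζ / a := by
        rw [le_div_iff₀ ha]; nlinarith only [hs, hA1, hA]
      rw [S_of_one_le hr, kk_of_ge (by linarith only [hr])] at hrec
      have hrec' : P.e ζ a u = ((((2 * P.Λ * nu ζ)⁻¹ : ℝ)) : ℂ) • P.U.symm E' := by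
        rw [hrec]; simp only [zero_mul, Complex.ofReal_zero, zero_smul, sub_zero, mul_inv_rev, one_mul, Complex.ofReal_mul, Complex.ofReal_inv, Complex.ofReal_ofNat, zero_add]
      have hn1 : ‖P.e ζ a u‖ ≤ 2 * P.A ζ ^ 2 := by linarith only [hU, hs]
      have hn : ‖P.e ζ a u‖ ^ 2 ≤ 4 * P.A ζ ^ 4 := by
        have h2 := pow_le_pow_left₀ (norm_nonneg _) hn1 2
        calc _ ≤ _ := h2
          _ = 4 * P.A ζ ^ 4 := by ring
      have hA4' : P.A ζ ^ 4 ≤ P.A ζ ^ 2 := pow_le_pow_of_le_one hA (P.A_le_one ζ) (by norm_num)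
      have hW : P.W ζ (P.e ζ a u 0) = 0 := by
        apply P.cb_W_small hApos
        have h4 : ‖P.e ζ a u 0‖ ≤ ‖P.e ζ a u‖ := PiLp.norm_apply_le _ _
        nlinarith only [hU, hs, h4, hA1, hA]
      rw [P.cb_chi1_one (by (clear * -; positivity)) hn, P.cb_chi2_one (by (clear * -; positivity)) (by nlinarith only [hn, hA4']), hW]
      have h3 : P.hat (P.e ζ a u) + (((1 : ℝ) : ℂ) * P.e ζ a u 0) • P.bas 0 = P.e ζ a u := by
        rw [Complex.ofReal_one, one_mul, P.cb_hat_add]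
      rw [h3, hrec', hUU, smul_smul, ← Complex.ofReal_mul, one_mul, mul_inv_cancel₀ hc]
      simp only [Complex.ofReal_one, one_smul, add_zero]
    · have hz := P.cb_e_zero_coord hs.le ha hlt hu
      rcases le_or_gt a (P.A ζ) with hm | hm
      · -- `A² < a ≤ A`
        have hr : 1 ≤ P.A ζ / a := by
          rw [le_div_iff₀ ha]; linarith only [hm]
        rw [S_of_one_le hr] at hz
        rw [S_of_one_le hr, kk_of_ge (by linarith only [hr])] at hrec
        have hrec' : P.e ζ a u = ((((2 * P.Λ * nu ζ)⁻¹ : ℝ)) : ℂ) • P.U.symm E' := by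
          rw [hrec]; simp only [zero_mul, Complex.ofReal_zero, zero_smul, sub_zero, mul_inv_rev, one_mul, Complex.ofReal_mul, Complex.ofReal_inv, Complex.ofReal_ofNat, zero_add]
        have hz0 : P.e ζ a u 0 = 0 := by rw [hz]; simp
        have hhat : P.hat (P.e ζ a u) = P.e ζ a u := by
          unfold hat; rw [hz0]; simp
        have hn : ‖P.e ζ a u‖ ^ 2 ≤ 9 * P.A ζ ^ 2 := by
          have h1 : ‖P.e ζ a u‖ ≤ 3 * P.A ζ := by linarith only [hU, hlt, hm]
          have h2 := pow_le_pow_left₀ (norm_nonneg _) h1 2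
          calc _ ≤ _ := h2
            _ = 9 * P.A ζ ^ 2 := by ring
        have hW : P.W ζ 0 = 0 := by
          apply P.cb_W_small hApos
          rw [norm_zero]; (clear * - hApos; positivity)
        rw [P.cb_chi2_one (by (clear * -; positivity)) hn, hz0, hhat, hW, mul_zero, zero_smul, add_zero,
          add_zero, hrec', hUU, smul_smul, ← Complex.ofReal_mul, one_mul,
          mul_inv_cancel₀ hc]
        simp
      · -- `A < a < 2A`
        have hr1 : P.A ζ / a < 1 := by rw [div_lt_one ha]; exact hm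
        have hr2 : 1 / 2 < P.A ζ / a := by rw [lt_div_iff₀ ha]; linarith only [hlt]
        have hSle : S (P.A ζ / a) ≤ 1 / 2 := (S_le hr1.le).trans (by linarith only [hr2])
        have hS0 := S_nonneg (P.A ζ / a)
        have hk0 := kk_nonneg (P.A ζ / a)
        have hk1 := kk_le_one (P.A ζ / a)
        have hn : ‖P.e ζ a u‖ ^ 2 ≤ 9 * P.A ζ ^ 2 := by
          have h1 : ‖P.e ζ a u‖ ≤ 3 * P.A ζ := by
            rw [hrec]
            refine (norm_add_le _ _).trans ?_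
            have e1 : ‖(((S (P.A ζ / a) * a : ℝ) : ℂ) * u) • P.bas 0‖ = S (P.A ζ / a) * a := by
              rw [norm_smul, P.cb_bas_norm, mul_one, norm_mul, hu, mul_one, Complex.norm_real,
                Real.norm_eq_abs, abs_of_nonneg (by (clear * - hS0 ha; positivity))]
            have e2 : ‖(((1 - kk (P.A ζ / a)) * (2 * P.Λ * nu ζ)⁻¹ : ℝ) : ℂ) • P.U.symm E'‖ ≤ a := by
              rw [norm_smul, LinearIsometryEquiv.norm_map, Complex.norm_real, Real.norm_eq_abs,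
                abs_of_nonneg (mul_nonneg (by linarith only [hk1]) (by (clear * - hΛ hν; positivity)))]
              calc (1 - kk (P.A ζ / a)) * (2 * P.Λ * nu ζ)⁻¹ * ‖E'‖
                  ≤ 1 * (2 * P.Λ * nu ζ)⁻¹ * (2 * (P.Λ * nu ζ * a)) := by
                    apply mul_le_mul _ hE'norm (norm_nonneg _) (by positivity)
                    apply mul_le_mul_of_nonneg_right (by linarith only [hk0]) (by (clear * - hΛ hν; positivity))
                _ = a := by field_simp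
            rw [e1]
            nlinarith only [hlt, e2, ha, hSle]
          have h2 := pow_le_pow_left₀ (norm_nonneg _) h1 2
          calc _ ≤ _ := h2
            _ = 9 * P.A ζ ^ 2 := by ring
        have hnlow : 9 * P.A ζ ^ 4 ≤ ‖P.e ζ a u‖ ^ 2 := by
          have h1 := P.cb_e_lower hApos hm.le hu
          have h2 := pow_le_pow_left₀ (by positivity) h1 2
          calc 9 * P.A ζ ^ 4 = (3 * P.A ζ ^ 2) ^ 2 := by ring
            _ ≤ _ := h2
        have hNpos : 0 < ‖P.e ζ a u‖ ^ 2 := lt_of_lt_of_le (by positivity) hnlow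
        have hhat : P.hat (P.e ζ a u) =
            ((((1 - kk (P.A ζ / a)) * (2 * P.Λ * nu ζ)⁻¹ : ℝ)) : ℂ) • P.U.symm E' := by
          unfold hat
          rw [hz]
          rw [hrec]
          abel
        rw [P.cb_chi1_zero hNpos hnlow, P.cb_chi2_one (by (clear * - hNpos; positivity)) hn, hz,
          P.cb_W_eq ζ ha hm hu, hGam, hhat]
        rw [Complex.ofReal_zero, zero_mul, zero_smul, add_zero, map_smul,
          LinearIsometryEquiv.apply_symm_apply, smul_smul, ← Complex.ofReal_mul]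
        have e3 : 1 * (2 * P.Λ * nu ζ) * ((1 - kk (P.A ζ / a)) * (2 * P.Λ * nu ζ)⁻¹) =
            1 - kk (P.A ζ / a) := by
          (clear * - hΛ hν; field_simp)
        rw [e3, ← hE']
        rw [← add_smul]
        rw [← Complex.ofReal_add]
        simp

end Par

end Vale.Agent.P103
end
end

section

section

/-!
# P103: the wrapping map `W` is `C^1` with zero derivative on `z = 0`
-/

namespace Vale.Agent.P103

open Filter Topology Set

theorem rw_alg {T₁ T₂ T₃ T₄ x y z w : ℝ} (h1 : 0 ≤ T₁) (h2 : 0 ≤ T₂) (h3 : 0 ≤ T₃) (h4 : 0 ≤ T₄)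
    (hx : 0 ≤ x) (hy : 0 ≤ y) (hz : 0 ≤ z) (hw : 0 ≤ w) :
    y * T₃ + x * (T₁ + T₂) + z * T₄ + w * T₁ ≤ (x + y + z + w) * (T₁ + T₂ + T₃ + T₄) := by
  have := mul_nonneg hx h3
  have := mul_nonneg hx h4
  have := mul_nonneg hy h1
  have := mul_nonneg hy h2
  have := mul_nonneg hy h4
  have := mul_nonneg hz h1
  have := mul_nonneg hz h2
  have := mul_nonneg hz h3
  have := mul_nonneg hw h2
  have := mul_nonneg hw h3
  have := mul_nonneg hw h4
  linarith

/-- chain rule bound for a function of three variables -/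
theorem db_comp3 {E F : Type*} [NormedAddCommGroup E] [NormedSpace ℝ E] [NormedAddCommGroup F]
    [NormedSpace ℝ F] {G : ℝ × ℝ × ℂ → F} {f₁ f₂ : E → ℝ} {f₃ : E → ℂ} {x : E} {b₁ b₂ b₃ : ℝ}
    (h₁ : DB f₁ x b₁) (h₂ : DB f₂ x b₂) (h₃ : DB f₃ x b₃)
    (hd : DifferentiableAt ℝ G (f₁ x, f₂ x, f₃ x)) {E₁ E₂ E₃ : ℝ}
    (hE₁ : ‖fderiv ℝ G (f₁ x, f₂ x, f₃ x) (1, 0, 0)‖ ≤ E₁)
    (hE₂ : ‖fderiv ℝ G (f₁ x, f₂ x, f₃ x) (0, 1, 0)‖ ≤ E₂) (hE₃' : 0 ≤ E₃)
    (hE₃ : ∀ w, ‖fderiv ℝ G (f₁ x, f₂ x, f₃ x) (0, 0, w)‖ ≤ E₃ * ‖w‖) :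
    DB (fun y => G (f₁ y, f₂ y, f₃ y)) x (b₁ * E₁ + b₂ * E₂ + E₃ * b₃) := by
  have hb₁ := h₁.nonneg
  have hb₂ := h₂.nonneg
  have hb₃ := h₃.nonneg
  obtain ⟨f₁', h1, h1'⟩ := h₁
  obtain ⟨f₂', h2, h2'⟩ := h₂
  obtain ⟨f₃', h3, h3'⟩ := h₃
  refine ⟨_, HasFDerivAt.comp (g := G) x hd.hasFDerivAt (h1.prodMk (h2.prodMk h3)), ?_⟩
  have hE₁' : 0 ≤ E₁ := (norm_nonneg _).trans hE₁
  have hE₂' : 0 ≤ E₂ := (norm_nonneg _).trans hE₂
  refine ContinuousLinearMap.opNorm_le_bound _ (by (clear * - hb₁ hE₁' hb₂ hE₂' hE₃' hb₃; positivity)) ?_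
  intro y
  set G' := fderiv ℝ G (f₁ x, f₂ x, f₃ x) with hG'
  have hdec : (G'.comp (f₁'.prod (f₂'.prod f₃'))) y =
      f₁' y • G' (1, 0, 0) + f₂' y • G' (0, 1, 0) + G' (0, 0, f₃' y) := by
    rw [← map_smul, ← map_smul, ← map_add, ← map_add]
    simp
  rw [hdec]
  have n1 : ‖f₁' y • G' (1, 0, 0)‖ ≤ b₁ * ‖y‖ * E₁ := by
    rw [norm_smul]
    exact mul_le_mul (f₁'.le_of_opNorm_le h1' y) hE₁ (norm_nonneg _) (by (clear * - hb₁; positivity))
  have n2 : ‖f₂' y • G' (0, 1, 0)‖ ≤ b₂ * ‖y‖ * E₂ := by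
    rw [norm_smul]
    exact mul_le_mul (f₂'.le_of_opNorm_le h2' y) hE₂ (norm_nonneg _) (by (clear * - hb₂; positivity))
  have n3 : ‖G' (0, 0, f₃' y)‖ ≤ E₃ * (b₃ * ‖y‖) :=
    (hE₃ _).trans (mul_le_mul_of_nonneg_left (f₃'.le_of_opNorm_le h3' y) hE₃')
  calc _ ≤ ‖f₁' y • G' (1, 0, 0)‖ + ‖f₂' y • G' (0, 1, 0)‖ + ‖G' (0, 0, f₃' y)‖ :=
        norm_add₃_le
    _ ≤ b₁ * ‖y‖ * E₁ + b₂ * ‖y‖ * E₂ + E₃ * (b₃ * ‖y‖) := by (clear * - n1 n2 n3; gcongr)
    _ = _ := by ring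

namespace Par

variable (P : Par)

theorem rw_K_pos : 0 < P.K := by
  have h1 := P.K_ge
  have h2 := P.nt.one_le
  have h3 : 1 < P.Λ := by
    have h4 := P.Λ_ge
    have h5 : 1 ≤ Real.exp (16 / P.h) := by
      rw [Real.one_le_exp_iff]
      have := P.nt.h_pos
      positivity
    linarith
  have h6 := Real.log_pos h3
  have : 0 < 10 * P.H * Real.log P.Λ := by positivity
  linarith only [h1, this]

theorem rw_Λ_ge : 1 ≤ P.Λ := by
  have h4 := P.Λ_ge
  have h5 : 1 ≤ Real.exp (16 / P.h) := by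
    rw [Real.one_le_exp_iff]
    have := P.nt.h_pos
    positivity
  linarith

/-- `A` in the angle variable -/
noncomputable def AR (θ : ℝ) : ℝ := P.A (Circle.exp θ)

theorem AR_nonneg (θ : ℝ) : 0 ≤ P.AR θ := expNegInvGlue.nonneg _

theorem AR_contDiff : ContDiff ℝ 1 P.AR := by
  unfold AR A
  exact (expNegInvGlue.contDiff (n := 1)).comp (RW.nu_exp_contDiff.div_const _)

theorem rwA_lower {ζ : Circle} (h : 0 < nu ζ) : Real.exp (-(P.K / nu ζ)) ≤ P.A ζ := by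
  unfold A expNegInvGlue
  have h1 : 0 < nu ζ / P.K := div_pos h P.rw_K_pos
  rw [if_neg (not_le.2 h1), inv_div]

theorem rwA_pos {ζ : Circle} (h : 0 < nu ζ) : 0 < P.A ζ :=
  (Real.exp_pos _).trans_le (P.rwA_lower h)

/-- `W` in the angle variable -/
noncomputable def WR (q : ℝ × ℂ) : P.V := P.W (Circle.exp q.1) q.2

/-- the argument of `kk` -/
noncomputable def rrW (q : ℝ × ℂ) : ℝ := P.AR q.1 / (P.AR q.1 + ‖q.2‖)

/-- the amplitude after the step -/
noncomputable def GmR (q : ℝ × ℂ) : ℝ := P.Gam (Circle.exp q.1) (P.AR q.1 + ‖q.2‖)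

theorem rrW_eq (q : ℝ × ℂ) : P.rrW q = P.AR q.1 * (P.AR q.1 + ‖q.2‖)⁻¹ := div_eq_mul_inv _ _

theorem WR_eq (q : ℝ × ℂ) : P.WR q = kk (P.rrW q) •
    P.eR (Complex.arg (P.ω : ℂ) + q.1, P.GmR q, (q.2 / ‖q.2‖) ^ 2) := by
  have h1 : P.ω * Circle.exp q.1 = Circle.exp (Complex.arg (P.ω : ℂ) + q.1) := by
    rw [Circle.exp_add, Circle.exp_arg]
  unfold WR W eR
  rw [h1]
  rfl

theorem rwa_pos {q : ℝ × ℂ} (hq : q.2 ≠ 0) : 0 < P.AR q.1 + ‖q.2‖ := by
  have := P.AR_nonneg q.1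
  have := norm_pos_iff.2 hq
  linarith

theorem GmR_eq (q : ℝ × ℂ) : P.GmR q =
    P.Λ * mx (nu (Circle.exp q.1)) (beta (P.AR q.1 + ‖q.2‖)) * (P.AR q.1 + ‖q.2‖) := rfl

theorem GmR_pos {q : ℝ × ℂ} (hq : q.2 ≠ 0) : 0 < P.GmR q := by
  have ha := P.rwa_pos hq
  have hb := RW.beta_pos ha
  have hm := RW.le_mx_right (RW.nu_nonneg' (Circle.exp q.1)) hb
  have := P.rw_Λ_ge
  rw [GmR_eq]
  have : 0 < mx (nu (Circle.exp q.1)) (beta (P.AR q.1 + ‖q.2‖)) := hb.trans_le hm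
  positivity

/-! ### `C^1` off the zero section -/

theorem WR_contDiffAt {q : ℝ × ℂ} (hq : q.2 ≠ 0) : ContDiffAt ℝ 1 P.WR q := by
  have ha := P.rwa_pos hq
  have hb := RW.beta_pos ha
  have hA : ContDiffAt ℝ 1 (fun q : ℝ × ℂ => P.AR q.1) q :=
    (P.AR_contDiff.comp contDiff_fst).contDiffAt
  have hn : ContDiffAt ℝ 1 (fun q : ℝ × ℂ => ‖q.2‖) q :=
    (contDiffAt_norm ℝ hq).comp q contDiffAt_snd
  have haC : ContDiffAt ℝ 1 (fun q : ℝ × ℂ => P.AR q.1 + ‖q.2‖) q := hA.add hn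
  have hr : ContDiffAt ℝ 1 P.rrW q := hA.div haC ha.ne'
  have hk : ContDiffAt ℝ 1 (fun q => kk (P.rrW q)) q := RW.kk_contDiff.contDiffAt.comp q hr
  have hν : ContDiffAt ℝ 1 (fun q : ℝ × ℂ => nu (Circle.exp q.1)) q :=
    (RW.nu_exp_contDiff.comp contDiff_fst).contDiffAt
  have hβ : ContDiffAt ℝ 1 (fun q : ℝ × ℂ => beta (P.AR q.1 + ‖q.2‖)) q :=
    ContDiffAt.comp q (g := beta) (RW.beta_contDiffAt ha) haC
  have hmx : ContDiffAt ℝ 1
      (fun q : ℝ × ℂ => mx (nu (Circle.exp q.1)) (beta (P.AR q.1 + ‖q.2‖))) q :=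
    ContDiffAt.comp q (g := fun p : ℝ × ℝ => mx p.1 p.2) (RW.mx_contDiffAt _ hb) (hν.prodMk hβ)
  have hG : ContDiffAt ℝ 1 P.GmR q := (contDiffAt_const.mul hmx).mul haC
  have hnc : ContDiffAt ℝ 1 (fun q : ℝ × ℂ => (starRingEnd ℂ) q.2) q :=
    (Complex.conjCLE : ℂ →L[ℝ] ℂ).contDiff.contDiffAt.comp q contDiffAt_snd
  have hdir : ContDiffAt ℝ 1 (fun q : ℝ × ℂ => (q.2 / ‖q.2‖) ^ 2) q := by
    have h1 : ContDiffAt ℝ 1 (fun q : ℝ × ℂ => q.2 * ((starRingEnd ℂ) q.2)⁻¹) q :=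
      contDiffAt_snd.mul (hnc.inv (by simpa only [ne_eq, map_eq_zero] using hq))
    refine h1.congr_of_eventuallyEq ?_
    have : ∀ᶠ p : ℝ × ℂ in 𝓝 q, p.2 ≠ 0 := continuous_snd.continuousAt.eventually_ne hq
    filter_upwards [this] with p hp
    exact RW.dir_eq hp
  have hsh : ContDiffAt ℝ 1 (fun q : ℝ × ℂ => Complex.arg (P.ω : ℂ) + q.1) q :=
    contDiffAt_const.add contDiffAt_fst
  have he : ContDiffAt ℝ 1
      (fun q : ℝ × ℂ => P.eR (Complex.arg (P.ω : ℂ) + q.1, P.GmR q, (q.2 / ‖q.2‖) ^ 2)) q :=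
    ContDiffAt.comp q (g := P.eR) (P.eR_contDiffAt _ (P.GmR_pos hq) _)
      (hsh.prodMk (hG.prodMk hdir))
  have hfun : P.WR = fun q => kk (P.rrW q) •
    P.eR (Complex.arg (P.ω : ℂ) + q.1, P.GmR q, (q.2 / ‖q.2‖) ^ 2) := funext P.WR_eq
  rw [hfun]
  exact hk.smul he

/-! ### derivative bounds -/

theorem WR_fderiv_zero_of {q : ℝ × ℂ} (hq : q.2 ≠ 0) (hr : 3 / 4 < P.rrW q) :
    fderiv ℝ P.WR q = 0 := by
  have ha := P.rwa_pos hq
  have hA : ContinuousAt (fun q : ℝ × ℂ => P.AR q.1) q :=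
    (P.AR_contDiff.continuous.comp continuous_fst).continuousAt
  have hc : ContinuousAt P.rrW q :=
    hA.div (hA.add (continuous_snd.norm.continuousAt)) ha.ne'
  have hev : P.WR =ᶠ[𝓝 q] fun _ => 0 := by
    filter_upwards [hc.eventually (lt_mem_nhds hr)] with p hp
    rw [WR_eq, RW.kk_eq_zero hp.le, zero_smul]
  rw [hev.fderiv_eq]
  exact fderiv_const_apply (𝕜 := ℝ) (x := q) (0 : P.V)

theorem WR_fderiv_bound : ∃ C : ℝ, 0 < C ∧ ∀ q : ℝ × ℂ, q.2 ≠ 0 → P.rrW q ≤ 3 / 4 →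
    P.GmR q ≤ 1 → ‖fderiv ℝ P.WR q‖ ≤ C *
      (mx (nu (Circle.exp q.1)) (beta (P.AR q.1 + ‖q.2‖)) * (1 + |deriv P.AR q.1|) +
        (P.AR q.1 + ‖q.2‖) + P.GmR q * Real.log (2 / P.GmR q) ^ 3 +
        mx (nu (Circle.exp q.1)) (beta (P.AR q.1 + ‖q.2‖)) *
          Real.sqrt (Real.log (2 / P.GmR q))) := by
  obtain ⟨C₁, hC₁1, hC₁⟩ := RW.st_deriv_bound
  obtain ⟨C₂, hC₂, hB⟩ := P.eR_bounds
  have hΛ := P.rw_Λ_ge
  have hC₁0 : 0 < C₁ := by linarith only [hC₁1]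
  refine ⟨C₂ * (P.Λ * (3 + 3 * C₁)) + C₂ + 8 * C₂ * P.Λ + 16 * C₁ * P.Λ, by (clear * - hC₂ hΛ hC₁1; positivity), ?_⟩
  intro q hq hr hG1
  have ha := P.rwa_pos hq
  have hb := RW.beta_pos ha
  have hρ : 0 < ‖q.2‖ := norm_pos_iff.2 hq
  have hG0 := P.GmR_pos hq
  have hA0 := P.AR_nonneg q.1
  set a := P.AR q.1 + ‖q.2‖ with hadef
  set D := |deriv P.AR q.1| with hD
  have hD0 : 0 ≤ D := abs_nonneg _
  set ν := nu (Circle.exp q.1) with hν
  have hν0 : 0 ≤ ν := RW.nu_nonneg' _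
  set b := beta a with hbdef
  set m := mx ν b with hm
  have hbm : b ≤ m := RW.le_mx_right hν0 hb
  have hm0 : 0 < m := hb.trans_le hbm
  -- A
  have dA : DB (fun q : ℝ × ℂ => P.AR q.1) q D := by
    have h1 : HasDerivAt P.AR (deriv P.AR q.1) q.1 :=
      (P.AR_contDiff.differentiable (by norm_num) q.1).hasDerivAt
    have h2 : DB (fun q : ℝ × ℂ => q.1) q 1 := ⟨_, hasFDerivAt_fst, ContinuousLinearMap.norm_fst_le ℝ ℝ ℂ⟩
    have h3 := h2.comp_real h1
    rw [mul_one] at h3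
    exact h3
  have dn := RW.db_norm_snd hq
  have da : DB (fun q : ℝ × ℂ => P.AR q.1 + ‖q.2‖) q (D + 1) := dA.add dn
  -- rr
  have dr : DB P.rrW q ((2 * D + 1) / a) := by
    have h1 : DB (fun q : ℝ × ℂ => (P.AR q.1 + ‖q.2‖)⁻¹) q (‖(-(a ^ 2)⁻¹)‖ * (D + 1)) :=
      DB.comp_real (g := fun y : ℝ => y⁻¹) da (hasDerivAt_inv ha.ne')
    have h2 := dA.mul h1
    have h3 : DB P.rrW q (|P.AR q.1| * (‖(-(a ^ 2)⁻¹)‖ * (D + 1)) + D * |(P.AR q.1 + ‖q.2‖)⁻¹|) :=
      h2.congr (Eventually.of_forall fun q => P.rrW_eq q)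
    refine h3.mono ?_
    rw [norm_neg, norm_inv, norm_pow, Real.norm_eq_abs, ← hadef, abs_of_nonneg hA0,
      abs_of_pos ha, abs_of_pos (inv_pos.2 ha)]
    have h4 : P.AR q.1 ≤ a := by rw [hadef]; linarith only [hρ]
    have h5 : P.AR q.1 * ((a ^ 2)⁻¹ * (D + 1)) ≤ a * ((a ^ 2)⁻¹ * (D + 1)) :=
      mul_le_mul_of_nonneg_right h4 (by (clear * - hA0 hq; positivity))
    have h6 : a * ((a ^ 2)⁻¹ * (D + 1)) = (D + 1) / a := by (clear * - hD0 ha; field_simp)
    have h7 : (2 * D + 1) / a = (D + 1) / a + D * a⁻¹ := by field_simp; ring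
    rw [h7]
    linarith only [h5, h6]
  have dk : DB (fun q => kk (P.rrW q)) q (4 * C₁ * ((2 * D + 1) / a)) := by
    refine (dr.comp_real (RW.kk_hasDerivAt _)).mono ?_
    rw [norm_mul, Real.norm_eq_abs, Real.norm_eq_abs]
    have h1 := hC₁ (3 - 4 * P.rrW q)
    have h2 : |(-4 : ℝ)| = 4 := by norm_num
    rw [h2]
    have h3 : 0 ≤ (2 * D + 1) / a := by (clear * - hA0 hq; positivity)
    nlinarith only [h1, h3]
  -- nu, beta, mx, Gam
  have dν : DB (fun q : ℝ × ℂ => nu (Circle.exp q.1)) q 1 := by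
    have h2 : DB (fun q : ℝ × ℂ => q.1) q 1 := ⟨_, hasFDerivAt_fst, ContinuousLinearMap.norm_fst_le ℝ ℝ ℂ⟩
    refine (h2.comp_real (RW.nu_exp_hasDerivAt q.1)).mono ?_
    rw [mul_one, Real.norm_eq_abs, abs_div]
    have := Real.abs_sin_le_one q.1
    have h3 : |(2 : ℝ)| = 2 := by norm_num
    rw [h3]
    linarith only [this]
  obtain ⟨b', hb', hb'le⟩ := RW.beta_hasDerivAt ha
  have dβ : DB (fun q : ℝ × ℂ => beta (P.AR q.1 + ‖q.2‖)) q (b / a * (D + 1)) := by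
    refine (DB.comp_real (g := beta) da hb').mono ?_
    rw [Real.norm_eq_abs]
    exact mul_le_mul_of_nonneg_right hb'le (by (clear * -; positivity))
  have dm : DB (fun q : ℝ × ℂ => mx (nu (Circle.exp q.1)) (beta (P.AR q.1 + ‖q.2‖))) q
      ((1 + C₁) * 1 + (1 + 2 * C₁) * (b / a * (D + 1))) := by
    refine (dν.comp_real2 dβ (g := fun p : ℝ × ℝ => mx p.1 p.2) (RW.mx_hasFDerivAt _ hb)).mono ?_
    obtain ⟨h1, h2⟩ := RW.mx_deriv_bound hC₁ hν0 hb
    refine add_le_add (mul_le_mul_of_nonneg_right h1 zero_le_one)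
      (mul_le_mul_of_nonneg_right h2 (by (clear * - hb hA0 hq; positivity)))
  have dG : DB P.GmR q (P.Λ * (3 + 3 * C₁) * (m * (1 + D) + a)) := by
    have h1 : DB (fun q : ℝ × ℂ => P.Λ * mx (nu (Circle.exp q.1)) (beta (P.AR q.1 + ‖q.2‖))) q
        (|P.Λ| * ((1 + C₁) * 1 + (1 + 2 * C₁) * (b / a * (D + 1))) + 0 * |m|) :=
      (DB.const P.Λ q).mul dm
    refine (h1.mul da).mono ?_
    rw [abs_of_pos (by positivity : 0 < P.Λ), ← hadef, ← hbdef, ← hν, ← hm,
      abs_of_pos ha, abs_of_pos (by (clear * - hΛ hm0; positivity) : 0 < P.Λ * m), zero_mul, add_zero, mul_one]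
    have h2 : P.Λ * (1 + C₁ + (1 + 2 * C₁) * (b / a * (D + 1))) * a =
        P.Λ * ((1 + C₁) * a + (1 + 2 * C₁) * (b * (D + 1))) := by (clear * - ha hC₁1 hb hD0 hΛ; field_simp)
    rw [h2]
    have h3 : (1 + 2 * C₁) * (b * (D + 1)) ≤ (1 + 2 * C₁) * (m * (D + 1)) :=
      mul_le_mul_of_nonneg_left (mul_le_mul_of_nonneg_right hbm (by (clear * -; positivity))) (by positivity)
    have h4 : P.Λ * m * (D + 1) + P.Λ * ((1 + C₁) * a + (1 + 2 * C₁) * (b * (D + 1))) ≤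
        P.Λ * (m * (D + 1) + ((1 + C₁) * a + (1 + 2 * C₁) * (m * (D + 1)))) := by
      have : 0 < P.Λ := by linarith only [hΛ]
      nlinarith only [h3, hΛ]
    refine h4.trans ?_
    rw [mul_assoc]
    refine mul_le_mul_of_nonneg_left ?_ (by linarith only [hΛ])
    have h5 : 0 ≤ m * (D + 1) := by (clear * - hm0; positivity)
    nlinarith only [hρ, hA0, h5, hC₁1]
  have ddir := RW.db_dir hq
  have dsh : DB (fun q : ℝ × ℂ => Complex.arg (P.ω : ℂ) + q.1) q 1 :=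
    ⟨_, hasFDerivAt_fst.const_add _, ContinuousLinearMap.norm_fst_le ℝ ℝ ℂ⟩
  have hu : ‖(q.2 / (‖q.2‖ : ℂ)) ^ 2‖ = 1 := by
    rw [norm_pow, norm_div, Complex.norm_real, norm_norm, div_self hρ.ne', one_pow]
  obtain ⟨hB2, hB3, hB1⟩ := hB (Complex.arg (P.ω : ℂ) + q.1) (P.GmR q)
    ((q.2 / (‖q.2‖ : ℂ)) ^ 2) hG0 hG1 hu
  have hlog : 0 ≤ Real.log (2 / P.GmR q) := by
    apply Real.log_nonneg
    rw [le_div_iff₀ hG0]; linarith only [hG1]
  have hdiff : DifferentiableAt ℝ P.eR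
      (Complex.arg (P.ω : ℂ) + q.1, P.GmR q, (q.2 / (‖q.2‖ : ℂ)) ^ 2) :=
    (P.eR_contDiffAt _ hG0 _).differentiableAt (by norm_num)
  have de := db_comp3 (G := P.eR) dsh dG ddir hdiff hB1 hB2 (by (clear * - hC₂ hG0; positivity)) hB3
  have dW : DB P.WR q _ := (dk.smul de).congr (Eventually.of_forall fun q => P.WR_eq q)
  refine dW.fderiv_le.trans ?_
  -- final estimate
  set G := P.GmR q with hGdef
  set ℓ := Real.log (2 / G) with hℓ
  have hGm : G = P.Λ * m * a := rfl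
  have hen : ‖P.eR (Complex.arg (P.ω : ℂ) + q.1, G, (q.2 / (‖q.2‖ : ℂ)) ^ 2)‖ ≤ 2 * G :=
    P.e_norm_le _ hG0.le hu
  have hk1 : |kk (P.rrW q)| ≤ 1 := by
    rw [abs_of_nonneg (RW.kk_nonneg _)]; exact RW.kk_le_one _
  have ha4 : a ≤ 4 * ‖q.2‖ := by
    have h1 : P.AR q.1 / a ≤ 3 / 4 := hr
    rw [div_le_iff₀ ha] at h1
    have h2 : a = P.AR q.1 + ‖q.2‖ := hadef
    linarith only [h1]
  have hGρ : G / ‖q.2‖ ≤ 4 * (P.Λ * m) := by
    rw [div_le_iff₀ hρ, hGm]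
    have : 0 ≤ P.Λ * m := by (clear * - hΛ hm0; positivity)
    nlinarith only [hρ, hGm, hA0, hG0, ha4]
  set X := 1 * (C₂ * G * ℓ ^ 3) + P.Λ * (3 + 3 * C₁) * (m * (1 + D) + a) * C₂ +
      C₂ * G * √ℓ * (2 / ‖q.2‖) with hX
  have hX0 : 0 ≤ X := by (clear * - hC₂ hG0 hlog hΛ hC₁1 hm0 hA0 hq; positivity)
  have hsq : 0 ≤ √ℓ := Real.sqrt_nonneg _
  have e1 : C₂ * G * √ℓ * (2 / ‖q.2‖) ≤ 8 * C₂ * P.Λ * (m * √ℓ) := by
    have : C₂ * G * √ℓ * (2 / ‖q.2‖) = 2 * C₂ * √ℓ * (G / ‖q.2‖) := by (clear * - hq hG0 hC₂; field_simp)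
    rw [this]
    have h1 : 2 * C₂ * √ℓ * (G / ‖q.2‖) ≤ 2 * C₂ * √ℓ * (4 * (P.Λ * m)) :=
      mul_le_mul_of_nonneg_left hGρ (by (clear * - hC₂; positivity))
    refine h1.trans (le_of_eq (by ring))
  have e2 : 4 * C₁ * ((2 * D + 1) / a) * (2 * G) ≤ 16 * C₁ * P.Λ * (m * (1 + D)) := by
    have : 4 * C₁ * ((2 * D + 1) / a) * (2 * G) = 8 * C₁ * P.Λ * (m * (2 * D + 1)) := by
      rw [hGm]; field_simp; norm_num
    rw [this]
    have h1 : m * (2 * D + 1) ≤ 2 * (m * (1 + D)) := by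
      have : 2 * (m * (1 + D)) = m * (2 * D + 1) + m := by ring
      rw [this]; linarith only [hb, hbm]
    have h2 : 0 ≤ 8 * C₁ * P.Λ := by positivity
    calc 8 * C₁ * P.Λ * (m * (2 * D + 1)) ≤ 8 * C₁ * P.Λ * (2 * (m * (1 + D))) :=
          mul_le_mul_of_nonneg_left h1 h2
      _ = 16 * C₁ * P.Λ * (m * (1 + D)) := by ring
  have e3 : |kk (P.rrW q)| * X ≤ X := by
    calc |kk (P.rrW q)| * X ≤ 1 * X := mul_le_mul_of_nonneg_right hk1 hX0
      _ = X := one_mul _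
  have e4 : 4 * C₁ * ((2 * D + 1) / a) *
      ‖P.eR (Complex.arg (P.ω : ℂ) + q.1, G, (q.2 / (‖q.2‖ : ℂ)) ^ 2)‖ ≤
      4 * C₁ * ((2 * D + 1) / a) * (2 * G) :=
    mul_le_mul_of_nonneg_left hen (by (clear * - hC₁1 hA0 hq; positivity))
  have hT1 : 0 ≤ m * (1 + D) := by (clear * - hm0; positivity)
  have hT2 : 0 ≤ a := ha.le
  have hT3 : 0 ≤ G * ℓ ^ 3 := by (clear * - hG0 hlog; positivity)
  have hT4 : 0 ≤ m * √ℓ := by (clear * - hm0; positivity)
  have hL0 : 0 ≤ C₂ * (P.Λ * (3 + 3 * C₁)) := by positivity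
  have hL1 : 0 ≤ C₂ := hC₂.le
  have hL2 : 0 ≤ 8 * C₂ * P.Λ := by positivity
  have hL3 : 0 ≤ 16 * C₁ * P.Λ := by positivity
  have hXle : X ≤ C₂ * (G * ℓ ^ 3) + C₂ * (P.Λ * (3 + 3 * C₁)) * (m * (1 + D) + a) +
      8 * C₂ * P.Λ * (m * √ℓ) := by
    rw [hX]
    refine add_le_add (add_le_add (le_of_eq (by ring)) (le_of_eq (by ring))) e1
  have key := (add_le_add_left hXle (16 * C₁ * P.Λ * (m * (1 + D)))).trans
    (rw_alg hT1 hT2 hT3 hT4 hL0 hL1 hL2 hL3)
  refine le_trans ?_ key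
  exact add_le_add e3 (e4.trans e2)

/-! ### the limit -/

theorem WR_fderiv_tendsto (θ₀ : ℝ) :
    Tendsto (fderiv ℝ P.WR) (𝓝[{q | q.2 ≠ 0}] ((θ₀, 0) : ℝ × ℂ)) (𝓝 0) := by
  set l : Filter (ℝ × ℂ) := 𝓝[{q | q.2 ≠ 0}] ((θ₀, 0) : ℝ × ℂ) with hl
  have hle : l ≤ 𝓝 ((θ₀, 0) : ℝ × ℂ) := nhdsWithin_le_nhds
  have hmem : ∀ᶠ q : ℝ × ℂ in l, q.2 ≠ 0 := self_mem_nhdsWithin
  have hAc : Continuous (fun q : ℝ × ℂ => P.AR q.1) := P.AR_contDiff.continuous.comp continuous_fst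
  have hac : Continuous (fun q : ℝ × ℂ => P.AR q.1 + ‖q.2‖) := hAc.add continuous_snd.norm
  rcases (P.AR_nonneg θ₀).eq_or_lt with hA0 | hA0
  · -- degenerate fibre
    have hν0 : nu (Circle.exp θ₀) = 0 := by
      by_contra hne
      have h1 : 0 < nu (Circle.exp θ₀) := lt_of_le_of_ne (RW.nu_nonneg' _) (Ne.symm hne)
      exact absurd hA0 (P.rwA_pos h1).ne
    have hνc : Continuous (fun q : ℝ × ℂ => nu (Circle.exp q.1)) :=
      RW.nu_exp_contDiff.continuous.comp continuous_fst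
    have tν : Tendsto (fun q : ℝ × ℂ => nu (Circle.exp q.1)) l (𝓝 0) := by
      have := (hνc.tendsto ((θ₀, 0) : ℝ × ℂ)).mono_left hle
      simpa only [hν0] using this
    have ta : Tendsto (fun q : ℝ × ℂ => P.AR q.1 + ‖q.2‖) l (𝓝 0) := by
      have := (hac.tendsto ((θ₀, 0) : ℝ × ℂ)).mono_left hle
      simpa only [← hA0, norm_zero, add_zero] using this
    have ta' : Tendsto (fun q : ℝ × ℂ => P.AR q.1 + ‖q.2‖) l (𝓝[>] 0) := by
      rw [tendsto_nhdsWithin_iff]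
      exact ⟨ta, hmem.mono fun q hq => P.rwa_pos hq⟩
    have tβ : Tendsto (fun q : ℝ × ℂ => beta (P.AR q.1 + ‖q.2‖)) l (𝓝 0) :=
      RW.beta_tendsto.comp ta'
    have tm : Tendsto (fun q : ℝ × ℂ =>
        mx (nu (Circle.exp q.1)) (beta (P.AR q.1 + ‖q.2‖))) l (𝓝 0) := by
      have h1 := tν.add tβ
      rw [add_zero] at h1
      refine tendsto_of_tendsto_of_tendsto_of_le_of_le' tendsto_const_nhds h1 ?_ ?_
      · filter_upwards [hmem] with q hq
        have hb := RW.beta_pos (P.rwa_pos hq)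
        exact hb.le.trans (RW.le_mx_right (RW.nu_nonneg' _) hb)
      · filter_upwards [hmem] with q hq
        exact RW.mx_le (RW.beta_pos (P.rwa_pos hq)).le
    have tG : Tendsto P.GmR l (𝓝 0) := by
      have h1 := (tm.const_mul P.Λ).mul ta
      simp only [mul_zero] at h1
      exact h1.congr (fun q => (P.GmR_eq q).symm)
    have tD : Tendsto (fun q : ℝ × ℂ => 1 + |deriv P.AR q.1|) l
        (𝓝 (1 + |deriv P.AR θ₀|)) := by
      have h1 : Continuous (fun q : ℝ × ℂ => 1 + |deriv P.AR q.1|) := by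
        have h2 : Continuous (deriv P.AR) := P.AR_contDiff.continuous_deriv (by norm_num)
        exact continuous_const.add (h2.comp continuous_fst).abs
      exact (h1.tendsto ((θ₀, 0) : ℝ × ℂ)).mono_left hle
    have t1 : Tendsto (fun q : ℝ × ℂ => mx (nu (Circle.exp q.1)) (beta (P.AR q.1 + ‖q.2‖)) *
        (1 + |deriv P.AR q.1|)) l (𝓝 0) := by
      have := tm.mul tD
      simpa only [zero_mul] using this
    have t3 : Tendsto (fun q : ℝ × ℂ => 216 * Real.sqrt (2 * P.GmR q)) l (𝓝 0) := by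
      have h1 : Tendsto (fun q : ℝ × ℂ => 2 * P.GmR q) l (𝓝 0) := by simpa using tG.const_mul 2
      have h2 := ((Real.continuous_sqrt.tendsto 0).comp h1).const_mul 216
      simpa only [Nat.ofNat_nonneg, Real.sqrt_mul, Function.comp_apply, Real.sqrt_zero, mul_zero] using h2
    have t4 : Tendsto (fun q : ℝ × ℂ => 2 * Real.sqrt (2 * nu (Circle.exp q.1) ^ 2 +
        P.K * nu (Circle.exp q.1)) + Real.sqrt (2 * beta (P.AR q.1 + ‖q.2‖))) l (𝓝 0) := by
      have h1 : Tendsto (fun q : ℝ × ℂ => 2 * nu (Circle.exp q.1) ^ 2 +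
        P.K * nu (Circle.exp q.1)) l (𝓝 0) := by
        simpa only [ne_eq, OfNat.ofNat_ne_zero, not_false_eq_true, zero_pow, mul_zero, add_zero] using     ((tν.pow 2).const_mul 2).add (tν.const_mul P.K)
      have h2 := ((Real.continuous_sqrt.tendsto 0).comp h1).const_mul 2
      have h3 : Tendsto (fun q : ℝ × ℂ => 2 * beta (P.AR q.1 + ‖q.2‖)) l (𝓝 0) := by
        simpa only [mul_zero] using tβ.const_mul 2
      have h4 := (Real.continuous_sqrt.tendsto 0).comp h3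
      have h5 := h2.add h4
      simpa only [Nat.ofNat_nonneg, Real.sqrt_mul, Function.comp_apply, Real.sqrt_zero, mul_zero, add_zero] using h5
    obtain ⟨C, hC, hbound⟩ := P.WR_fderiv_bound
    have tall := (((t1.add ta).add t3).add t4).const_mul C
    simp only [add_zero, mul_zero] at tall
    rw [tendsto_zero_iff_norm_tendsto_zero]
    refine tendsto_of_tendsto_of_tendsto_of_le_of_le' tendsto_const_nhds tall
      (Eventually.of_forall fun q => norm_nonneg _) ?_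
    have hG1 : ∀ᶠ q in l, P.GmR q ≤ 1 := (tG.eventually (gt_mem_nhds zero_lt_one)).mono
      fun q hq => hq.le
    have ha1 : ∀ᶠ q : ℝ × ℂ in l, P.AR q.1 + ‖q.2‖ ≤ 1 :=
      (ta.eventually (gt_mem_nhds zero_lt_one)).mono fun q hq => hq.le
    filter_upwards [hmem, hG1, ha1] with q hq hG hle1
    have ha := P.rwa_pos hq
    have hb := RW.beta_pos ha
    have hν := RW.nu_nonneg' (Circle.exp q.1)
    have hbm := RW.le_mx_right hν hb
    have hm := hb.trans_le hbm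
    have hG0 := P.GmR_pos hq
    by_cases hr : P.rrW q ≤ 3 / 4
    · refine (hbound q hq hr hG).trans (mul_le_mul_of_nonneg_left ?_ hC.le)
      refine add_le_add (add_le_add le_rfl ?_) ?_
      · exact RW.mul_log_cube_le hG0 hG
      · have hΛ := P.rw_Λ_ge
        have h1 : beta (P.AR q.1 + ‖q.2‖) * (P.AR q.1 + ‖q.2‖) ≤ P.GmR q := by
          rw [P.GmR_eq]
          refine mul_le_mul_of_nonneg_right ?_ ha.le
          calc beta (P.AR q.1 + ‖q.2‖) ≤ 1 * mx (nu (Circle.exp q.1)) (beta (P.AR q.1 + ‖q.2‖)) := by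
                rw [one_mul]; exact hbm
            _ ≤ _ := mul_le_mul_of_nonneg_right hΛ hm.le
        have h2 := (RW.log_two_div_le ha rfl h1 hG).2
        have h3 : Real.sqrt (Real.log (2 / P.GmR q)) ≤
            Real.sqrt (2 / beta (P.AR q.1 + ‖q.2‖)) := Real.sqrt_le_sqrt h2
        have h4 : mx (nu (Circle.exp q.1)) (beta (P.AR q.1 + ‖q.2‖)) *
            Real.sqrt (Real.log (2 / P.GmR q)) ≤
            (nu (Circle.exp q.1) + beta (P.AR q.1 + ‖q.2‖)) *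
              Real.sqrt (2 / beta (P.AR q.1 + ‖q.2‖)) :=
          mul_le_mul (RW.mx_le hb.le) h3 (Real.sqrt_nonneg _) (by (clear * - hν hb; positivity))
        refine h4.trans ?_
        rw [add_mul]
        refine add_le_add ?_ ?_
        · rcases hν.eq_or_lt with h0 | h0
          · rw [← h0, zero_mul]; (clear * -; positivity)
          · exact RW.nu_mul_sqrt_le h0 P.rw_K_pos ha hle1
              ((P.rwA_lower h0).trans (by
                have : P.A (Circle.exp q.1) = P.AR q.1 := rfl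
                rw [this]
                have := norm_nonneg q.2
                linarith only [this]))
        · have h5 : beta (P.AR q.1 + ‖q.2‖) * Real.sqrt (2 / beta (P.AR q.1 + ‖q.2‖)) =
              Real.sqrt (2 * beta (P.AR q.1 + ‖q.2‖)) := by
            have h6 : 2 * beta (P.AR q.1 + ‖q.2‖) =
              beta (P.AR q.1 + ‖q.2‖) ^ 2 * (2 / beta (P.AR q.1 + ‖q.2‖)) := by (clear * - hb; field_simp)
            rw [h6, Real.sqrt_mul (by (clear * - hb; positivity)), Real.sqrt_sq hb.le]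
          exact h5.le
    · rw [P.WR_fderiv_zero_of hq (not_le.1 hr), norm_zero]
      have := abs_nonneg (deriv P.AR q.1)
      have h7 : 0 ≤ mx (nu (Circle.exp q.1)) (beta (P.AR q.1 + ‖q.2‖)) *
        (1 + |deriv P.AR q.1|) := by (clear * - hm; positivity)
      (clear * - hC hm ha hG0 hb; positivity)
  · -- nondegenerate fibre: `W = 0` nearby
    have hcr : ContinuousAt P.rrW ((θ₀, 0) : ℝ × ℂ) := by
      refine hAc.continuousAt.div hac.continuousAt ?_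
      simp only [norm_zero, add_zero]
      exact hA0.ne'
    have hval : P.rrW ((θ₀, 0) : ℝ × ℂ) = 1 := by
      unfold rrW
      simp only [norm_zero, add_zero]
      exact div_self hA0.ne'
    have hev : ∀ᶠ q in l, 3 / 4 < P.rrW q := by
      have h1 : Tendsto P.rrW (𝓝 ((θ₀, 0) : ℝ × ℂ)) (𝓝 1) := by rw [← hval]; exact hcr
      exact (h1.mono_left hle).eventually (lt_mem_nhds (by norm_num))
    refine Tendsto.congr' ?_ tendsto_const_nhds
    filter_upwards [hmem, hev] with q hq hr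
    exact (P.WR_fderiv_zero_of hq hr).symm

theorem rwW_zero (ζ : Circle) : P.W ζ 0 = 0 := by
  unfold W
  rcases (expNegInvGlue.nonneg (nu ζ / P.K)).eq_or_lt with h | h
  · have h1 : P.A ζ = 0 := h.symm
    have h2 : P.Gam ζ 0 = 0 := by unfold Gam; rw [mul_zero]
    rw [norm_zero, add_zero, h1, h2]
    have h3 : ∀ u : ℂ, P.e (P.ω * ζ) 0 u = 0 := by
      intro u
      unfold e
      have h4 : ∀ t : ℕ, P.coef (P.ω * ζ) 0 t = 0 := by
        intro t; unfold coef; simp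
      simp only [h4, Complex.ofReal_zero, zero_mul, zero_smul, tsum_zero]
    rw [h3, smul_zero]
  · have h1 : 0 < P.A ζ := h
    rw [norm_zero, add_zero, div_self h1.ne', RW.kk_eq_zero (by norm_num)]
    simp

theorem rwW_norm_le (ζ : Circle) (z : ℂ) : ‖P.W ζ z‖ ≤ 14 * P.Λ * ‖z‖ := by
  have hΛ := P.rw_Λ_ge
  rcases eq_or_ne z 0 with rfl | hz
  · rw [rwW_zero, norm_zero, norm_zero, mul_zero]
  have hρ : 0 < ‖z‖ := norm_pos_iff.2 hz
  have hA : 0 ≤ P.A ζ := expNegInvGlue.nonneg _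
  have ha : 0 < P.A ζ + ‖z‖ := by linarith only [hρ, hA]
  have hb := RW.beta_pos ha
  have hν := RW.nu_nonneg' ζ
  have hm0 : 0 < mx (nu ζ) (beta (P.A ζ + ‖z‖)) := hb.trans_le (RW.le_mx_right hν hb)
  by_cases hr : 3 / 4 ≤ P.A ζ / (P.A ζ + ‖z‖)
  · unfold W
    rw [RW.kk_eq_zero hr]
    simp only [Complex.ofReal_zero, zero_smul, norm_zero]
    positivity
  · push Not at hr
    rw [div_lt_iff₀ ha] at hr
    have hu : ‖(z / (‖z‖ : ℂ)) ^ 2‖ = 1 := by
      rw [norm_pow, norm_div, Complex.norm_real, norm_norm, div_self hρ.ne', one_pow]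
    have hG : 0 ≤ P.Gam ζ (P.A ζ + ‖z‖) := by
      unfold Gam
      (clear * - hΛ hm0 hA hz; positivity)
    have he := P.e_norm_le (P.ω * ζ) hG hu
    have hk : ‖(kk (P.A ζ / (P.A ζ + ‖z‖)) : ℂ)‖ ≤ 1 := by
      rw [Complex.norm_real, Real.norm_eq_abs, abs_of_nonneg (RW.kk_nonneg _)]
      exact RW.kk_le_one _
    have h1 : ‖P.W ζ z‖ ≤ 1 * (2 * P.Gam ζ (P.A ζ + ‖z‖)) := by
      unfold W
      rw [norm_smul]
      exact mul_le_mul hk he (norm_nonneg _) zero_le_one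
    refine h1.trans ?_
    have h2 : mx (nu ζ) (beta (P.A ζ + ‖z‖)) ≤ 3 / 2 := by
      refine (RW.mx_le hb.le).trans ?_
      have h3 := RW.beta_le_half ha
      have h4 := RW.nu_le_one' ζ
      linarith only [h3, h4]
    have h5 : P.Gam ζ (P.A ζ + ‖z‖) ≤ P.Λ * (3 / 2) * (4 * ‖z‖) := by
      unfold Gam
      refine mul_le_mul (mul_le_mul_of_nonneg_left h2 (by linarith only [hΛ])) (by linarith only [hr]) ha.le
        (by positivity)
    linarith

theorem WR_aux : ContDiff ℝ 1 P.WR ∧ ∀ θ, fderiv ℝ P.WR (θ, 0) = 0 := by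
  apply flat_contDiff
  · intro θ
    exact P.rwW_zero _
  · intro q hq
    exact P.WR_contDiffAt hq
  · intro θ
    have h0 : P.WR (θ, 0) = 0 := P.rwW_zero _
    rw [ContinuousAt, h0, tendsto_zero_iff_norm_tendsto_zero]
    have h1 : Tendsto (fun q : ℝ × ℂ => 14 * P.Λ * ‖q.2‖) (𝓝 (θ, 0)) (𝓝 0) := by
      have : Continuous (fun q : ℝ × ℂ => 14 * P.Λ * ‖q.2‖) := by fun_prop
      have h2 := this.tendsto ((θ, 0) : ℝ × ℂ)
      simpa only [norm_zero, mul_zero] using h2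
    exact tendsto_of_tendsto_of_tendsto_of_le_of_le tendsto_const_nhds h1
      (fun q => norm_nonneg _) (fun q => P.rwW_norm_le _ _)
  · intro θ
    exact P.WR_fderiv_tendsto θ

theorem WR_contDiff : ContDiff ℝ 1 P.WR := P.WR_aux.1

end Par

end Vale.Agent.P103
end
end

section

section

/-!
# P103: the wrapping map `W` and the fibre map `F`: bounds and capture
-/

namespace Vale.Agent.P103

/-- `β(a) ≥ 1/8` for `a ≥ 1/4`. -/
theorem cc_beta_ge {a : ℝ} (ha : 1 / 4 ≤ a) : 1 / 8 ≤ beta a := by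
  unfold beta
  have ha0 : 0 < a := by linarith only [ha]
  have h1 : 1 / a ≤ 4 := by
    rw [div_le_iff₀ ha0]; linarith
  have hp : 0 < 1 / a := by positivity
  have h0 : 0 ≤ Real.log (1 + 1 / a) := Real.log_nonneg (by linarith only [hp])
  have h2 : Real.log (1 + 1 / a) ≤ 3 := by
    have h3 : Real.log (1 + 1 / a) ≤ Real.log 5 := Real.log_le_log (by positivity) (by linarith only [h1])
    have h4 : Real.log 5 ≤ 3 := by
      rw [Real.log_le_iff_le_exp (by norm_num)]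
      have := Real.add_one_le_exp (3 : ℝ)
      have h5 : (1 : ℝ) + 3 / 2 ≤ Real.exp (3 / 2) := by
        have := Real.add_one_le_exp (3 / 2 : ℝ); linarith only [this]
      have h6 : Real.exp 3 = Real.exp (3 / 2) * Real.exp (3 / 2) := by
        rw [← Real.exp_add]; norm_num
      rw [h6]
      nlinarith only [h5]
    linarith only [h3, h4]
  rw [div_le_div_iff₀ (by norm_num) (by positivity)]
  linarith only [h2]

namespace Par

variable (P : Par)

theorem cc_Gam_le (ζ : Circle) {a : ℝ} (ha : 0 < a) : P.Gam ζ a ≤ 3 / 2 * P.Λ * a := by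
  unfold Gam
  have h1 := mx_le_add (ν := nu ζ) (beta_pos ha).le
  have h2 := nu_le_one ζ
  have h3 := beta_le_half ha.le
  have h4 : mx (nu ζ) (beta a) ≤ 3 / 2 := by linarith
  have h5 : 0 ≤ P.Λ := by have := P.Λ_ge_64; linarith only [this]
  calc P.Λ * mx (nu ζ) (beta a) * a ≤ P.Λ * (3 / 2) * a := by gcongr
    _ = 3 / 2 * P.Λ * a := by ring

theorem cc_unit_sq {z : ℂ} (hz : z ≠ 0) : ‖(z / ‖z‖) ^ 2‖ = 1 := by
  rw [norm_pow, norm_div, Complex.norm_real, norm_norm, div_self (norm_ne_zero_iff.mpr hz),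
    one_pow]

/-- `‖W ζ z‖ ≤ 3 Λ (A + |z|)`. -/
theorem cc_W_norm_le_aux (ζ : Circle) {z : ℂ} (hz : z ≠ 0) :
    ‖P.W ζ z‖ ≤ 3 * P.Λ * (P.A ζ + ‖z‖) := by
  have hA := P.A_nonneg ζ
  have hz' : 0 < ‖z‖ := norm_pos_iff.mpr hz
  have ha : 0 < P.A ζ + ‖z‖ := by linarith only [hA, hz']
  unfold W
  rw [norm_smul, Complex.norm_real, Real.norm_eq_abs, abs_of_nonneg (kk_nonneg _)]
  have h1 := P.e_norm_le (P.ω * ζ) (P.Gam_pos ζ ha).le (cc_unit_sq hz)
  have h2 := P.cc_Gam_le ζ ha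
  calc kk (P.A ζ / (P.A ζ + ‖z‖)) * ‖P.e (P.ω * ζ) (P.Gam ζ (P.A ζ + ‖z‖)) ((z / ‖z‖) ^ 2)‖
      ≤ 1 * (2 * P.Gam ζ (P.A ζ + ‖z‖)) := by
        apply mul_le_mul (kk_le_one _) h1 (norm_nonneg _) zero_le_one
    _ ≤ 3 * P.Λ * (P.A ζ + ‖z‖) := by linarith only [h2]

theorem W_zero (ζ : Circle) : P.W ζ 0 = 0 := by
  unfold W
  have : P.e (P.ω * ζ) (P.Gam ζ (P.A ζ + ‖(0 : ℂ)‖)) ((0 / ‖(0 : ℂ)‖) ^ 2) = 0 := by
    unfold e
    have : ∀ t : ℕ, ((P.coef (P.ω * ζ) (P.Gam ζ (P.A ζ + ‖(0 : ℂ)‖)) t : ℂ) *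
        ((0 / ‖(0 : ℂ)‖) ^ 2 : ℂ) ^ (2 ^ t)) • P.bas (-(t : ZMod P.p)) = 0 := by
      intro t
      rw [zero_div, zero_pow two_ne_zero, zero_pow (by positivity), mul_zero, zero_smul]
    simp_rw [this, tsum_zero]
  rw [this, smul_zero]

theorem W_norm_le (ζ : Circle) (z : ℂ) : ‖P.W ζ z‖ ≤ 14 * P.Λ * ‖z‖ := by
  by_cases hz : z = 0
  · subst hz; rw [W_zero]; simp
  have hz' : 0 < ‖z‖ := norm_pos_iff.mpr hz
  have hA := P.A_nonneg ζ
  have hΛ := P.Λ_ge_64
  by_cases h : 3 / 4 ≤ P.A ζ / (P.A ζ + ‖z‖)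
  · unfold W
    rw [kk_of_ge h]
    simp only [Complex.ofReal_zero, zero_smul, norm_zero]
    positivity
  · rw [not_le, div_lt_iff₀ (by linarith only [hz', hA])] at h
    have h1 := P.cc_W_norm_le_aux ζ hz
    have h2 : P.A ζ + ‖z‖ ≤ 4 * ‖z‖ := by linarith only [h]
    have h3 : 3 * P.Λ * (P.A ζ + ‖z‖) ≤ 3 * P.Λ * (4 * ‖z‖) := by (clear * - h2 hΛ; gcongr)
    nlinarith only [hz', h1, h3, hΛ]

theorem cc_W_of_le {ζ : Circle} {z : ℂ} (hz : z ≠ 0) (h : P.A ζ ≤ ‖z‖) :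
    P.W ζ z = P.e (P.ω * ζ) (P.Gam ζ (P.A ζ + ‖z‖)) ((z / ‖z‖) ^ 2) := by
  have hz' : 0 < ‖z‖ := norm_pos_iff.mpr hz
  have hA := P.A_nonneg ζ
  unfold W
  rw [kk_of_le]
  · simp
  · rw [div_le_iff₀ (by linarith only [hz', hA])]; linarith only [h]

theorem cc_W_cap' (ζ : Circle) (z : ℂ) :
    (∃ b : ℝ, 0 < b ∧ ∃ u : ℂ, ‖u‖ = 1 ∧ P.W ζ z = P.e (P.ω * ζ) b u) ∨
      ‖P.W ζ z‖ ≤ 6 * P.Λ * P.A ζ := by
  have hA := P.A_nonneg ζ
  have hΛ := P.Λ_ge_64
  by_cases hz : z = 0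
  · subst hz; right; rw [W_zero, norm_zero]; positivity
  have hz' : 0 < ‖z‖ := norm_pos_iff.mpr hz
  by_cases h : P.A ζ ≤ ‖z‖
  · left
    exact ⟨_, P.Gam_pos ζ (by linarith only [hA, hz']), _, cc_unit_sq hz, P.cc_W_of_le hz h⟩
  · right
    rw [not_le] at h
    have h1 := P.cc_W_norm_le_aux ζ hz
    have h3 : 3 * P.Λ * (P.A ζ + ‖z‖) ≤ 3 * P.Λ * (P.A ζ + P.A ζ) := by gcongr
    linarith only [h1, h3]

theorem W_cap (ζ : Circle) (z : ℂ) :
    (∃ b : ℝ, 0 < b ∧ ∃ u : ℂ, ‖u‖ = 1 ∧ P.W ζ z = P.e (P.ω * ζ) b u) ∨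
      ‖P.W ζ z‖ ≤ 24 * P.Λ * P.A ζ := by
  have hA := P.A_nonneg ζ
  have hΛ := P.Λ_ge_64
  rcases P.cc_W_cap' ζ z with h | h
  · exact Or.inl h
  · right
    have : 0 ≤ P.Λ * P.A ζ := by positivity
    linarith only [h, this]

/-- norm of `hat v + c u_0`. -/
theorem cc_norm_hat_add (v : P.V) (c : ℂ) : ‖P.hat v + c • P.bas 0‖ ^ 2 ≤ ‖v‖ ^ 2 + ‖c‖ ^ 2 := by
  rw [EuclideanSpace.norm_sq_eq, EuclideanSpace.norm_sq_eq]
  have h1 : ∀ i : ZMod P.p, ‖(P.hat v + c • P.bas 0) i‖ ^ 2 =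
      if i = 0 then ‖c‖ ^ 2 else ‖v i‖ ^ 2 := by
    intro i
    unfold hat bas
    by_cases hi : i = 0
    · subst hi; simp only [PiLp.add_apply, PiLp.sub_apply, PiLp.smul_apply, PiLp.single_eq_same, smul_eq_mul, mul_one, sub_self, zero_add, ↓reduceIte]
    · simp only [PiLp.add_apply, PiLp.sub_apply, PiLp.smul_apply, ne_eq, hi, not_false_eq_true, PiLp.single_eq_of_ne, smul_eq_mul, mul_zero, sub_zero, add_zero, ↓reduceIte]
  have h2 : ∀ i : ZMod P.p, (if i = 0 then ‖c‖ ^ 2 else ‖v i‖ ^ 2) ≤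
      ‖v i‖ ^ 2 + (if i = 0 then ‖c‖ ^ 2 else 0) := by
    intro i
    split_ifs
    · have := sq_nonneg ‖v i‖; linarith only [this]
    · linarith
  calc ∑ i, ‖(P.hat v + c • P.bas 0) i‖ ^ 2
      ≤ ∑ i : ZMod P.p, (‖v i‖ ^ 2 + (if i = 0 then ‖c‖ ^ 2 else 0)) := by
        apply Finset.sum_le_sum
        intro i _
        rw [h1 i]; exact h2 i
    _ = ∑ i, ‖v i‖ ^ 2 + ‖c‖ ^ 2 := by
        rw [Finset.sum_add_distrib]
        simp only [Finset.sum_ite_eq', Finset.mem_univ, ↓reduceIte]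

theorem cc_chi1_nonneg (ζ : Circle) (N : ℝ) : 0 ≤ P.chi1 ζ N := Real.smoothTransition.nonneg _

theorem cc_chi1_le_one (ζ : Circle) (N : ℝ) : P.chi1 ζ N ≤ 1 := Real.smoothTransition.le_one _

theorem cc_chi2_nonneg (ζ : Circle) (N : ℝ) : 0 ≤ P.chi2 ζ N := Real.smoothTransition.nonneg _

theorem cc_chi2_le_one (ζ : Circle) (N : ℝ) : P.chi2 ζ N ≤ 1 := Real.smoothTransition.le_one _

/-- bound for the linear part of `F` -/
theorem cc_lin_norm_le (ζ : Circle) (z : ℂ) (v : P.V) :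
    ‖((P.chi2 ζ (‖z‖ ^ 2 + ‖v‖ ^ 2) * (2 * P.Λ * nu ζ) : ℝ) : ℂ) •
      P.U (P.hat v + ((P.chi1 ζ (‖z‖ ^ 2 + ‖v‖ ^ 2) : ℂ) * z) • P.bas 0)‖
      ≤ 2 * P.Λ * Real.sqrt (‖z‖ ^ 2 + ‖v‖ ^ 2) := by
  have hΛ := P.Λ_ge_64
  rw [norm_smul, Complex.norm_real, Real.norm_eq_abs, LinearIsometryEquiv.norm_map]
  have h1 : ‖P.hat v + ((P.chi1 ζ (‖z‖ ^ 2 + ‖v‖ ^ 2) : ℂ) * z) • P.bas 0‖ ≤
      Real.sqrt (‖z‖ ^ 2 + ‖v‖ ^ 2) := by
    apply Real.le_sqrt_of_sq_le
    refine (P.cc_norm_hat_add v _).trans ?_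
    have h2 : ‖((P.chi1 ζ (‖z‖ ^ 2 + ‖v‖ ^ 2) : ℂ) * z)‖ ≤ ‖z‖ := by
      rw [norm_mul, Complex.norm_real, Real.norm_eq_abs, abs_of_nonneg (P.cc_chi1_nonneg _ _)]
      have := P.cc_chi1_le_one ζ (‖z‖ ^ 2 + ‖v‖ ^ 2)
      have h3 := norm_nonneg z
      nlinarith only [this, h3]
    have h3 : ‖((P.chi1 ζ (‖z‖ ^ 2 + ‖v‖ ^ 2) : ℂ) * z)‖ ^ 2 ≤ ‖z‖ ^ 2 :=
      pow_le_pow_left₀ (norm_nonneg _) h2 2
    linarith
  have h4 : |P.chi2 ζ (‖z‖ ^ 2 + ‖v‖ ^ 2) * (2 * P.Λ * nu ζ)| ≤ 2 * P.Λ := by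
    have h5 := P.cc_chi2_nonneg ζ (‖z‖ ^ 2 + ‖v‖ ^ 2)
    have h6 := P.cc_chi2_le_one ζ (‖z‖ ^ 2 + ‖v‖ ^ 2)
    have h7 := nu_nonneg ζ
    have h8 := nu_le_one ζ
    rw [abs_of_nonneg (by positivity)]
    calc P.chi2 ζ (‖z‖ ^ 2 + ‖v‖ ^ 2) * (2 * P.Λ * nu ζ) ≤ 1 * (2 * P.Λ * 1) := by gcongr
      _ = 2 * P.Λ := by ring
  exact mul_le_mul h4 h1 (norm_nonneg _) (by positivity)

theorem cc_sqrt_add_sq_le {x y : ℝ} (hx : 0 ≤ x) (hy : 0 ≤ y) : Real.sqrt (x ^ 2 + y ^ 2) ≤ x + y := by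
  apply Real.sqrt_le_iff.mpr
  constructor
  · positivity
  · nlinarith only [hx, hy]

theorem F_norm_le (ζ : Circle) (z : ℂ) (v : P.V) :
    ‖P.F ζ z v‖ ≤ 16 * P.Λ * (‖z‖ + ‖v‖) := by
  have h1 := P.cc_lin_norm_le ζ z v
  have h2 := P.W_norm_le ζ z
  have h3 := cc_sqrt_add_sq_le (norm_nonneg z) (norm_nonneg v)
  have hΛ := P.Λ_ge_64
  have hv := norm_nonneg v
  have hz := norm_nonneg z
  unfold F
  refine (norm_add_le _ _).trans ?_
  have h4 : 2 * P.Λ * Real.sqrt (‖z‖ ^ 2 + ‖v‖ ^ 2) ≤ 2 * P.Λ * (‖z‖ + ‖v‖) := by gcongr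
  have h5 : 14 * P.Λ * ‖z‖ ≤ 14 * P.Λ * (‖z‖ + ‖v‖) := by
    gcongr; linarith only [hv]
  linarith

/-- away from the zero section `F = W` -/
theorem F_eq_W (ζ : Circle) (z : ℂ) (v : P.V) (hv : 16 * P.A ζ ^ 2 ≤ ‖z‖ ^ 2 + ‖v‖ ^ 2)
    (h0 : 0 < ‖z‖ ^ 2 + ‖v‖ ^ 2) : P.F ζ z v = P.W ζ z := by
  unfold F
  have : P.chi2 ζ (‖z‖ ^ 2 + ‖v‖ ^ 2) = 0 := by
    unfold chi2 cutB
    apply Real.smoothTransition.zero_of_nonpos
    have hA := sq_nonneg (P.A ζ)
    have h1 : 16 / 17 ≤ (‖z‖ ^ 2 + ‖v‖ ^ 2) / ((‖z‖ ^ 2 + ‖v‖ ^ 2) + P.A ζ ^ 2) := by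
      rw [div_le_div_iff₀ (by norm_num) (by linarith only [h0, hA])]
      linarith
    linarith
  rw [this]
  simp

theorem F_cap (ζ : Circle) (z : ℂ) (v : P.V) :
    (∃ b : ℝ, 0 < b ∧ ∃ u : ℂ, ‖u‖ = 1 ∧ P.F ζ z v = P.e (P.ω * ζ) b u) ∨
      ‖P.F ζ z v‖ ≤ 24 * P.Λ * P.A ζ := by
  have hA := P.A_nonneg ζ
  have hΛ := P.Λ_ge_64
  by_cases h : 16 * P.A ζ ^ 2 ≤ ‖z‖ ^ 2 + ‖v‖ ^ 2 ∧ 0 < ‖z‖ ^ 2 + ‖v‖ ^ 2
  · rw [P.F_eq_W ζ z v h.1 h.2]
    exact P.W_cap ζ z
  · right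
    have h1 : Real.sqrt (‖z‖ ^ 2 + ‖v‖ ^ 2) ≤ 4 * P.A ζ := by
      rw [not_and_or, not_le, not_lt] at h
      apply Real.sqrt_le_iff.mpr
      refine ⟨by positivity, ?_⟩
      have h2 := sq_nonneg (P.A ζ)
      rcases h with h | h
      · linarith
      · linarith
    have hz : ‖z‖ ≤ 4 * P.A ζ := by
      refine le_trans ?_ h1
      apply Real.le_sqrt_of_sq_le
      have := sq_nonneg ‖v‖
      linarith
    have h2 := P.cc_lin_norm_le ζ z v
    have h3 : ‖P.W ζ z‖ ≤ 15 * P.Λ * P.A ζ := by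
      by_cases hz0 : z = 0
      · subst hz0; rw [W_zero, norm_zero]; (clear * - hΛ hA; positivity)
      · refine (P.cc_W_norm_le_aux ζ hz0).trans ?_
        have h5 : 3 * P.Λ * (P.A ζ + ‖z‖) ≤ 3 * P.Λ * (P.A ζ + 4 * P.A ζ) := by gcongr
        linarith only [h5]
    unfold F
    refine (norm_add_le _ _).trans ?_
    have h4 : 2 * P.Λ * Real.sqrt (‖z‖ ^ 2 + ‖v‖ ^ 2) ≤ 2 * P.Λ * (4 * P.A ζ) := by gcongr
    have h5 : 0 ≤ P.Λ * P.A ζ := by positivity
    linarith only [h2, h3, h4, h5]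

theorem cc_hat_smul_bas (c : ℂ) : P.hat (c • P.bas 0) = 0 := by
  unfold hat bas
  simp

theorem cc_smul_bas_apply (c : ℂ) : (c • P.bas 0) 0 = c := by
  unfold bas; simp

/-- `S(r) r`-type bound: `S(x/b) b ≥ b - x` for `0 < b`, `x ≤ b/2`, `0 ≤ x`. -/
theorem cc_S_mul {x b : ℝ} (hb : 0 < b) (h : x ≤ b / 2) : S (x / b) * b = b - x := by
  unfold S
  have h1 : x / b ≤ 1 / 2 := by rw [div_le_iff₀ hb]; linarith only [h]
  rw [Real.smoothTransition.one_of_one_le (by linarith)]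
  field_simp

theorem cc_Λ_ge : 1000 ≤ P.Λ := by
  have h1 := P.Λ_ge
  have h2 := P.nt.h_pos
  have h3 := P.nt.h_le
  have h4 : (16 : ℝ) ≤ 16 / P.h := by
    rw [le_div_iff₀ h2]; linarith only [h3]
  have h5 : 17 ≤ Real.exp (16 / P.h) := by
    have := Real.add_one_le_exp (16 / P.h)
    linarith only [h4, this]
  linarith only [h1, h5]

/-- for `|z| ≥ 1/4` the value has large `0`-th coordinate and no other coordinate -/
theorem W_far (ζ : Circle) {z : ℂ} (hz : 1 / 4 ≤ ‖z‖) :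
    2 ≤ ‖P.W ζ z 0‖ ∧ P.hat (P.W ζ z) = 0 := by
  have hA := P.A_nonneg ζ
  have hA1 := P.A_le_small ζ
  have hA2 := P.A_le_small (P.ω * ζ)
  have hΛ := P.cc_Λ_ge
  have hz' : 0 < ‖z‖ := by linarith only [hz]
  have hz0 : z ≠ 0 := norm_pos_iff.mp hz'
  have ha : 1 / 4 ≤ P.A ζ + ‖z‖ := by linarith only [hz, hA]
  have hG : 3 ≤ P.Gam ζ (P.A ζ + ‖z‖) := by
    unfold Gam
    have h1 := le_mx_right (beta_pos (a := P.A ζ + ‖z‖) (by linarith only [hA, hz'])) (nu_nonneg ζ)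
    have h2 := cc_beta_ge ha
    have h3 : 1 / 8 ≤ mx (nu ζ) (beta (P.A ζ + ‖z‖)) := by linarith only [h1, h2]
    calc (3 : ℝ) ≤ 1000 * (1 / 8) * (1 / 4) := by norm_num
      _ ≤ P.Λ * mx (nu ζ) (beta (P.A ζ + ‖z‖)) * (P.A ζ + ‖z‖) := by (clear * - hΛ h3 ha; gcongr)
  rw [P.cc_W_of_le hz0 (by linarith only [hz, hA1]), P.e_big (by linarith only [hG]) (by linarith only [hA2, hG]) (cc_unit_sq hz0)]
  refine ⟨?_, P.cc_hat_smul_bas _⟩
  rw [P.cc_smul_bas_apply, norm_mul, Complex.norm_real, cc_unit_sq hz0, mul_one,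
    cc_S_mul (by linarith only [hG]) (by linarith only [hA2, hG]), Real.norm_eq_abs, abs_of_nonneg (by linarith only [hA2, hG])]
  linarith only [hA2, hG]

end Par

end Vale.Agent.P103
end
end

section

section

/-!
# P103: growth of the scale along the orbits of the disc family, and smallness before capture
-/

namespace Vale.Agent.P103

open scoped BigOperators Topology

namespace Par

variable (P : Par)

/-- the orbit of `a` under `Γ` along the rotation -/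
noncomputable def aIter (ζ : Circle) (a : ℝ) : ℕ → ℝ
  | 0 => a
  | n + 1 => P.Gam (P.ω ^ n * ζ) (aIter ζ a n)

theorem aIter_zero (ζ : Circle) (a : ℝ) : P.aIter ζ a 0 = a := rfl

theorem aIter_succ (ζ : Circle) (a : ℝ) (n : ℕ) :
    P.aIter ζ a (n + 1) = P.Gam (P.ω ^ n * ζ) (P.aIter ζ a n) := rfl

end Par

namespace GR

variable (P : Par)

theorem nu_nonneg (ζ : Circle) : 0 ≤ nu ζ := by
  unfold nu; positivity

theorem norm_sub_one_le (ζ : Circle) : ‖(ζ : ℂ) - 1‖ ≤ 2 := by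
  calc ‖(ζ : ℂ) - 1‖ ≤ ‖(ζ : ℂ)‖ + ‖(1 : ℂ)‖ := norm_sub_le _ _
    _ = 2 := by rw [Circle.norm_coe, norm_one]; norm_num

theorem nu_le_one (ζ : Circle) : nu ζ ≤ 1 := by
  unfold nu
  have h := norm_sub_one_le ζ
  have h0 := norm_nonneg ((ζ : ℂ) - 1)
  nlinarith only [h, h0]

theorem mx_ge_left {ν b : ℝ} (hb : 0 < b) : ν ≤ mx ν b := by
  unfold mx
  have : 0 ≤ b * Real.smoothTransition (2 - ν / b) :=
    mul_nonneg hb.le (Real.smoothTransition.nonneg _)
  linarith only [this]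

theorem mx_ge_right {ν b : ℝ} (hν : 0 ≤ ν) (hb : 0 < b) : b ≤ mx ν b := by
  rcases le_total b ν with h | h
  · exact h.trans (mx_ge_left hb)
  · unfold mx
    have h1 : ν / b ≤ 1 := (div_le_one hb).2 h
    rw [Real.smoothTransition.one_of_one_le (by linarith only [h1])]
    linarith only [hν]

theorem mx_ge_max {ν b : ℝ} (hν : 0 ≤ ν) (hb : 0 < b) : max ν b ≤ mx ν b :=
  max_le (mx_ge_left hb) (mx_ge_right hν hb)

/-- a set of naturals with gaps at least `g` -/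
theorem gap_card (g : ℝ) : ∀ (c : ℕ) (J : Finset ℕ), J.card = c →
    (∀ i ∈ J, ∀ j ∈ J, i < j → g ≤ (j : ℝ) - i) → ∀ m ∈ J, (∀ j ∈ J, j ≤ m) →
    ((J.card : ℝ) - 1) * g ≤ m := by
  intro c
  induction c with
  | zero =>
    intro J hJ _ m hm
    rw [Finset.card_eq_zero] at hJ
    rw [hJ] at hm
    exact absurd hm (Finset.notMem_empty m)
  | succ c ih =>
    intro J hJ hgap m hm hmax
    rcases (J.erase m).eq_empty_or_nonempty with he | hne
    · have hcard : (J.erase m).card = J.card - 1 := Finset.card_erase_of_mem hm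
      rw [he, Finset.card_empty] at hcard
      have : J.card = 1 := by (clear * - hJ hcard; omega)
      rw [this]
      simp only [Nat.cast_one, sub_self, zero_mul, Nat.cast_nonneg]
    · obtain ⟨m', hm', hmax'⟩ : ∃ m' ∈ J.erase m, ∀ j ∈ J.erase m, j ≤ m' :=
        ⟨(J.erase m).max' hne, (J.erase m).max'_mem hne, fun j hj => (J.erase m).le_max' j hj⟩
      have hcard : (J.erase m).card = J.card - 1 := Finset.card_erase_of_mem hm
      have h1 := ih (J.erase m) (by omega)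
        (fun i hi j hj => hgap i (Finset.mem_of_mem_erase hi) j (Finset.mem_of_mem_erase hj))
        m' hm' hmax'
      have h2 : m' < m :=
        lt_of_le_of_ne (hmax m' (Finset.mem_of_mem_erase hm')) (Finset.ne_of_mem_erase hm')
      have h3 := hgap m' (Finset.mem_of_mem_erase hm') m hm h2
      rw [hcard] at h1
      have h4 : ((J.card - 1 : ℕ) : ℝ) = (J.card : ℝ) - 1 := by
        rw [Nat.cast_sub (by omega), Nat.cast_one]
      rw [h4] at h1
      nlinarith only [h1, h3]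

theorem rot_sub (ω ζ : Circle) {i j : ℕ} (hij : i < j) :
    ‖((ω ^ (j - i) : Circle) : ℂ) - 1‖ =
      ‖((ω ^ j * ζ : Circle) : ℂ) - ((ω ^ i * ζ : Circle) : ℂ)‖ := by
  have h1 : ((ω ^ j * ζ : Circle) : ℂ) = ((ω ^ (j - i) : Circle) : ℂ) * ((ω ^ i * ζ : Circle) : ℂ) := by
    rw [← Circle.coe_mul, ← mul_assoc, ← pow_add, Nat.sub_add_cancel hij.le]
  rw [h1]
  have h2 : ((ω ^ (j - i) : Circle) : ℂ) * ((ω ^ i * ζ : Circle) : ℂ) - ((ω ^ i * ζ : Circle) : ℂ) =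
      (((ω ^ (j - i) : Circle) : ℂ) - 1) * ((ω ^ i * ζ : Circle) : ℂ) := by ring
  rw [h2, norm_mul, Circle.norm_coe, mul_one]

/-- number of visits to `ν < 4^{-i}` -/
theorem visits {p : ℕ} {ω : Circle} {H h : ℝ} (nt : NT p ω H h) (ζ : Circle) (n i : ℕ) :
    (((Finset.range n).filter (fun j => nu (ω ^ j * ζ) < (1 / 4 : ℝ) ^ i)).card : ℝ) ≤
      1 + 4 / (h * 2 ^ i) * n := by
  have hh := nt.h_pos
  set J := (Finset.range n).filter (fun j => nu (ω ^ j * ζ) < (1 / 4 : ℝ) ^ i) with hJ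
  have hpos : (0 : ℝ) ≤ 4 / (h * 2 ^ i) * n := by positivity
  rcases J.eq_empty_or_nonempty with he | hne
  · rw [he, Finset.card_empty]; push_cast; linarith only [hpos]
  obtain ⟨m, hm, hmax⟩ : ∃ m ∈ J, ∀ j ∈ J, j ≤ m :=
    ⟨J.max' hne, J.max'_mem hne, fun j hj => J.le_max' j hj⟩
  have hclose : ∀ j ∈ J, ‖((ω ^ j * ζ : Circle) : ℂ) - 1‖ ≤ 2 * (1 / 2 : ℝ) ^ i := by
    intro j hj
    have h1 := (Finset.mem_filter.1 hj).2
    unfold nu at h1
    have h2 : ‖((ω ^ j * ζ : Circle) : ℂ) - 1‖ ^ 2 ≤ (2 * (1 / 2 : ℝ) ^ i) ^ 2 := by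
      have h3 : (2 * (1 / 2 : ℝ) ^ i) ^ 2 = 4 * (1 / 4 : ℝ) ^ i := by
        rw [mul_pow, ← pow_mul, mul_comm i 2, pow_mul]; norm_num
      rw [h3]; linarith only [h1]
    exact le_of_sq_le_sq h2 (by positivity)
  have hgap : ∀ a ∈ J, ∀ b ∈ J, a < b → h * 2 ^ i / 4 ≤ (b : ℝ) - a := by
    intro a ha b hb hab
    have h1 := nt.low (b - a) (by omega)
    rw [rot_sub ω ζ hab] at h1
    have h2 : ‖((ω ^ b * ζ : Circle) : ℂ) - ((ω ^ a * ζ : Circle) : ℂ)‖ ≤ 4 * (1 / 2 : ℝ) ^ i := by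
      calc ‖((ω ^ b * ζ : Circle) : ℂ) - ((ω ^ a * ζ : Circle) : ℂ)‖
          = ‖(((ω ^ b * ζ : Circle) : ℂ) - 1) - (((ω ^ a * ζ : Circle) : ℂ) - 1)‖ := by
            congr 1; ring
        _ ≤ ‖((ω ^ b * ζ : Circle) : ℂ) - 1‖ + ‖((ω ^ a * ζ : Circle) : ℂ) - 1‖ := norm_sub_le _ _
        _ ≤ 2 * (1 / 2 : ℝ) ^ i + 2 * (1 / 2 : ℝ) ^ i := add_le_add (hclose b hb) (hclose a ha)
        _ = 4 * (1 / 2 : ℝ) ^ i := by ring
    have h3 : ((b - a : ℕ) : ℝ) = (b : ℝ) - a := by rw [Nat.cast_sub hab.le]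
    rw [h3] at h1
    have h4 : (0 : ℝ) ≤ (b : ℝ) - a := by rw [← h3]; (clear * -; positivity)
    have h5 : h ≤ ((b : ℝ) - a) * (4 * (1 / 2 : ℝ) ^ i) :=
      h1.trans (mul_le_mul_of_nonneg_left h2 h4)
    have h6 : (1 / 2 : ℝ) ^ i * 2 ^ i = 1 := by rw [← mul_pow]; norm_num
    have h7 : (0 : ℝ) < 2 ^ i := by positivity
    calc h * 2 ^ i / 4 ≤ (((b : ℝ) - a) * (4 * (1 / 2 : ℝ) ^ i)) * 2 ^ i / 4 := by
          apply div_le_div_of_nonneg_right _ (by norm_num)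
          exact mul_le_mul_of_nonneg_right h5 h7.le
      _ = ((b : ℝ) - a) * ((1 / 2 : ℝ) ^ i * 2 ^ i) := by ring
      _ = (b : ℝ) - a := by rw [h6, mul_one]
  have h1 := gap_card (h * 2 ^ i / 4) J.card J rfl hgap m hm hmax
  have h2 : (m : ℝ) ≤ n := by
    have := Finset.mem_range.1 (Finset.mem_filter.1 hm).1
    exact_mod_cast this.le
  have h3 : 0 < h * 2 ^ i / 4 := by positivity
  have h4 : (J.card : ℝ) - 1 ≤ n / (h * 2 ^ i / 4) := by
    rw [le_div_iff₀ h3]; linarith only [h1, h2]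
  have h5 : (n : ℝ) / (h * 2 ^ i / 4) = 4 / (h * 2 ^ i) * n := by
    (clear * - hh; field_simp)
  linarith only [h4, h5]

/-- product bound for the truncations at `4^{-I}` -/
theorem prod_dyadic {p : ℕ} {ω : Circle} {H h : ℝ} (nt : NT p ω H h) (ζ : Circle) (n I : ℕ) :
    Real.exp (-(Real.log 4 * (I + (∑ i ∈ Finset.range I, (4 / (h * 2 ^ i) : ℝ)) * n))) ≤
      ∏ j ∈ Finset.range n, max (nu (ω ^ j * ζ)) ((1 / 4 : ℝ) ^ I) := by
  induction I with
  | zero =>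
    simp only [Nat.cast_zero, Finset.range_zero, Finset.sum_empty, zero_mul, add_zero, mul_zero,
      neg_zero, Real.exp_zero, pow_zero]
    apply le_of_eq
    symm
    apply Finset.prod_eq_one
    intro j _
    exact max_eq_right (nu_le_one _)
  | succ I ih =>
    have hstep : ∀ x : ℝ, 0 ≤ x → max x ((1 / 4 : ℝ) ^ I) *
        (if x < (1 / 4 : ℝ) ^ I then (1 / 4 : ℝ) else 1) ≤ max x ((1 / 4 : ℝ) ^ (I + 1)) := by
      intro x _
      split_ifs with hx
      · rw [max_eq_right hx.le, ← pow_succ]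
        exact le_max_right _ _
      · rw [mul_one, max_eq_left (not_lt.1 hx)]
        exact le_max_left _ _
    have hprod : (∏ j ∈ Finset.range n, max (nu (ω ^ j * ζ)) ((1 / 4 : ℝ) ^ I)) *
        ∏ j ∈ Finset.range n, (if nu (ω ^ j * ζ) < (1 / 4 : ℝ) ^ I then (1 / 4 : ℝ) else 1) ≤
        ∏ j ∈ Finset.range n, max (nu (ω ^ j * ζ)) ((1 / 4 : ℝ) ^ (I + 1)) := by
      rw [← Finset.prod_mul_distrib]
      apply Finset.prod_le_prod
      · intro j _
        apply mul_nonneg (le_trans (nu_nonneg _) (le_max_left _ _))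
        split_ifs <;> norm_num
      · intro j _
        exact hstep _ (nu_nonneg _)
    refine le_trans ?_ hprod
    have hval : ∏ j ∈ Finset.range n,
        (if nu (ω ^ j * ζ) < (1 / 4 : ℝ) ^ I then (1 / 4 : ℝ) else 1) =
        (1 / 4 : ℝ) ^ ((Finset.range n).filter
          (fun j => nu (ω ^ j * ζ) < (1 / 4 : ℝ) ^ I)).card := by
      rw [Finset.prod_ite, Finset.prod_const_one, mul_one, Finset.prod_const]
    rw [hval]
    have hv := visits nt ζ n I
    set N := ((Finset.range n).filter (fun j => nu (ω ^ j * ζ) < (1 / 4 : ℝ) ^ I)).card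
    have h4 : (1 / 4 : ℝ) ^ N = Real.exp (-(Real.log 4 * N)) := by
      rw [← Real.exp_log (show (0 : ℝ) < (1 / 4 : ℝ) ^ N by positivity), Real.log_pow]
      congr 1
      rw [one_div, Real.log_inv]; ring
    have hlog : 0 < Real.log 4 := Real.log_pos (by norm_num)
    calc Real.exp (-(Real.log 4 * (((I + 1 : ℕ) : ℝ) +
          (∑ i ∈ Finset.range (I + 1), (4 / (h * 2 ^ i) : ℝ)) * n)))
        ≤ Real.exp (-(Real.log 4 * (I + (∑ i ∈ Finset.range I, (4 / (h * 2 ^ i) : ℝ)) * n)) +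
          -(Real.log 4 * N)) := by
          apply Real.exp_le_exp.2
          rw [Finset.sum_range_succ]
          push_cast
          nlinarith only [hv, hlog]
      _ = Real.exp (-(Real.log 4 * (I + (∑ i ∈ Finset.range I, (4 / (h * 2 ^ i) : ℝ)) * n))) *
          (1 / 4 : ℝ) ^ N := by rw [Real.exp_add, h4]
      _ ≤ _ := mul_le_mul_of_nonneg_right ih (by positivity)

theorem sum_geo (h : ℝ) (hh : 0 < h) (I : ℕ) :
    ∑ i ∈ Finset.range I, (4 / (h * 2 ^ i) : ℝ) ≤ 8 / h := by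
  have h1 : ∀ I : ℕ, ∑ i ∈ Finset.range I, (4 / (h * 2 ^ i) : ℝ) = 8 / h - 8 / (h * 2 ^ I) := by
    intro I
    induction I with
    | zero => simp
    | succ I ih =>
      rw [Finset.sum_range_succ, ih, pow_succ]
      field_simp
      ring
  rw [h1]
  have : 0 ≤ 8 / (h * 2 ^ I) := by positivity
  linarith only [this]

/-- product bound -/
theorem prod_bound {p : ℕ} {ω : Circle} {H h : ℝ} (nt : NT p ω H h) (ζ : Circle) (n : ℕ)
    {b : ℝ} (hb : 0 < b) (hb1 : b ≤ 1) :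
    b / 4 * Real.exp (-(16 / h * n)) ≤ ∏ j ∈ Finset.range n, max (nu (ω ^ j * ζ)) b := by
  have hh := nt.h_pos
  have hlog : 0 < Real.log 4 := Real.log_pos (by norm_num)
  have hlog2 : Real.log 4 ≤ 2 := by
    have h1 : Real.log 4 = 2 * Real.log 2 := by
      rw [show (4 : ℝ) = 2 ^ 2 by norm_num, Real.log_pow]; norm_num
    rw [h1]
    have := Real.log_two_lt_d9
    linarith only [this]
  -- the least `I` with `4^{-I} ≤ b`
  have hex : ∃ I : ℕ, (1 / 4 : ℝ) ^ I ≤ b := by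
    obtain ⟨I, hI⟩ := exists_pow_lt_of_lt_one hb (show (1 / 4 : ℝ) < 1 by norm_num)
    exact ⟨I, hI.le⟩
  classical
  obtain ⟨I, hI, hmin⟩ : ∃ I : ℕ, (1 / 4 : ℝ) ^ I ≤ b ∧ b / 4 ≤ (1 / 4 : ℝ) ^ I := by
    refine ⟨Nat.find hex, Nat.find_spec hex, ?_⟩
    rcases Nat.eq_zero_or_pos (Nat.find hex) with h0 | h0
    · rw [h0, pow_zero]; linarith only [hb1]
    · have h1 := Nat.find_min hex (show Nat.find hex - 1 < Nat.find hex by omega)
      push Not at h1
      have h2 : (1 / 4 : ℝ) ^ (Nat.find hex) = (1 / 4 : ℝ) ^ (Nat.find hex - 1) * (1 / 4) := by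
        rw [← pow_succ]; congr 1; omega
      rw [h2]; linarith only [h1]
  have h1 := prod_dyadic nt ζ n I
  have h2 : ∏ j ∈ Finset.range n, max (nu (ω ^ j * ζ)) ((1 / 4 : ℝ) ^ I) ≤
      ∏ j ∈ Finset.range n, max (nu (ω ^ j * ζ)) b := by
    apply Finset.prod_le_prod
    · intro j _; exact le_trans (nu_nonneg _) (le_max_left _ _)
    · intro j _; exact max_le_max le_rfl hI
  refine le_trans ?_ (h1.trans h2)
  have h3 : (1 / 4 : ℝ) ^ I = Real.exp (-(Real.log 4 * I)) := by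
    rw [← Real.exp_log (show (0 : ℝ) < (1 / 4 : ℝ) ^ I by positivity), Real.log_pow]
    congr 1
    rw [one_div, Real.log_inv]; ring
  have h4 := sum_geo h hh I
  have hn : (0 : ℝ) ≤ n := Nat.cast_nonneg n
  calc b / 4 * Real.exp (-(16 / h * n))
      ≤ (1 / 4 : ℝ) ^ I * Real.exp (-(16 / h * n)) :=
        mul_le_mul_of_nonneg_right hmin (Real.exp_pos _).le
    _ = Real.exp (-(Real.log 4 * I) + -(16 / h * n)) := by rw [h3, ← Real.exp_add]
    _ ≤ Real.exp (-(Real.log 4 * (I + (∑ i ∈ Finset.range I, (4 / (h * 2 ^ i) : ℝ)) * n))) := by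
        apply Real.exp_le_exp.2
        have h5 : Real.log 4 * ((∑ i ∈ Finset.range I, (4 / (h * 2 ^ i) : ℝ)) * n) ≤
            16 / h * n := by
          have h6 : (∑ i ∈ Finset.range I, (4 / (h * 2 ^ i) : ℝ)) * n ≤ 8 / h * n :=
            mul_le_mul_of_nonneg_right h4 hn
          have h7 : 0 ≤ 8 / h * (n : ℝ) := by (clear * - hh; positivity)
          calc Real.log 4 * ((∑ i ∈ Finset.range I, (4 / (h * 2 ^ i) : ℝ)) * n)
              ≤ Real.log 4 * (8 / h * n) := mul_le_mul_of_nonneg_left h6 hlog.le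
            _ ≤ 2 * (8 / h * n) := mul_le_mul_of_nonneg_right hlog2 h7
            _ = 16 / h * n := by ring
        nlinarith only [h5]

theorem Λ_ge_64 : 64 ≤ P.Λ := by
  have h1 := P.Λ_ge
  have h2 : (1 : ℝ) ≤ Real.exp (16 / P.h) := Real.one_le_exp (by
    have := P.nt.h_pos
    positivity)
  linarith only [h1, h2]

theorem K_ge_40 : 40 ≤ P.K := by
  have h1 := P.K_ge
  have h2 := Λ_ge_64 P
  have h3 : 4 ≤ Real.log P.Λ := by
    have h4 : Real.log 64 ≤ Real.log P.Λ := Real.log_le_log (by norm_num) h2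
    have h5 : Real.log 64 = 6 * Real.log 2 := by
      rw [show (64 : ℝ) = 2 ^ 6 by norm_num, Real.log_pow]; norm_num
    have := Real.log_two_gt_d9
    linarith only [h4, h5, this]
  have h6 := P.nt.one_le
  nlinarith only [h1, h3, h6]

theorem log_nonneg' {a : ℝ} (ha : 0 < a) : 0 ≤ Real.log (1 + 1 / a) :=
  Real.log_nonneg (by
    have : 0 < 1 / a := by positivity
    linarith only [this])

theorem beta_pos {a : ℝ} (ha : 0 < a) : 0 < beta a := by
  unfold beta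
  have h1 := log_nonneg' ha
  positivity

theorem beta_le_half {a : ℝ} (ha : 0 < a) : beta a ≤ 1 / 2 := by
  unfold beta
  have h1 := log_nonneg' ha
  apply one_div_le_one_div_of_le (by norm_num)
  linarith only [h1]

theorem beta_mono {a b : ℝ} (ha : 0 < a) (hab : a ≤ b) : beta a ≤ beta b := by
  unfold beta
  have hb : 0 < b := lt_of_lt_of_le ha hab
  have h1 := log_nonneg' hb
  have h2 : Real.log (1 + 1 / b) ≤ Real.log (1 + 1 / a) := by
    apply Real.log_le_log (by positivity)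
    have : 1 / b ≤ 1 / a := one_div_le_one_div_of_le ha hab
    linarith only [this]
  apply one_div_le_one_div_of_le (by positivity)
  linarith only [h2]

theorem Gam_pos (ζ : Circle) {a : ℝ} (ha : 0 < a) : 0 < P.Gam ζ a := by
  unfold Par.Gam
  have h1 := Λ_ge_64 P
  have h2 := beta_pos ha
  have h3 : 0 < mx (nu ζ) (beta a) := lt_of_lt_of_le h2 (mx_ge_right (nu_nonneg ζ) h2)
  positivity

theorem it_pos (ζ : Circle) {a : ℝ} (ha : 0 < a) (n : ℕ) : 0 < P.aIter ζ a n := by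
  induction n with
  | zero => exact ha
  | succ n ih => rw [P.aIter_succ]; exact Gam_pos P _ ih

/-- growth along the orbit as long as the scale stays above `m` -/
theorem it_ge_prod (ζ : Circle) {a m : ℝ} (ha : 0 < a) (hm : 0 < m) (n : ℕ)
    (h : ∀ j < n, m ≤ P.aIter ζ a j) :
    a * (P.Λ ^ n * ∏ j ∈ Finset.range n, max (nu (P.ω ^ j * ζ)) (beta m)) ≤ P.aIter ζ a n := by
  have hΛ := Λ_ge_64 P
  induction n with
  | zero => simp only [pow_zero, Finset.range_zero, Finset.prod_empty, mul_one, P.aIter_zero, Std.le_refl]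
  | succ n ih =>
    have h1 := ih (fun j hj => h j (by omega))
    have h2 := h n (by omega)
    have hpos := it_pos P ζ ha n
    rw [P.aIter_succ, Finset.prod_range_succ, pow_succ]
    unfold Par.Gam
    have h3 : max (nu (P.ω ^ n * ζ)) (beta m) ≤
        mx (nu (P.ω ^ n * ζ)) (beta (P.aIter ζ a n)) :=
      le_trans (max_le_max le_rfl (beta_mono hm h2)) (mx_ge_max (nu_nonneg _) (beta_pos hpos))
    have h4 : 0 ≤ max (nu (P.ω ^ n * ζ)) (beta m) := le_trans (nu_nonneg _) (le_max_left _ _)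
    have h5 : 0 ≤ ∏ j ∈ Finset.range n, max (nu (P.ω ^ j * ζ)) (beta m) :=
      Finset.prod_nonneg fun j _ => le_trans (nu_nonneg _) (le_max_left _ _)
    obtain ⟨Q, hQ⟩ : ∃ Q, Q = ∏ j ∈ Finset.range n, max (nu (P.ω ^ j * ζ)) (beta m) := ⟨_, rfl⟩
    obtain ⟨M, hM⟩ : ∃ M, M = max (nu (P.ω ^ n * ζ)) (beta m) := ⟨_, rfl⟩
    obtain ⟨X, hX⟩ : ∃ X, X = mx (nu (P.ω ^ n * ζ)) (beta (P.aIter ζ a n)) := ⟨_, rfl⟩
    obtain ⟨Y, hY⟩ : ∃ Y, Y = P.aIter ζ a n := ⟨_, rfl⟩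
    rw [← hQ, ← hY] at h1
    rw [← hY] at hpos
    rw [← hM, ← hX] at h3
    rw [← hM] at h4
    rw [← hQ] at h5
    rw [← hQ, ← hM, ← hX, ← hY]
    have hΛ0 : (0 : ℝ) ≤ P.Λ := by linarith only [hΛ]
    have e1 : a * (P.Λ ^ n * P.Λ * (Q * M)) = (P.Λ * M) * (a * (P.Λ ^ n * Q)) := by ring
    rw [e1]
    have e2 : P.Λ * M ≤ P.Λ * X := mul_le_mul_of_nonneg_left h3 hΛ0
    have e3 : 0 ≤ P.Λ * X := mul_nonneg hΛ0 (h4.trans h3)
    have e4 : 0 ≤ a * (P.Λ ^ n * Q) := mul_nonneg ha.le (mul_nonneg (pow_nonneg hΛ0 n) h5)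
    exact mul_le_mul e2 h1 e4 e3

theorem it_ge_pow (ζ : Circle) {a m : ℝ} (ha : 0 < a) (hm : 0 < m) (n : ℕ)
    (h : ∀ j < n, m ≤ P.aIter ζ a j) :
    a * 2 ^ n * (beta m / 4) ≤ P.aIter ζ a n := by
  refine le_trans ?_ (it_ge_prod P ζ ha hm n h)
  have hb := beta_pos hm
  have h1 := prod_bound P.nt ζ n hb ((beta_le_half hm).trans (by norm_num))
  have h2 : (2 : ℝ) ^ n ≤ P.Λ ^ n * Real.exp (-(16 / P.h * n)) := by
    have h3 : P.Λ ^ n * Real.exp (-(16 / P.h * n)) =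
        (P.Λ * Real.exp (-(16 / P.h))) ^ n := by
      rw [mul_pow, ← Real.exp_nat_mul]
      congr 2; ring
    rw [h3]
    have h4 := P.Λ_ge
    have h5 : Real.exp (16 / P.h) * Real.exp (-(16 / P.h)) = 1 := by
      rw [← Real.exp_add, add_neg_cancel, Real.exp_zero]
    have h6 : (64 * Real.exp (16 / P.h)) * Real.exp (-(16 / P.h)) ≤
        P.Λ * Real.exp (-(16 / P.h)) := mul_le_mul_of_nonneg_right h4 (Real.exp_pos _).le
    have h7 : (2 : ℝ) ≤ P.Λ * Real.exp (-(16 / P.h)) := by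
      rw [mul_assoc, h5] at h6
      linarith only [h6]
    exact pow_le_pow_left₀ (by norm_num) h7 n
  have hΛ : (0 : ℝ) ≤ P.Λ ^ n := pow_nonneg (by linarith only [Λ_ge_64 P]) n
  calc a * 2 ^ n * (beta m / 4)
      ≤ a * (P.Λ ^ n * Real.exp (-(16 / P.h * n))) * (beta m / 4) := by
        apply mul_le_mul_of_nonneg_right _ (by positivity)
        exact mul_le_mul_of_nonneg_left h2 ha.le
    _ = a * (P.Λ ^ n * (beta m / 4 * Real.exp (-(16 / P.h * n)))) := by ring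
    _ ≤ _ := by
        apply mul_le_mul_of_nonneg_left _ ha.le
        exact mul_le_mul_of_nonneg_left h1 hΛ

theorem log_one_add_le {x : ℝ} (hx : 0 ≤ x) : Real.log (1 + x ^ 2) ≤ 2 * x := by
  have h1 : Real.log (1 + x ^ 2) ≤ Real.log ((1 + x) ^ 2) := by
    apply Real.log_le_log (by positivity)
    linarith
  rw [Real.log_pow] at h1
  have h2 : Real.log (1 + x) ≤ x := by
    have := Real.log_le_sub_one_of_pos (show 0 < 1 + x by linarith only [hx])
    linarith only [this]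
  push_cast at h1
  linarith only [h1, h2]

theorem boot {a : ℝ} (ha : 0 < a) (ha1 : a ≤ 1) :
    a ^ 2 / 1024 ≤ a * (beta (a ^ 2 / 1024) / 4) := by
  have h1 : Real.log (1 + 1 / (a ^ 2 / 1024)) ≤ 64 / a := by
    have h2 : 1 / (a ^ 2 / 1024) = (32 / a) ^ 2 := by field_simp; norm_num
    rw [h2]
    refine (log_one_add_le (by positivity)).trans (le_of_eq ?_)
    ring
  have h0 := log_nonneg' (show 0 < a ^ 2 / 1024 by positivity)
  have h3 : a / 256 ≤ beta (a ^ 2 / 1024) := by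
    unfold beta
    rw [le_div_iff₀ (by positivity)]
    calc a / 256 * (2 * (1 + Real.log (1 + 1 / (a ^ 2 / 1024))))
        ≤ a / 256 * (2 * (1 + 64 / a)) := by
          apply mul_le_mul_of_nonneg_left _ (by positivity)
          linarith only [h1]
      _ = a / 128 + 1 / 2 := by field_simp; ring
      _ ≤ 1 := by linarith only [ha1]
  calc a ^ 2 / 1024 = a * (a / 256 / 4) := by ring
    _ ≤ a * (beta (a ^ 2 / 1024) / 4) := by
        apply mul_le_mul_of_nonneg_left _ ha.le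
        linarith only [h3]

/-- the scale never drops below `a²/1024` -/
theorem it_ge_sq (ζ : Circle) {a : ℝ} (ha : 0 < a) (ha1 : a ≤ 1) (n : ℕ) :
    a ^ 2 / 1024 ≤ P.aIter ζ a n := by
  induction n using Nat.strong_induction_on with
  | _ n ih =>
    have hm : 0 < a ^ 2 / 1024 := by positivity
    refine (boot ha ha1).trans (le_trans ?_ (it_ge_pow P ζ ha hm n (fun j hj => ih j hj)))
    have h1 : (1 : ℝ) ≤ 2 ^ n := one_le_pow₀ (by norm_num)
    have h2 := beta_pos hm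
    nlinarith only [h1, mul_nonneg ha.le (show (0 : ℝ) ≤ beta (a ^ 2 / 1024) / 4 by positivity)]

theorem it_ge (ζ : Circle) {a : ℝ} (ha : 0 < a) (ha1 : a ≤ 1) (n : ℕ) :
    a * 2 ^ n * (beta (a ^ 2 / 1024) / 4) ≤ P.aIter ζ a n :=
  it_ge_pow P ζ ha (by positivity) n (fun j _ => it_ge_sq P ζ ha ha1 j)

end GR

namespace Par

variable (P : Par)

/-- escape time: from scale at least `η` the scale reaches `1` in uniformly bounded time. -/
theorem escape {η : ℝ} (hη : 0 < η) : ∃ T : ℕ, ∀ (ζ : Circle) (a : ℝ), η ≤ a →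
    ∃ j ≤ T, 1 ≤ P.aIter ζ a j := by
  obtain ⟨η', h0, hη1, hη2⟩ : ∃ η' : ℝ, 0 < η' ∧ η' ≤ η ∧ η' ≤ 1 :=
    ⟨min η 1, lt_min hη one_pos, min_le_left _ _, min_le_right _ _⟩
  have hb := GR.beta_pos (show 0 < η' ^ 2 / 1024 by (clear * - h0; positivity))
  obtain ⟨T, hT⟩ := pow_unbounded_of_one_lt (4 / (η' * beta (η' ^ 2 / 1024)))
    (show (1 : ℝ) < 2 by norm_num)
  refine ⟨T, fun ζ a ha => ?_⟩
  rcases le_or_gt 1 a with h1 | h1
  · exact ⟨0, Nat.zero_le _, h1⟩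
  · refine ⟨T, le_rfl, ?_⟩
    have ha' : η' ≤ a := hη1.trans ha
    have ha0 : 0 < a := lt_of_lt_of_le h0 ha'
    refine le_trans ?_ (GR.it_ge P ζ ha0 h1.le T)
    have h2 : beta (η' ^ 2 / 1024) ≤ beta (a ^ 2 / 1024) := by
      apply GR.beta_mono (by positivity)
      have : η' ^ 2 ≤ a ^ 2 := pow_le_pow_left₀ h0.le ha' 2
      linarith only [this]
    rw [div_lt_iff₀ (by positivity)] at hT
    have h3 : η' * beta (η' ^ 2 / 1024) ≤ a * beta (a ^ 2 / 1024) :=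
      mul_le_mul ha' h2 hb.le ha0.le
    have h4 : (0 : ℝ) < 2 ^ T := by positivity
    have h5 : 2 ^ T * (η' * beta (η' ^ 2 / 1024)) ≤ 2 ^ T * (a * beta (a ^ 2 / 1024)) :=
      mul_le_mul_of_nonneg_left h3 h4.le
    have h6 : a * 2 ^ T * (beta (a ^ 2 / 1024) / 4) =
        2 ^ T * (a * beta (a ^ 2 / 1024)) / 4 := by ring
    rw [h6]
    linarith only [hT, h5]

/-- before capture the orbit gets small after a bounded time -/
theorem small_before_capture (C : ℝ) {η : ℝ} (hη : 0 < η) :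
    ∃ T : ℕ, ∀ (ζ : Circle) (y : ℕ → ℝ) (n : ℕ), (∀ j, 0 ≤ y j) →
    (∀ j < n, y (j + 1) ≤ C * P.A (P.ω ^ j * ζ)) →
    (∀ j, 1 ≤ j → j < n → y (j + 1) ≤ C * y j) →
    T ≤ n → y n < η := by
  have hK := GR.K_ge_40 P
  have hH := P.nt.one_le
  obtain ⟨D, hDC, hD1⟩ : ∃ D : ℝ, C ≤ D ∧ 1 ≤ D := ⟨max C 1, le_max_left _ _, le_max_right _ _⟩
  have hD0 : 0 < D := by linarith only [hD1]
  have hlogD : 0 ≤ Real.log D := Real.log_nonneg hD1
  -- choice of the threshold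
  obtain ⟨s, hs1, hs⟩ : ∃ s : ℝ, 1 ≤ s ∧
      ((P.H / 2 + 1) * Real.log D + |Real.log η| + 1) / P.K ≤ s :=
    ⟨max 1 _, le_max_left _ _, le_max_right _ _⟩
  have hs0 : 0 < s := by linarith only [hs1]
  rw [div_le_iff₀ (by linarith only [hK])] at hs
  have hkey : (P.H * s / 2 + 1) * Real.log D + |Real.log η| + 1 ≤ P.K * s ^ 2 := by
    have h1 : (P.H * s / 2 + 1) * Real.log D + |Real.log η| + 1 ≤
        s * ((P.H / 2 + 1) * Real.log D + |Real.log η| + 1) := by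
      have h2 : 0 ≤ (s - 1) * (Real.log D + |Real.log η| + 1) :=
        mul_nonneg (by linarith only [hs1]) (by (clear * - hlogD; positivity))
      nlinarith only [h2]
    have h2 : s * ((P.H / 2 + 1) * Real.log D + |Real.log η| + 1) ≤ s * (s * P.K) :=
      mul_le_mul_of_nonneg_left hs hs0.le
    linarith
  obtain ⟨L, hL⟩ : ∃ L : ℕ, L = ⌊P.H * s / 2⌋₊ := ⟨_, rfl⟩
  have hLle : (L : ℝ) ≤ P.H * s / 2 := by
    rw [hL]; exact Nat.floor_le (by positivity)
  refine ⟨L + 1, ?_⟩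
  intro ζ y n hy h1 h2 hn
  -- a visit close to `1`
  obtain ⟨m, hm⟩ : ∃ m, m = n - 1 - L := ⟨_, rfl⟩
  obtain ⟨t, ht1, ht2, ht3⟩ := P.nt.visit (P.ω ^ m * ζ) (2 / s) (by positivity) (by
    rw [div_le_iff₀ hs0]; linarith only [hs1])
  have ht4 : t ≤ L := by
    rw [hL]
    apply Nat.le_floor
    rw [mul_div_assoc', div_le_iff₀ hs0] at ht2
    linarith only [ht2]
  have hidx : P.ω ^ t * (P.ω ^ m * ζ) = P.ω ^ (m + t) * ζ := by
    rw [← mul_assoc, ← pow_add, add_comm]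
  rw [hidx] at ht3
  have hi : m + t < n := by omega
  have hnu : nu (P.ω ^ (m + t) * ζ) ≤ 1 / s ^ 2 := by
    unfold nu
    have h3 : ‖((P.ω ^ (m + t) * ζ : Circle) : ℂ) - 1‖ ^ 2 ≤ (2 / s) ^ 2 :=
      pow_le_pow_left₀ (norm_nonneg _) ht3 2
    have h4 : (2 / s) ^ 2 = 4 * (1 / s ^ 2) := by field_simp; norm_num
    rw [h4] at h3
    linarith only [h3]
  have hA : P.A (P.ω ^ (m + t) * ζ) ≤ Real.exp (-(P.K * s ^ 2)) := by
    unfold A
    rcases le_or_gt (nu (P.ω ^ (m + t) * ζ) / P.K) 0 with h3 | h3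
    · rw [expNegInvGlue.zero_of_nonpos h3]
      exact (Real.exp_pos _).le
    · unfold expNegInvGlue
      rw [if_neg (not_le.2 h3)]
      apply Real.exp_le_exp.2
      have h4 : nu (P.ω ^ (m + t) * ζ) / P.K ≤ (P.K * s ^ 2)⁻¹ := by
        rw [div_le_iff₀ (by linarith only [hK])]
        refine hnu.trans (le_of_eq ?_)
        have : P.K ≠ 0 := by linarith only [hK]
        field_simp
      have h5 : P.K * s ^ 2 ≤ (nu (P.ω ^ (m + t) * ζ) / P.K)⁻¹ := by
        rw [le_inv_comm₀ (by positivity) h3]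
        exact h4
      linarith only [h5]
  have hA0 : 0 ≤ P.A (P.ω ^ (m + t) * ζ) := expNegInvGlue.nonneg _
  have h3 : y (m + t + 1) ≤ D * Real.exp (-(P.K * s ^ 2)) := by
    calc y (m + t + 1) ≤ C * P.A (P.ω ^ (m + t) * ζ) := h1 _ hi
      _ ≤ D * P.A (P.ω ^ (m + t) * ζ) := mul_le_mul_of_nonneg_right hDC hA0
      _ ≤ _ := mul_le_mul_of_nonneg_left hA hD0.le
  have h4 : ∀ k, m + t + 1 + k ≤ n → y (m + t + 1 + k) ≤ D ^ k * y (m + t + 1) := by
    intro k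
    induction k with
    | zero => intro _; simp
    | succ k ih =>
      intro hk
      have h5 := ih (by omega)
      have h6 := h2 (m + t + 1 + k) (by omega) (by omega)
      calc y (m + t + 1 + (k + 1)) ≤ C * y (m + t + 1 + k) := h6
        _ ≤ D * y (m + t + 1 + k) := mul_le_mul_of_nonneg_right hDC (hy _)
        _ ≤ D * (D ^ k * y (m + t + 1)) := mul_le_mul_of_nonneg_left h5 hD0.le
        _ = D ^ (k + 1) * y (m + t + 1) := by ring
  obtain ⟨k, hk⟩ : ∃ k, m + t + 1 + k = n := ⟨n - (m + t + 1), by omega⟩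
  have h5 := h4 k hk.le
  rw [hk] at h5
  have hkL : k ≤ L := by omega
  have h6 : D ^ k ≤ D ^ L := pow_le_pow_right₀ hD1 hkL
  have h7 : y n ≤ D ^ L * (D * Real.exp (-(P.K * s ^ 2))) :=
    calc y n ≤ D ^ k * y (m + t + 1) := h5
      _ ≤ D ^ L * y (m + t + 1) := mul_le_mul_of_nonneg_right h6 (hy _)
      _ ≤ _ := mul_le_mul_of_nonneg_left h3 (by positivity)
  have h8 : D ^ L * (D * Real.exp (-(P.K * s ^ 2))) =
      Real.exp ((L + 1) * Real.log D - P.K * s ^ 2) := by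
    have h9 : D ^ L * D = Real.exp ((L + 1) * Real.log D) := by
      rw [← pow_succ, ← Real.exp_log (show 0 < D ^ (L + 1) by positivity), Real.log_pow]
      push_cast
      rfl
    rw [← mul_assoc, h9, ← Real.exp_add]
    congr 1
  rw [h8] at h7
  refine lt_of_le_of_lt h7 ?_
  rw [← Real.exp_log hη]
  apply Real.exp_lt_exp.2
  have h9 : (L + 1) * Real.log D ≤ (P.H * s / 2 + 1) * Real.log D :=
    mul_le_mul_of_nonneg_right (by linarith only [hLle]) hlogD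
  have h10 := neg_abs_le (Real.log η)
  linarith only [hkey, h9, h10]

end Par

end Vale.Agent.P103
end
end

section

section

/-!
# P103: exceptional times
-/

namespace Vale.Agent.P103

namespace Par

variable (P : Par)

theorem excHyp : P.ExcHyp where
  C := by
    have hΛ : 0 < P.Λ := lt_of_lt_of_le (by positivity) P.Λ_ge
    refine ⟨24 * P.Λ, by positivity, P.F_cap, P.W_cap, fun ζ z v => ?_⟩
    refine (P.F_norm_le ζ z v).trans ?_
    have h1 := norm_nonneg z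
    have h2 := norm_nonneg v
    have : 0 ≤ P.Λ * (‖z‖ + ‖v‖) := by positivity
    linarith
  e_norm_le ζ a ha u hu := P.e_norm_le ζ ha.le hu
  e_big ζ a ha u hu := by
    have hA := P.A_le ζ
    have hA0 : 0 ≤ P.A ζ := expNegInvGlue.nonneg _
    have ha0 : 0 < a := by linarith only [ha]
    rw [P.e_big ha0 (by linarith only [ha, hA]) hu]
    have hr : P.A ζ / a ≤ 1 / 1000 := by
      rw [div_le_iff₀ ha0]
      linarith
    have hr0 : 0 ≤ P.A ζ / a := div_nonneg hA0 ha0.le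
    have hS : S (P.A ζ / a) = 1 - P.A ζ / a := by
      unfold S
      rw [Real.smoothTransition.one_of_one_le (by linarith only [hr]), mul_one]
    rw [hS]
    have h2 : 1 / 2 ≤ (1 - P.A ζ / a) * a := by nlinarith only [ha, hr]
    have h3 : ((((((1 - P.A ζ / a) * a : ℝ) : ℂ) * u) • P.bas 0 : P.V) 0) =
        ((((1 - P.A ζ / a) * a : ℝ) : ℂ) * u) := by
      simp only [Complex.ofReal_mul, Complex.ofReal_sub, Complex.ofReal_one, Complex.ofReal_div, bas, PiLp.smul_apply, PiLp.single_eq_same, smul_eq_mul, mul_one]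
    rw [h3, norm_mul, hu, mul_one, Complex.norm_real, Real.norm_eq_abs]
    exact h2.trans (le_abs_self _)
  F_inv ζ a ha u hu := P.F_inv ζ ha hu
  Gam_pos ζ a ha := P.Gam_pos ζ ha
  escape η hη := by
    obtain ⟨T, hT⟩ := P.escape hη
    refine ⟨T, fun ζ a ha h0 => ?_⟩
    obtain ⟨j, hj, h1⟩ := hT ζ (a 0) h0
    refine ⟨j, hj, ?_⟩
    have : ∀ n, P.aIter ζ (a 0) n = a n := by
      intro n
      induction n with
      | zero => rfl
      | succ n ih => rw [ha, ← ih]; rfl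
    rwa [this] at h1
  small C η hη := P.small_before_capture C hη

theorem fM_exceptional {ε : ℝ} (hε : 0 < ε) :
    ∃ T : ℕ, ∃ U : Set (Sph ℂ × Sph P.V), (∀ a ∈ U, ∀ b ∈ U, dist a b ≤ ε) ∧
      ∀ (y : Circle × (Sph ℂ × Sph P.V)) (n : ℕ), ∃ E : Finset ℕ, E.card ≤ T ∧
        ∀ j < n, j ∉ E → (P.fM^[j] y).2 ∈ U ∨ (P.fM^[j] y).2 = (nor, sou) :=
  P.fM_exceptional_of P.excHyp hε

end Par

end Vale.Agent.P103
end
end

section

section

/-!
# P103: an eigenclass in real homology gives a lower bound for the spectral radius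
-/

namespace Vale.Agent.P103

open CategoryTheory AlgebraicTopology
open scoped TensorProduct

theorem le_rho_of_eigenclass {M : Type} [TopologicalSpace M] (f : C(M, M)) (k : ℕ) (l : ℝ)
    (x : ((singularHomologyFunctor (ModuleCat.{0} ℝ) k).obj (ModuleCat.of ℝ ℝ)).obj
      (TopCat.of M)) (hx : x ≠ 0) (hfx : homologyMap k f x = l • x) (hl : 0 ≤ l) :
    ENNReal.ofReal l ≤ rho f := by
  have hne : (1 : ℂ) ⊗ₜ[ℝ] x ≠ 0 := by
    intro h
    apply hx
    have hinj := Module.FaithfullyFlat.tensorProduct_mk_injective (A := ℝ) (B := ℂ)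
      (M := ((singularHomologyFunctor (ModuleCat.{0} ℝ) k).obj (ModuleCat.of ℝ ℝ)).obj
      (TopCat.of M))
    apply hinj
    simpa only [TensorProduct.mk_apply, TensorProduct.tmul_zero, Module.FaithfullyFlat.one_tmul_eq_zero_iff] using     h
  have hev : Module.End.HasEigenvalue ((homologyMap k f).baseChange ℂ) (l : ℂ) := by
    apply Module.End.hasEigenvalue_of_hasEigenvector (x := (1 : ℂ) ⊗ₜ[ℝ] x)
    refine ⟨?_, hne⟩
    rw [Module.End.mem_eigenspace_iff, LinearMap.baseChange_tmul, hfx, TensorProduct.tmul_smul]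
    rfl
  have h1 : ENNReal.ofReal l = ENNReal.ofReal ‖(l : ℂ)‖ := by
    rw [Complex.norm_real, Real.norm_of_nonneg hl]
  rw [h1]
  unfold rho
  exact le_iSup_of_le k (le_iSup_of_le (l : ℂ) (le_iSup_of_le hev le_rfl))

end Vale.Agent.P103
end
end

section

section

/-!
# P103: the homotopy between `f ∘ j` and `j ∘ D`, and the transfer to the spectral radius
-/

namespace Vale.Agent.P103

open CategoryTheory AlgebraicTopology
open scoped Topology unitInterval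

/-- the inclusion of `S²` as `{1} × S² × {w₀}` -/
noncomputable def Par.jmap (P : Par) : C(Sph ℂ, Circle × (Sph ℂ × Sph P.V)) :=
  ⟨fun x => (1, (x, sou)), by fun_prop⟩

/-- the projection to `S²` -/
noncomputable def Par.pmap (P : Par) : C(Circle × (Sph ℂ × Sph P.V), Sph ℂ) :=
  ⟨fun y => y.2.1, by fun_prop⟩

theorem Par.pmap_jmap (P : Par) : P.pmap.comp P.jmap = ContinuousMap.id _ := rfl

namespace Hm

/-- path from `ω` to `1` in the circle -/
theorem exists_circle_path (ω : Circle) : ∃ g : C(I, Circle), g 0 = ω ∧ g 1 = 1 := by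
  refine ⟨⟨fun s => Circle.exp ((1 - (s : ℝ)) * Complex.arg ω), by (clear * -; fun_prop)⟩, ?_, ?_⟩
  · simp only [ContinuousMap.coe_mk, Set.Icc.coe_zero, sub_zero, one_mul, Circle.exp_arg]
  · simp only [ContinuousMap.coe_mk, Set.Icc.coe_one, sub_self, zero_mul, Circle.exp_zero]

end Hm

/-- the homotopy `f ∘ j ≃ j ∘ D` -/
theorem Par.fM_homotopic' (P : Par) (hc : Continuous P.fM) :
    ContinuousMap.Homotopic ((⟨P.fM, hc⟩ : C(_, _)).comp P.jmap)
      (P.jmap.comp ⟨Dmap, continuous_Dmap⟩) := by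
  obtain ⟨g, hg0, hg1⟩ := Hm.exists_circle_path P.ω
  set f : C(Circle × (Sph ℂ × Sph P.V), Circle × (Sph ℂ × Sph P.V)) := ⟨P.fM, hc⟩ with hf
  let g2 : C(Sph ℂ, Sph ℂ) := ⟨fun x => (f (P.jmap x)).2.1, by (clear * - hc; fun_prop)⟩
  let g3 : C(Sph ℂ, Sph P.V) := ⟨fun x => (f (P.jmap x)).2.2, by (clear * - hc; fun_prop)⟩
  let H2 := sphereHomotopy g2 ⟨Dmap, continuous_Dmap⟩ (Hm.fib_fst_ne P)
  let H3 := sphereHomotopy g3 (ContinuousMap.const (Sph ℂ) (sou : Sph P.V)) (Hm.fib_snd_ne P)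
  refine ⟨{ toFun := fun q => (g q.1, (H2 q, H3 q))
            continuous_toFun := by fun_prop
            map_zero_left := ?_
            map_one_left := ?_ }⟩
  · intro x
    have h2 : H2 (0, x) = g2 x := H2.apply_zero x
    have h3 : H3 (0, x) = g3 x := H3.apply_zero x
    simp only [h2, h3, hg0]
    refine Prod.ext ?_ (Prod.ext rfl rfl)
    change P.ω = P.ω * 1
    rw [mul_one]
  · intro x
    have h2 : H2 (1, x) = Dmap x := H2.apply_one x
    have h3 : H3 (1, x) = sou := H3.apply_one x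
    simp only [h2, h3, hg1]
    rfl

namespace Hm

/-- induced map on real homology -/
noncomputable abbrev hm {X Y : Type} [TopologicalSpace X] [TopologicalSpace Y] (k : ℕ)
    (f : C(X, Y)) :
    (((singularHomologyFunctor (ModuleCat.{0} ℝ) k).obj (ModuleCat.of ℝ ℝ)).obj
      (TopCat.of X)) →ₗ[ℝ] (((singularHomologyFunctor (ModuleCat.{0} ℝ) k).obj
        (ModuleCat.of ℝ ℝ)).obj (TopCat.of Y)) :=
  (((singularHomologyFunctor (ModuleCat.{0} ℝ) k).obj (ModuleCat.of ℝ ℝ)).map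
    (TopCat.ofHom f)).hom

theorem hm_comp {X Y Z : Type} [TopologicalSpace X] [TopologicalSpace Y] [TopologicalSpace Z]
    (k : ℕ) (g : C(Y, Z)) (f : C(X, Y)) (x) : hm k (g.comp f) x = hm k g (hm k f x) := by
  unfold hm
  rw [← LinearMap.comp_apply, ← ModuleCat.hom_comp, ← Functor.map_comp]
  rfl

theorem hm_id {X : Type} [TopologicalSpace X] (k : ℕ) (x) :
    hm k (ContinuousMap.id X) x = x := by
  unfold hm
  have : TopCat.ofHom (ContinuousMap.id X) = 𝟙 (TopCat.of X) := rfl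
  rw [this, CategoryTheory.Functor.map_id]
  rfl

theorem hm_homotopic {X Y : Type} [TopologicalSpace X] [TopologicalSpace Y] (k : ℕ)
    {f g : C(X, Y)} (h : ContinuousMap.Homotopic f g) : hm k f = hm k g := by
  obtain ⟨H⟩ := h
  have H' : TopCat.Homotopy (TopCat.ofHom f) (TopCat.ofHom g) := H
  exact congrArg ModuleCat.Hom.hom
    (H'.congr_homologyMap_singularChainComplexFunctor (ModuleCat.of ℝ ℝ) k)

end Hm

/-- from an eigenclass on the two-sphere to the spectral radius of the global map -/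
theorem Par.two_le_rho' (P : Par) (hc : Continuous P.fM)
    (h : ∃ c : (((singularHomologyFunctor (ModuleCat.{0} ℝ) 2).obj (ModuleCat.of ℝ ℝ)).obj
      (TopCat.of (Sph ℂ))), c ≠ 0 ∧
        (((singularHomologyFunctor (ModuleCat.{0} ℝ) 2).obj (ModuleCat.of ℝ ℝ)).map
          (TopCat.ofHom ⟨Dmap, continuous_Dmap⟩)).hom c = (2 : ℝ) • c) :
    2 ≤ rho (⟨P.fM, hc⟩ : C(_, _)) := by
  obtain ⟨c, hc0, hD⟩ := h
  have hD' : Hm.hm 2 ⟨Dmap, continuous_Dmap⟩ c = (2 : ℝ) • c := hD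
  have h1 : Hm.hm 2 (⟨P.fM, hc⟩ : C(_, _)) (Hm.hm 2 P.jmap c) = (2 : ℝ) • Hm.hm 2 P.jmap c := by
    rw [← Hm.hm_comp, Hm.hm_homotopic 2 (P.fM_homotopic' hc), Hm.hm_comp, hD', map_smul]
  have h2 : Hm.hm 2 P.jmap c ≠ 0 := by
    intro h0
    apply hc0
    have := congrArg (Hm.hm 2 P.pmap) h0
    rwa [← Hm.hm_comp, P.pmap_jmap, Hm.hm_id, map_zero] at this
  have h3 := le_rho_of_eigenclass (⟨P.fM, hc⟩ : C(_, _)) 2 2 (Hm.hm 2 P.jmap c) h2 h1
    (by norm_num)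
  simpa only [ge_iff_le, ENNReal.ofReal_ofNat] using h3

end Vale.Agent.P103
end
end

section

section

/-!
# P103: Shub's entropy conjecture fails for `C^1` maps
-/

namespace Vale.Agent.P103

open Filter Topology CategoryTheory AlgebraicTopology
open scoped Manifold

namespace Par

variable (P : Par)

theorem fM_contMDiff :
    ContMDiff ((𝓡 1).prod ((𝓡 2).prod (𝓡 (2 * P.p)))) ((𝓡 1).prod ((𝓡 2).prod (𝓡 (2 * P.p)))) 1
      P.fM :=
  P.fM_contMDiff_of (P.F_contDiff_of P.WR_contDiff) P.WR_contDiff P.F_eq_W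
    (fun ζ _ hz => P.W_far ζ hz) P.A_le

theorem fM_continuous : Continuous P.fM := P.fM_contMDiff.continuous

theorem fM_entropy : IsTopEntropy P.fM 0 :=
  isTopEntropy_zero (fun ζ => P.ω * ζ) (isometry_rot _) (fun ζ z => P.fib ζ z.1 z.2)
    (nor, sou) (fun ζ => P.fib_nor ζ sou) P.fM (fun _ => rfl) (fun _ hε => P.fM_exceptional hε)

theorem two_le_rho : 2 ≤ rho (⟨P.fM, P.fM_continuous⟩ : C(_, _)) :=
  P.two_le_rho' P.fM_continuous _root_.P103.Hlg.exists_class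

end Par

theorem main : ¬ EntropyConjecture := by
  intro hconj
  obtain ⟨P⟩ := exists_Par
  have : Nonempty (Circle × (Sph ℂ × Sph P.V)) := ⟨(1, (nor, nor))⟩
  have h1 := hconj _ _ ((𝓡 1).prod ((𝓡 2).prod (𝓡 (2 * P.p))))
    (Circle × (Sph ℂ × Sph P.V)) (⟨P.fM, P.fM_continuous⟩ : C(_, _)) P.fM_contMDiff 0 P.fM_entropy
  exact not_log_two ((ENNReal.log_monotone P.two_le_rho).trans h1)

end Vale.Agent.P103
end
end

section

section

/-!
# P103: the counterexample has zero entropy and lives on a connected manifold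
-/

namespace Vale.Agent.P103

open Filter Topology CategoryTheory AlgebraicTopology
open scoped Manifold

theorem connectedSpace_sphere {E : Type} [NormedAddCommGroup E] [NormedSpace ℝ E]
    (h : 1 < Module.rank ℝ E) : ConnectedSpace (Metric.sphere (0 : E) 1) :=
  isConnected_iff_connectedSpace.mp (isConnected_sphere h 0 zero_le_one)

theorem connectedSpace_Sph (V : Type) [NormedAddCommGroup V] [InnerProductSpace ℝ V]
    {n : ℕ} (hn : 1 ≤ n) (h : Module.finrank ℝ (WithLp 2 (V × ℝ)) = n + 1) :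
    ConnectedSpace (Sph V) := by
  apply connectedSpace_sphere
  have hf : FiniteDimensional ℝ (WithLp 2 (V × ℝ)) := by
    apply FiniteDimensional.of_finrank_pos
    omega
  rw [← Module.finrank_eq_rank, h]
  have : (1 : ℕ) < n + 1 := by omega
  exact_mod_cast this

theorem connectedSpace_circle : ConnectedSpace Circle := by
  have h : ConnectedSpace (Metric.sphere (0 : ℂ) 1) := by
    apply connectedSpace_sphere
    rw [Complex.rank_real_complex]
    norm_num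
  exact h

namespace Par

variable (P : Par)

theorem hasEigenvalue_two :
    Module.End.HasEigenvalue (homologyMap 2 (⟨P.fM, P.fM_continuous⟩ : C(_, _))) (2 : ℝ) := by
  obtain ⟨c, hc0, hD⟩ := _root_.P103.Hlg.exists_class
  have hD' : Hm.hm 2 ⟨Dmap, continuous_Dmap⟩ c = (2 : ℝ) • c := hD
  have h1 : Hm.hm 2 (⟨P.fM, P.fM_continuous⟩ : C(_, _)) (Hm.hm 2 P.jmap c) =
      (2 : ℝ) • Hm.hm 2 P.jmap c := by
    rw [← Hm.hm_comp, Hm.hm_homotopic 2 (P.fM_homotopic' P.fM_continuous), Hm.hm_comp, hD',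
      map_smul]
  have h2 : Hm.hm 2 P.jmap c ≠ 0 := by
    intro h0
    apply hc0
    have := congrArg (Hm.hm 2 P.pmap) h0
    rwa [← Hm.hm_comp, P.pmap_jmap, Hm.hm_id, map_zero] at this
  apply Module.End.hasEigenvalue_of_hasEigenvector (x := Hm.hm 2 P.jmap c)
  exact ⟨Module.End.mem_eigenspace_iff.mpr h1, h2⟩

end Par

end Vale.Agent.P103
end
end
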